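import Vale.Agent.P073.SMV.GB2
import Vale.Agent.P073.ConHomeo
import Vale.Agent.P073.ConicalStrata

/-!
# Block SM (smoothing): definitions and statements

* `ClassOne`: homeomorphisms, smooth with injective derivative off a locally finite set `S`, and
  positively homogeneous near the points of `S`.
* `SpecEF` (faces and edges): conical homeomorphisms are approximable by maps of `ClassOne`.
* `SpecV` (vertices): maps of `ClassOne` are approximable by diffeomorphisms.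
* `SpecSM`: conical homeomorphisms are approximable by diffeomorphisms.
-/

namespace Vale.Agent.P073.SMV

open Set Filter Topology Metric MeasureTheory
open scoped ContDiff ENNReal
open _root_.P073

/-- Euclidean three-space. -/
abbrev R3 : Type := EuclideanSpace ℝ (Fin 3)

/-- Positively homogeneous of degree one. -/
def PosHom' {E : Type*} [NormedAddCommGroup E] [NormedSpace ℝ E] (H : E → E) : Prop :=
  ∀ c : ℝ, 0 < c → ∀ x, H (c • x) = c • H x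

/-- The class of the intermediate maps. -/
structure ClassOne (Ω Λ S : Set R3) (h k : R3 → R3) : Prop extends HomeoOn Ω Λ h k where
  sub : S ⊆ Ω
  fin : ∀ K ⊆ Ω, IsCompact K → (S ∩ K).Finite
  reg : ∀ x ∈ Ω, x ∉ S → RegAt h x
  cone : ∀ v ∈ S, ∃ (H : R3 → R3) (r : ℝ), 0 < r ∧ PosHom' H ∧ (∀ x, x ≠ 0 → RegAt H x) ∧
    ∀ x, ‖x‖ ≤ r → h (v + x) = h v + H x

/-- Admissible measures on `Ω`: finite on compact subsets of `Ω`, and without atoms in `Ω`. -/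
structure AdmMeas (Ω : Set R3) (μ : Measure R3) : Prop where
  fin : ∀ K ⊆ Ω, IsCompact K → μ K < ⊤
  noAtoms : ∀ x ∈ Ω, μ {x} = 0

/-- The vertex step. -/
def SpecV : Prop :=
  ∀ (Ω Λ S : Set R3) (h k : R3 → R3) (p : ℝ) (μ : Measure R3) (ε : R3 → ℝ), 0 < p →
    IsOpen Ω → IsConnected Ω → Bornology.IsBounded Ω → IsOpen Λ → ClassOne Ω Λ S h k →
    AdmMeas Ω μ → ContinuousOn ε Ω → (∀ x ∈ Ω, 0 < ε x) →
    ∃ g k' : R3 → R3, DiffeoOn Ω Λ g k' ∧ (∀ x ∈ Ω, ‖g x - h x‖ ≤ ε x) ∧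
      ∫⁻ x in Ω, ENNReal.ofReal (‖fderiv ℝ g x - fderiv ℝ h x‖ ^ p) ∂μ ≤ 1

/-- The common form of the approximation statements for a conical homeomorphism `h`: the family
of measures `μ i` is locally finite in `Ω`, and at `μ i`-almost every point the vector `τ i` belongs
to the linearity space of `h`, so that the derivative of `h` in direction `τ i` is
`tcone h x (τ i)`. For the volume take `τ` a basis vector, for the length on an edge of a net the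
direction of this edge, for the area on a face of a box a direction of this face. -/
def ConData (Ω Λ : Set R3) (h : ConHomeo Ω Λ) (μ : ℕ → Measure R3) (τ : ℕ → R3) : Prop :=
  (∀ i, AdmMeas Ω (μ i)) ∧ (∀ K ⊆ Ω, IsCompact K → {i | μ i K ≠ 0}.Finite) ∧
    ∀ i, ∀ᵐ x ∂(μ i), x ∈ Ω → τ i ∈ linSpace h.toFun x

/-- The face and edge steps. -/
def SpecEF : Prop :=
  ∀ (Ω Λ : Set R3) (h : ConHomeo Ω Λ) (p : ℝ) (μ : ℕ → Measure R3) (τ : ℕ → R3) (η : ℕ → ℝ)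
    (ε : R3 → ℝ), 0 < p → IsOpen Ω → IsConnected Ω → Bornology.IsBounded Ω → IsOpen Λ →
    Bornology.IsBounded Λ → ConData Ω Λ h μ τ → (∀ i, 0 < η i) → ContinuousOn ε Ω → (∀ x ∈ Ω, 0 < ε x) →
    ∃ (S : Set R3) (g k' : R3 → R3), ClassOne Ω Λ S g k' ∧
      (∀ x ∈ Ω, ‖g x - h.toFun x‖ ≤ ε x) ∧
      ∀ i, ∫⁻ x in Ω, ENNReal.ofReal (‖fderiv ℝ g x (τ i) - tcone h.toFun x (τ i)‖ ^ p) ∂(μ i) ≤
        ENNReal.ofReal (η i)

/-- Countable families of disjoint segments from given points to the boundary. -/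
def SpecSeg : Prop :=
  ∀ (Ω : Set R3) (μ : Measure R3), IsOpen Ω → Bornology.IsBounded Ω → AdmMeas Ω μ →
    ∀ (ι : Type) (_ : Countable ι) (v : ι → R3) (r : ι → ℝ), (∀ i, v i ∈ Ω) → (∀ i, 0 < r i) →
    (∀ i, closedBall (v i) (2 * r i) ⊆ Ω) → (∀ K ⊆ Ω, IsCompact K → {i | v i ∈ K}.Finite) →
    ∃ (x d : ι → R3) (R : ι → ℝ), (∀ i, ‖x i - v i‖ < r i) ∧
      (∀ i, 0 < R i ∧ ‖d i‖ = 1 ∧ (∀ t ∈ Ico 0 (R i), x i + t • d i ∈ Ω) ∧
        x i + R i • d i ∉ Ω) ∧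
      (∀ i j, i ≠ j → ∀ s ∈ Ico 0 (R i), ∀ t ∈ Ico 0 (R j), x i + s • d i ≠ x j + t • d j) ∧
      (∀ K ⊆ Ω, IsCompact K → {i | ∃ t ∈ Ico 0 (R i), x i + t • d i ∈ K}.Finite) ∧
      ∀ i, μ ((fun t : ℝ => x i + t • d i) '' Ico 0 (R i)) = 0

/-- The smoothing theorem. -/
def SpecSM : Prop :=
  ∀ (Ω Λ : Set R3) (h : ConHomeo Ω Λ) (p : ℝ) (μ : ℕ → Measure R3) (τ : ℕ → R3) (η : ℕ → ℝ)
    (ε : R3 → ℝ), 1 ≤ p → IsOpen Ω → IsConnected Ω → Bornology.IsBounded Ω → IsOpen Λ →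
    Bornology.IsBounded Λ → ConData Ω Λ h μ τ → (∀ i, 0 < η i) → ContinuousOn ε Ω → (∀ x ∈ Ω, 0 < ε x) →
    ∃ g k' : R3 → R3, DiffeoOn Ω Λ g k' ∧ (∀ x ∈ Ω, ‖g x - h.toFun x‖ ≤ ε x) ∧
      ∀ i, ∫⁻ x in Ω, ENNReal.ofReal (‖fderiv ℝ g x (τ i) - tcone h.toFun x (τ i)‖ ^ p) ∂(μ i) ≤
        ENNReal.ofReal (η i)

end Vale.Agent.P073.SMV
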