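import Vale.Agent.P073.SMV.Spec

/-!
# P073, block SMV (helper489): the smoothing theorem from its two steps
-/

namespace Vale.Agent.P073.SMV

open Set Filter Topology Metric MeasureTheory
open scoped ContDiff ENNReal
open _root_.P073

namespace Fin489

theorem rpow_add_le {a b p : ℝ} (ha : 0 ≤ a) (hb : 0 ≤ b) (hp : 0 ≤ p) :
    (a + b) ^ p ≤ 2 ^ p * a ^ p + 2 ^ p * b ^ p := by
  rcases le_total a b with h | h
  · calc (a + b) ^ p ≤ (2 * b) ^ p := Real.rpow_le_rpow (by positivity) (by linarith) hp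
      _ = 2 ^ p * b ^ p := Real.mul_rpow (by norm_num) hb
      _ ≤ 2 ^ p * a ^ p + 2 ^ p * b ^ p := le_add_of_nonneg_left (by positivity)
  · calc (a + b) ^ p ≤ (2 * a) ^ p := Real.rpow_le_rpow (by positivity) (by linarith) hp
      _ = 2 ^ p * a ^ p := Real.mul_rpow (by norm_num) ha
      _ ≤ 2 ^ p * a ^ p + 2 ^ p * b ^ p := le_add_of_nonneg_right (by positivity)

/-- the weighted sum of the measures -/
noncomputable def wsum (w : ℕ → ℝ) (μ : ℕ → Measure R3) : Measure R3 :=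
  Measure.sum fun i => ENNReal.ofReal (w i) • μ i

theorem wsum_adm {Ω : Set R3} (w : ℕ → ℝ) {μ : ℕ → Measure R3} (hμ : ∀ i, AdmMeas Ω (μ i))
    (hloc : ∀ K ⊆ Ω, IsCompact K → {i | μ i K ≠ 0}.Finite) : AdmMeas Ω (wsum w μ) := by
  refine ⟨fun K hK hKc => ?_, fun x hx => ?_⟩
  · rw [wsum, Measure.sum_apply _ hKc.measurableSet]
    have hfin := hloc K hK hKc
    rw [tsum_eq_sum (s := hfin.toFinset)]
    · rw [ENNReal.sum_lt_top]
      intro i _
      rw [Measure.smul_apply, smul_eq_mul]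
      exact ENNReal.mul_lt_top ENNReal.ofReal_lt_top ((hμ i).fin K hK hKc)
    · intro i hi
      have : μ i K = 0 := by
        by_contra hc
        exact hi (hfin.mem_toFinset.2 hc)
      rw [Measure.smul_apply, this, smul_zero]
  · rw [wsum, Measure.sum_apply _ (measurableSet_singleton x), ENNReal.tsum_eq_zero]
    intro i
    rw [Measure.smul_apply, (hμ i).noAtoms x hx, smul_zero]

theorem le_wsum (w : ℕ → ℝ) (μ : ℕ → Measure R3) (Ω : Set R3) (f : R3 → ℝ≥0∞) (i : ℕ) :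
    ENNReal.ofReal (w i) * ∫⁻ x in Ω, f x ∂(μ i) ≤ ∫⁻ x in Ω, f x ∂(wsum w μ) := by
  have h1 : ENNReal.ofReal (w i) • μ i ≤ wsum w μ := Measure.le_sum _ i
  calc ENNReal.ofReal (w i) * ∫⁻ x in Ω, f x ∂(μ i)
      = ∫⁻ x in Ω, f x ∂(ENNReal.ofReal (w i) • μ i) := by
        rw [Measure.restrict_smul, lintegral_smul_measure, smul_eq_mul]
    _ ≤ ∫⁻ x in Ω, f x ∂(wsum w μ) :=
        lintegral_mono' (Measure.restrict_mono_measure h1 _) (le_refl _)

end Fin489

open Fin489 in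
/-- **(SM)** from the face and edge steps and the vertex step. -/
theorem specSM (hEF : SpecEF) (hV : SpecV) : SpecSM := by
  intro Ω Λ h p μ τ η ε hp hΩ hΩc hΩb hΛ hΛb hcon hη hεc hε
  have hp0 : 0 < p := by linarith
  have h2p : (0:ℝ) < 2 ^ p := by positivity
  obtain ⟨S, g₁, k₁, hg₁, hclose₁, hint₁⟩ := hEF Ω Λ h p μ τ (fun i => η i / (2 * 2 ^ p))
    (fun x => ε x / 2) hp0 hΩ hΩc hΩb hΛ hΛb hcon (fun i => by have := hη i; positivity)
    (hεc.div_const 2) (fun x hx => half_pos (hε x hx))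
  set w : ℕ → ℝ := fun i => 2 * 2 ^ p * (1 + ‖τ i‖ ^ p) / η i with hw
  have hw0 : ∀ i, 0 < w i := fun i => by
    have := hη i
    have h1 : 0 ≤ ‖τ i‖ ^ p := by positivity
    simp only [hw]
    positivity
  obtain ⟨g, k', hg, hclose, hint⟩ := hV Ω Λ S g₁ k₁ p (wsum w μ) (fun x => ε x / 2) hp0 hΩ hΩc hΩb
    hΛ hg₁ (wsum_adm w hcon.1 hcon.2.1) (hεc.div_const 2) (fun x hx => half_pos (hε x hx))
  refine ⟨g, k', hg, ?_, ?_⟩
  · intro x hx
    calc ‖g x - h.toFun x‖ = ‖(g x - g₁ x) + (g₁ x - h.toFun x)‖ := by rw [sub_add_sub_cancel]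
      _ ≤ ‖g x - g₁ x‖ + ‖g₁ x - h.toFun x‖ := norm_add_le _ _
      _ ≤ ε x / 2 + ε x / 2 := add_le_add (hclose x hx) (hclose₁ x hx)
      _ = ε x := by ring
  · intro i
    have hη' := hη i
    set A : R3 → ℝ≥0∞ := fun x => ENNReal.ofReal (‖fderiv ℝ g x - fderiv ℝ g₁ x‖ ^ p) with hA
    set B : R3 → ℝ≥0∞ := fun x =>
      ENNReal.ofReal (‖fderiv ℝ g₁ x (τ i) - tcone h.toFun x (τ i)‖ ^ p) with hB
    have hAm : Measurable A := by
      refine ENNReal.measurable_ofReal.comp ?_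
      exact (((measurable_fderiv ℝ g).sub (measurable_fderiv ℝ g₁)).norm).pow_const p
    have hpt : ∀ x, ENNReal.ofReal (‖fderiv ℝ g x (τ i) - tcone h.toFun x (τ i)‖ ^ p) ≤
        ENNReal.ofReal (2 ^ p * ‖τ i‖ ^ p) * A x + ENNReal.ofReal (2 ^ p) * B x := by
      intro x
      rw [hA, hB]
      simp only
      rw [← ENNReal.ofReal_mul (by positivity), ← ENNReal.ofReal_mul (by positivity),
        ← ENNReal.ofReal_add (by positivity) (by positivity)]
      refine ENNReal.ofReal_le_ofReal ?_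
      calc ‖fderiv ℝ g x (τ i) - tcone h.toFun x (τ i)‖ ^ p
          ≤ (‖fderiv ℝ g x - fderiv ℝ g₁ x‖ * ‖τ i‖ +
              ‖fderiv ℝ g₁ x (τ i) - tcone h.toFun x (τ i)‖) ^ p := by
            refine Real.rpow_le_rpow (norm_nonneg _) ?_ hp0.le
            calc ‖fderiv ℝ g x (τ i) - tcone h.toFun x (τ i)‖
                = ‖(fderiv ℝ g x - fderiv ℝ g₁ x) (τ i) +
                  (fderiv ℝ g₁ x (τ i) - tcone h.toFun x (τ i))‖ := by
                  congr 1
                  rw [_root_.sub_apply]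
                  abel
              _ ≤ _ := (norm_add_le _ _).trans
                  (add_le_add_left (ContinuousLinearMap.le_opNorm _ _) _)
        _ ≤ 2 ^ p * (‖fderiv ℝ g x - fderiv ℝ g₁ x‖ * ‖τ i‖) ^ p +
              2 ^ p * ‖fderiv ℝ g₁ x (τ i) - tcone h.toFun x (τ i)‖ ^ p :=
            rpow_add_le (by positivity) (norm_nonneg _) hp0.le
        _ = 2 ^ p * ‖τ i‖ ^ p * ‖fderiv ℝ g x - fderiv ℝ g₁ x‖ ^ p +
              2 ^ p * ‖fderiv ℝ g₁ x (τ i) - tcone h.toFun x (τ i)‖ ^ p := by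
            rw [Real.mul_rpow (norm_nonneg _) (norm_nonneg _)]
            ring
    have hAi : ∫⁻ x in Ω, A x ∂(μ i) ≤ ENNReal.ofReal (1 / w i) := by
      have h1 := (le_wsum w μ Ω A i).trans hint
      rw [one_div, ENNReal.ofReal_inv_of_pos (hw0 i)]
      rw [mul_comm] at h1
      have hw1 : ENNReal.ofReal (w i) ≠ 0 := by
        rw [Ne, ENNReal.ofReal_eq_zero, not_le]; exact hw0 i
      rw [← one_div, ENNReal.le_div_iff_mul_le (Or.inl hw1) (Or.inl ENNReal.ofReal_ne_top)]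
      exact h1
    calc ∫⁻ x in Ω, ENNReal.ofReal (‖fderiv ℝ g x (τ i) - tcone h.toFun x (τ i)‖ ^ p) ∂(μ i)
        ≤ ∫⁻ x in Ω, (ENNReal.ofReal (2 ^ p * ‖τ i‖ ^ p) * A x + ENNReal.ofReal (2 ^ p) * B x)
            ∂(μ i) := lintegral_mono hpt
      _ = ENNReal.ofReal (2 ^ p * ‖τ i‖ ^ p) * (∫⁻ x in Ω, A x ∂(μ i)) +
            ENNReal.ofReal (2 ^ p) * ∫⁻ x in Ω, B x ∂(μ i) := by
          rw [lintegral_add_left (hAm.const_mul _), lintegral_const_mul _ hAm,
            lintegral_const_mul' _ _ ENNReal.ofReal_ne_top]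
      _ ≤ ENNReal.ofReal (2 ^ p * ‖τ i‖ ^ p) * ENNReal.ofReal (1 / w i) +
            ENNReal.ofReal (2 ^ p) * ENNReal.ofReal (η i / (2 * 2 ^ p)) := by
          gcongr
          exact hint₁ i
      _ = ENNReal.ofReal (2 ^ p * ‖τ i‖ ^ p * (1 / w i) + 2 ^ p * (η i / (2 * 2 ^ p))) := by
          have := hw0 i
          rw [← ENNReal.ofReal_mul (by positivity), ← ENNReal.ofReal_mul (by positivity),
            ← ENNReal.ofReal_add (by positivity) (by positivity)]
      _ ≤ ENNReal.ofReal (η i) := by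
          refine ENNReal.ofReal_le_ofReal ?_
          have e1 : 2 ^ p * (η i / (2 * 2 ^ p)) = η i / 2 := by field_simp
          have e2 : 2 ^ p * ‖τ i‖ ^ p * (1 / w i) = (η i / 2) * (‖τ i‖ ^ p / (1 + ‖τ i‖ ^ p)) := by
            have h1 : 0 ≤ ‖τ i‖ ^ p := by positivity
            have h2 : 1 + ‖τ i‖ ^ p ≠ 0 := by positivity
            simp only [hw]
            field_simp
          have e3 : ‖τ i‖ ^ p / (1 + ‖τ i‖ ^ p) ≤ 1 := by
            have h1 : 0 ≤ ‖τ i‖ ^ p := by positivity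
            rw [div_le_one (by positivity)]
            linarith
          rw [e1, e2]
          nlinarith

end Vale.Agent.P073.SMV
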