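import Vale.Agent.P073.SMV.Patch
import Vale.Agent.P073.SMV.Fin

/-!
# The vertex step
-/

namespace Vale.Agent.P073.SMV

open Set Filter Topology Metric MeasureTheory
open scoped ContDiff ENNReal NNReal
open Seg

variable {Ω Λ : Set R3} {ι : Type} {x d : ι → R3} {R : ι → ℝ}

theorem volume_sg (x d : R3) (R : ℝ) : volume (sg x d R) = 0 := by
  apply measure_mono_null _ (volume_Ln x d)
  rintro _ ⟨t, -, rfl⟩
  exact ⟨t, rfl⟩

/-- A ball off the segments. -/
theorem SegData.exists_free [Countable ι] (hs : SegData Ω x d R) (hΩ : IsOpen Ω)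
    (hne : Ω.Nonempty) : ∃ (x0 : R3) (r0 : ℝ), 0 < r0 ∧ ball x0 (2 * r0) ⊆ Ω ∧
      ∀ i, ∀ z ∈ sg (x i) (d i) (R i), 2 * r0 ≤ dist z x0 := by
  have h1 := hs.isOpen_sdiff hΩ univ
  have h2 : (Ω \ ⋃ j ∈ (univ : Set ι), sg (x j) (d j) (R j)).Nonempty := by
    by_contra hcon
    have hsub : Ω ⊆ ⋃ j ∈ (univ : Set ι), sg (x j) (d j) (R j) := by
      intro y hy
      by_contra hyn
      exact hcon ⟨y, hy, hyn⟩
    have h3 : volume Ω = 0 := by
      apply measure_mono_null hsub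
      simp only [mem_univ, iUnion_true]
      rw [measure_iUnion_null_iff]
      exact fun i => volume_sg _ _ _
    exact (hΩ.measure_pos volume hne).ne' h3
  obtain ⟨x0, hx0⟩ := h2
  obtain ⟨r, hr, hb⟩ := Metric.isOpen_iff.1 h1 x0 hx0
  refine ⟨x0, r / 2, by positivity, ?_, fun i z hz => ?_⟩
  · intro y hy
    rw [mul_div_cancel₀ _ (two_ne_zero)] at hy
    exact (hb hy).1
  · by_contra hcon
    push Not at hcon
    rw [mul_div_cancel₀ _ (two_ne_zero)] at hcon
    exact (hb hcon).2 (mem_iUnion₂.2 ⟨i, mem_univ i, hz⟩)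

theorem vertex_step [Countable ι] {h k : R3 → R3} (hΩ : IsOpen Ω) (hΩc : IsConnected Ω)
    (hΩb : Bornology.IsBounded Ω) (hΛ : IsOpen Λ) (hseg : SegData Ω x d R)
    (hc : ClassOne Ω Λ (range x) h k) {μ : Measure R3} (hμ : AdmMeas Ω μ)
    (hμseg : ∀ i, μ (sg (x i) (d i) (R i)) = 0) {p : ℝ} (hp : 0 < p) {ε : R3 → ℝ}
    (hε : ContinuousOn ε Ω) (hεpos : ∀ y ∈ Ω, 0 < ε y) {η : ℝ≥0∞} (hη : η ≠ 0) :
    ∃ g k' : R3 → R3, DiffeoOn Ω Λ g k' ∧ Close Ω μ p ε η g h := by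
  have hcompl : (Ωᶜ).Nonempty := by
    by_contra hcon
    rw [not_nonempty_iff_eq_empty, compl_empty_iff] at hcon
    rw [hcon] at hΩb
    exact NormedSpace.unbounded_univ ℝ R3 hΩb
  obtain ⟨M, hM, hprof⟩ := exists_profile (E := R3)
  obtain ⟨c, hcc, hcb⟩ := exists_cont_majorant (hc.locally_bounded hΩ hΛ)
  obtain ⟨x0, r0, hr0, hb0, hfree⟩ := hseg.exists_free hΩ hΩc.nonempty
  obtain ⟨η0, hη0, hfib⟩ := hc.toHomeoOn.exists_fiber hΩ hΛ hr0
    ((ball_subset_ball (by linarith)).trans hb0)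
  obtain ⟨w, hw0, hwsum⟩ := ENNReal.exists_pos_sum_of_countable' hη ι
  -- the closeness function
  obtain ⟨m, hm, hmP⟩ := exists_cont_radius (Ω := Ω)
    (P := fun y m => closedBall (h y) (2 * m) ⊆ Λ) (by
      intro z a b _ hba h1
      exact (closedBall_subset_closedBall (by linarith)).trans h1) (by
      intro z hz
      obtain ⟨r, hr, hb⟩ := Metric.nhds_basis_closedBall.mem_iff.1 (hΛ.mem_nhds (hc.maps hz))
      refine ⟨r / 4, by positivity, ?_⟩
      apply eventually_nhdsWithin_of_eventually_nhds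
      filter_upwards [(hc.cont.continuousAt (hΩ.mem_nhds hz)).eventually
        (ball_mem_nhds _ (by positivity : 0 < r / 2))] with y hy
      refine Subset.trans ?_ hb
      intro u hu
      rw [mem_closedBall] at hu ⊢
      have := dist_triangle u (h y) (h z)
      linarith)
  set ε' : R3 → ℝ := fun y => min (ε y) (min (m y) (min 1 (η0 / 2))) with hε'
  have hε'c : ContinuousOn ε' Ω := hε.inf (hm.inf continuousOn_const)
  have hε'pos : ∀ y ∈ Ω, 0 < ε' y := fun y hy =>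
    lt_min (hεpos y hy) (lt_min (hmP y hy).1 (lt_min one_pos (by positivity)))
  have hε'1 : ∀ y, ε' y ≤ ε y := fun y => min_le_left _ _
  have hε'2 : ∀ y, ε' y ≤ m y := fun y => (min_le_right _ _).trans (min_le_left _ _)
  have hε'3 : ∀ y, ε' y ≤ 1 := fun y =>
    (min_le_right _ _).trans ((min_le_right _ _).trans (min_le_left _ _))
  have hε'4 : ∀ y, ε' y ≤ η0 / 2 := fun y =>
    (min_le_right _ _).trans ((min_le_right _ _).trans (min_le_right _ _))
  -- the open sets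
  set W : ι → Set R3 := fun i => Ω \ ⋃ j ∈ ({i}ᶜ : Set ι), sg (x j) (d j) (R j) with hWdef
  have hWo : ∀ i, IsOpen (W i) := fun i => hseg.isOpen_sdiff hΩ _
  have hWΩ : ∀ i, W i ⊆ Ω := fun i => sdiff_subset
  have hsgW : ∀ i, ∀ t ∈ Ico 0 (R i), x i + t • d i ∈ W i := by
    intro i t ht
    refine ⟨hseg.mem i t ht, ?_⟩
    intro hcon
    obtain ⟨j, hj, s, hs, hst⟩ := mem_iUnion₂.1 hcon
    exact hseg.disj j i hj s hs t ht hst
  have hsgW' : ∀ i j, i ≠ j → ∀ z ∈ sg (x j) (d j) (R j), z ∈ (W i)ᶜ := by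
    intro i j hij z hz hzW
    exact hzW.2 (mem_iUnion₂.2 ⟨j, Ne.symm hij, hz⟩)
  have hxsg : ∀ i, x i ∈ sg (x i) (d i) (R i) := fun i => ⟨0, ⟨le_rfl, hseg.pos i⟩, by simp⟩
  have hpatch : ∀ i, ∃ (P : Set R3) (G : R3 → R3), IsClosed P ∧ x i ∈ P ∧
      (∀ y ∈ Ω, y ∈ P → ∃ z ∈ sg (x i) (d i) (R i), dist y z ≤ infDist z (W i)ᶜ / 4 ∧
        dist y z ≤ r0 / 2) ∧
      (∀ y ∈ Ω, y ∉ P → G y = h y) ∧ (∀ y ∈ Ω, y ∈ P → RegAt G y) ∧
      (∀ y ∈ Ω, y ∈ P → ‖G y - h y‖ ≤ ε' y) ∧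
      ∫⁻ y in Ω ∩ P, ENNReal.ofReal (‖fderiv ℝ G y - fderiv ℝ h y‖ ^ p) ∂μ ≤ w i := by
    intro i
    apply exists_patch hΩ hΛ hc hM hprof (hWo i) (hWΩ i) (mem_range_self i) _ (hseg.pos i)
      (hseg.unit i) (hsgW i) (hseg.out i) hε'c hε'pos hcc hcb hr0 hμ (hμseg i) hp (hw0 i).ne'
    rintro _ ⟨j, rfl⟩ hj
    by_contra hne
    have hij : i ≠ j := fun h => hne (by rw [h])
    exact hsgW' i j hij _ (hxsg j) hj
  choose P G hPc hxP hPz hPout hPreg hPclose hPen using hpatch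
  have hposW : ∀ i, ∀ z ∈ sg (x i) (d i) (R i), 0 < infDist z (W i)ᶜ := by
    rintro i _ ⟨t, ht, rfl⟩
    apply infDist_compl_pos (hWo i) _ (hsgW i t ht)
    exact ⟨_, fun hm => hseg.out i (hWΩ i hm)⟩
  have hdisj : ∀ i j, i ≠ j → ∀ y ∈ Ω, y ∈ P i → y ∉ P j := by
    intro i j hij y hy hyi hyj
    obtain ⟨z, hz, hyz, -⟩ := hPz i y hy hyi
    obtain ⟨z', hz', hyz', -⟩ := hPz j y hy hyj
    have h1 : infDist z (W i)ᶜ ≤ dist z z' := infDist_le_dist_of_mem (hsgW' i j hij z' hz')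
    have h2 : infDist z' (W j)ᶜ ≤ dist z' z :=
      infDist_le_dist_of_mem (hsgW' j i (Ne.symm hij) z hz)
    have h3 := hposW i z hz
    have h4 : dist z z' ≤ dist y z + dist y z' := by
      rw [dist_comm y z]; exact dist_triangle _ _ _
    rw [dist_comm z' z] at h2
    linarith
  have hlocfin := locfin_thick (ι := ι) hΩ hcompl (Z := fun i => sg (x i) (d i) (R i)) (C := P)
    (by
      intro K hK hKc
      refine (hseg.fin K hK hKc).subset ?_
      rintro i ⟨_, ⟨t, ht, rfl⟩, hz⟩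
      exact ⟨t, ht, hz⟩)
    (by
      intro i y hyP hy
      obtain ⟨z, hz, hyz, -⟩ := hPz i y hy hyP
      refine ⟨z, hz, hyz.trans ?_⟩
      have : infDist z (W i)ᶜ ≤ infDist z Ωᶜ :=
        infDist_le_infDist_of_subset (compl_subset_compl.2 (hWΩ i)) hcompl
      linarith)
  obtain ⟨g, hg1, hg2⟩ := exists_glue hΩ hPc hdisj hlocfin G h hPout
  have hreg : ∀ y ∈ Ω, RegAt g y := by
    intro y hy
    by_cases hex : ∃ i, y ∈ P i
    · obtain ⟨i, hi⟩ := hex
      exact (hPreg i y hy hi).congr (hg1 y hy i hi)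
    · push Not at hex
      refine RegAt.congr (hc.reg y hy ?_) (hg2 y hy hex)
      rintro ⟨i, rfl⟩
      exact hex i (hxP i)
  have hclose : ∀ y ∈ Ω, ‖g y - h y‖ ≤ ε' y := by
    intro y hy
    by_cases hex : ∃ i, y ∈ P i
    · obtain ⟨i, hi⟩ := hex
      rw [(hg1 y hy i hi).eq_of_nhds]
      exact hPclose i y hy hi
    · push Not at hex
      rw [(hg2 y hy hex).eq_of_nhds, sub_self, norm_zero]
      exact (hε'pos y hy).le
  have hfine : FineClose Ω Λ g h := by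
    refine ⟨ε', fun y hy => ⟨hε'3 y, ?_, ?_⟩⟩
    · refine (closedBall_subset_closedBall ?_).trans (hmP y hy).2
      linarith [hε'2 y]
    · rw [dist_eq_norm]; exact hclose y hy
  have hfiber : ∀ y ∈ Ω, g y = g x0 → y = x0 := by
    apply hfib g
    · intro y hy
      have hyΩ : y ∈ Ω := hb0 (ball_subset_ball (by linarith) hy)
      refine (hg2 y hyΩ ?_).eq_of_nhds
      intro i hi
      obtain ⟨z, hz, -, hyz⟩ := hPz i y hyΩ hi
      have h1 := hfree i z hz
      rw [mem_ball] at hy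
      have h2 := dist_triangle z y x0
      rw [dist_comm z y] at h2
      linarith
    · intro y hy
      have := hclose y hy
      have := hε'4 y
      linarith
  obtain ⟨k', hk'⟩ := DiffeoOn.of_fineClose hΩ hΛ
    (by
      have : Λ = h '' Ω := by
        ext y
        constructor
        · intro hy
          exact ⟨k y, hc.maps' hy, hc.right y hy⟩
        · rintro ⟨z, hz, rfl⟩
          exact hc.maps hz
      rw [this]
      exact (hΩc.image h hc.cont).isPreconnected) hc.toHomeoOn hfine hreg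
    (hb0 (mem_ball_self (by linarith))) hfiber
  refine ⟨g, k', hk', fun y hy => (hclose y hy).trans (hε'1 y), ?_⟩
  refine (lintegral_glue_le hg1 hg2 hp μ hΩ.measurableSet (fun i => (hPc i).measurableSet)).trans ?_
  exact (ENNReal.tsum_le_tsum hPen).trans hwsum.le

open Fin489 in
/-- **The vertex step.** -/
theorem specV : SpecV := by
  intro Ω Λ S h k p μ ε hp hΩ hΩc hΩb hΛ hc hμ hε hεpos
  have hη : ENNReal.ofReal (2⁻¹ * (2 ^ p)⁻¹) ≠ 0 := by
    rw [Ne, ENNReal.ofReal_eq_zero, not_le]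
    positivity
  have hε2 : ContinuousOn (fun y => ε y / 2) Ω := hε.div_const 2
  have hε2pos : ∀ y ∈ Ω, 0 < ε y / 2 := fun y hy => by have := hεpos y hy; positivity
  obtain ⟨r, hr, hrΩ, hshift⟩ := shift_step hΩ hΩc hΩb hΛ hc hμ hp hε2 hε2pos hη
  have hcount : Countable S := (countable_of_locfin hΩ hc.sub hc.fin).to_subtype
  obtain ⟨x, d, R, hx1, hx2, hx3, hx4, hx5⟩ := specSeg Ω μ hΩ hΩb hμ S hcount
    (fun v => (v : R3)) r (fun v => hc.sub v.2) hr hrΩ (by
      intro K hK hKc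
      exact (hc.fin K hK hKc).preimage Subtype.val_injective.injOn |>.subset
        (fun i hi => ⟨i.2, hi⟩))
  have hseg : SegData Ω x d R := ⟨fun i => (hx2 i).1, fun i => (hx2 i).2.1,
    fun i => (hx2 i).2.2.1, fun i => (hx2 i).2.2.2, hx3, hx4⟩
  obtain ⟨h0, k0, hc0, hclose0⟩ := hshift x hx1
  obtain ⟨g, k', hg, hclose⟩ := vertex_step hΩ hΩc hΩb hΛ hseg hc0 hμ hx5 hp hε2 hε2pos hη
  refine ⟨g, k', hg, fun y hy => ?_, ?_⟩
  · calc ‖g y - h y‖ = ‖(g y - h0 y) + (h0 y - h y)‖ := by congr 1; abel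
      _ ≤ ‖g y - h0 y‖ + ‖h0 y - h y‖ := norm_add_le _ _
      _ ≤ ε y / 2 + ε y / 2 := add_le_add (hclose.dist y hy) (hclose0.dist y hy)
      _ = ε y := by ring
  · have hpt : ∀ y, ENNReal.ofReal (‖fderiv ℝ g y - fderiv ℝ h y‖ ^ p) ≤
        ENNReal.ofReal (2 ^ p) * ENNReal.ofReal (‖fderiv ℝ g y - fderiv ℝ h0 y‖ ^ p) +
        ENNReal.ofReal (2 ^ p) * ENNReal.ofReal (‖fderiv ℝ h0 y - fderiv ℝ h y‖ ^ p) := by
      intro y
      rw [← ENNReal.ofReal_mul (by positivity), ← ENNReal.ofReal_mul (by positivity),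
        ← ENNReal.ofReal_add (by positivity) (by positivity)]
      apply ENNReal.ofReal_le_ofReal
      refine le_trans ?_ (rpow_add_le (norm_nonneg _) (norm_nonneg _) hp.le)
      apply Real.rpow_le_rpow (norm_nonneg _) _ hp.le
      calc ‖fderiv ℝ g y - fderiv ℝ h y‖
          = ‖(fderiv ℝ g y - fderiv ℝ h0 y) + (fderiv ℝ h0 y - fderiv ℝ h y)‖ := by
            congr 1; abel
        _ ≤ _ := norm_add_le _ _
    have hm1 : Measurable fun y => ENNReal.ofReal (2 ^ p) *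
        ENNReal.ofReal (‖fderiv ℝ g y - fderiv ℝ h0 y‖ ^ p) := by
      apply Measurable.const_mul
      apply ENNReal.measurable_ofReal.comp
      exact (((measurable_fderiv ℝ g).sub (measurable_fderiv ℝ h0)).norm).pow_const p
    have hm2 : Measurable fun y => ENNReal.ofReal (‖fderiv ℝ g y - fderiv ℝ h0 y‖ ^ p) := by
      apply ENNReal.measurable_ofReal.comp
      exact (((measurable_fderiv ℝ g).sub (measurable_fderiv ℝ h0)).norm).pow_const p
    have hm3 : Measurable fun y => ENNReal.ofReal (‖fderiv ℝ h0 y - fderiv ℝ h y‖ ^ p) := by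
      apply ENNReal.measurable_ofReal.comp
      exact (((measurable_fderiv ℝ h0).sub (measurable_fderiv ℝ h)).norm).pow_const p
    calc ∫⁻ y in Ω, ENNReal.ofReal (‖fderiv ℝ g y - fderiv ℝ h y‖ ^ p) ∂μ
        ≤ ∫⁻ y in Ω, (ENNReal.ofReal (2 ^ p) *
            ENNReal.ofReal (‖fderiv ℝ g y - fderiv ℝ h0 y‖ ^ p) +
          ENNReal.ofReal (2 ^ p) * ENNReal.ofReal (‖fderiv ℝ h0 y - fderiv ℝ h y‖ ^ p)) ∂μ :=
          lintegral_mono fun y => hpt y
      _ = ENNReal.ofReal (2 ^ p) *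
            (∫⁻ y in Ω, ENNReal.ofReal (‖fderiv ℝ g y - fderiv ℝ h0 y‖ ^ p) ∂μ) +
          ENNReal.ofReal (2 ^ p) *
            ∫⁻ y in Ω, ENNReal.ofReal (‖fderiv ℝ h0 y - fderiv ℝ h y‖ ^ p) ∂μ := by
          rw [lintegral_add_left hm1, lintegral_const_mul _ hm2, lintegral_const_mul _ hm3]
      _ ≤ ENNReal.ofReal (2 ^ p) * ENNReal.ofReal (2⁻¹ * (2 ^ p)⁻¹) +
          ENNReal.ofReal (2 ^ p) * ENNReal.ofReal (2⁻¹ * (2 ^ p)⁻¹) := by
          gcongr
          · exact hclose.energy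
          · exact hclose0.energy
      _ = 1 := by
          rw [← ENNReal.ofReal_mul (by positivity), ← ENNReal.ofReal_add (by positivity)
            (by positivity), ← ENNReal.ofReal_one]
          congr 1
          have : (2 : ℝ) ^ p ≠ 0 := by positivity
          field_simp
          norm_num

end Vale.Agent.P073.SMV
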