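import Vale.Agent.P073.SMV.GB2

/-!
# Continuous radii, gluing of local modifications, and fibres
-/

namespace Vale.Agent.P073.SMV

open Set Filter Topology Metric MeasureTheory
open scoped ContDiff ENNReal

section radii

variable {X : Type*} [MetricSpace X]

/-- A continuous choice of a local radius. -/
theorem exists_cont_radius {Ω : Set X} {P : X → ℝ → Prop}
    (mono : ∀ x m m', 0 < m' → m' ≤ m → P x m → P x m')
    (H : ∀ x ∈ Ω, ∃ m > 0, ∀ᶠ y in 𝓝[Ω] x, P y m) :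
    ∃ m : X → ℝ, ContinuousOn m Ω ∧ ∀ x ∈ Ω, 0 < m x ∧ P x (m x) := by
  classical
  have hconv : ∀ x : Ω, Convex ℝ {m : ℝ | 0 < m ∧ P x m} := by
    intro x a ha b hb s t hs ht hst
    refine ⟨?_, ?_⟩
    · rcases eq_or_lt_of_le hs with h | h
      · have : t = 1 := by linarith
        subst this
        rw [← h]
        simpa using hb.1
      · have h1 : 0 < s • a := mul_pos h ha.1
        have h2 : 0 ≤ t • b := mul_nonneg ht hb.1.le
        linarith
    · have hle : s • a + t • b ≤ max a b := by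
        have h1 : s • a ≤ s • max a b := by
          simp only [smul_eq_mul]; gcongr; exact le_max_left _ _
        have h2 : t • b ≤ t • max a b := by
          simp only [smul_eq_mul]; gcongr; exact le_max_right _ _
        calc s • a + t • b ≤ s • max a b + t • max a b := add_le_add h1 h2
          _ = max a b := by rw [← add_smul, hst, one_smul]
      have hpos : 0 < s • a + t • b := by
        rcases eq_or_lt_of_le hs with h | h
        · have : t = 1 := by linarith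
          subst this
          rw [← h]
          simpa using hb.1
        · have h1 : 0 < s • a := mul_pos h ha.1
          have h2 : 0 ≤ t • b := mul_nonneg ht hb.1.le
          linarith
      refine mono _ _ _ hpos hle ?_
      rcases max_choice a b with h | h
      · rw [h]; exact ha.2
      · rw [h]; exact hb.2
  have hloc : ∀ x : Ω, ∃ c : ℝ, ∀ᶠ y : Ω in 𝓝 x, c ∈ {m : ℝ | 0 < m ∧ P (y : X) m} := by
    intro x
    obtain ⟨m, hm, hev⟩ := H x x.2
    refine ⟨m, ?_⟩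
    have := (eventually_nhds_subtype_iff Ω x (fun y => P y m)).2 hev
    filter_upwards [this] with y hy
    exact ⟨hm, hy⟩
  obtain ⟨g, hg⟩ := exists_continuous_forall_mem_convex_of_local_const (X := Ω)
    (t := fun x => {m : ℝ | 0 < m ∧ P x m}) hconv hloc
  refine ⟨fun x => if hx : x ∈ Ω then g ⟨x, hx⟩ else 0, ?_, fun x hx => ?_⟩
  · rw [continuousOn_iff_continuous_domRestrict]
    have : Ω.domRestrict (fun x => if hx : x ∈ Ω then g ⟨x, hx⟩ else 0) = g := by
      ext x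
      simp [domRestrict_apply]
    rw [this]
    exact g.continuous
  · simp only [hx, dif_pos]
    exact hg ⟨x, hx⟩

/-- A continuous majorant of a locally bounded function. -/
theorem exists_cont_majorant {Ω : Set X} {f : X → ℝ}
    (H : ∀ x ∈ Ω, ∃ C, ∀ᶠ y in 𝓝[Ω] x, f y ≤ C) :
    ∃ c : X → ℝ, ContinuousOn c Ω ∧ ∀ x ∈ Ω, f x ≤ c x ∧ 0 ≤ c x := by
  classical
  have hconv : ∀ x : Ω, Convex ℝ {m : ℝ | f x ≤ m ∧ 0 ≤ m} := fun x =>
    (convex_Ici (f x)).inter (convex_Ici 0)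
  have hloc : ∀ x : Ω, ∃ c : ℝ, ∀ᶠ y : Ω in 𝓝 x, c ∈ {m : ℝ | f (y : X) ≤ m ∧ 0 ≤ m} := by
    intro x
    obtain ⟨C, hev⟩ := H x x.2
    refine ⟨max C 0, ?_⟩
    have := (eventually_nhds_subtype_iff Ω x (fun y => f y ≤ C)).2 hev
    filter_upwards [this] with y hy
    exact ⟨hy.trans (le_max_left _ _), le_max_right _ _⟩
  obtain ⟨g, hg⟩ := exists_continuous_forall_mem_convex_of_local_const (X := Ω)
    (t := fun x => {m : ℝ | f x ≤ m ∧ 0 ≤ m}) hconv hloc
  refine ⟨fun x => if hx : x ∈ Ω then g ⟨x, hx⟩ else 0, ?_, fun x hx => ?_⟩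
  · rw [continuousOn_iff_continuous_domRestrict]
    have : Ω.domRestrict (fun x => if hx : x ∈ Ω then g ⟨x, hx⟩ else 0) = g := by
      ext x
      simp [domRestrict_apply]
    rw [this]
    exact g.continuous
  · simp only [hx, dif_pos]
    exact hg ⟨x, hx⟩

end radii

/-- Gluing local modifications `T i` of `T0`, supported in sets which are closed, locally finite in
`Ω` and disjoint in `Ω`. -/
theorem exists_glue {X Y ι : Type*} [TopologicalSpace X] {Ω : Set X} (hΩ : IsOpen Ω)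
    {C : ι → Set X} (hC : ∀ i, IsClosed (C i))
    (disj : ∀ i j, i ≠ j → ∀ x ∈ Ω, x ∈ C i → x ∉ C j)
    (locfin : ∀ x ∈ Ω, ∃ U ∈ 𝓝 x, {i | (C i ∩ U).Nonempty}.Finite)
    (T : ι → X → Y) (T0 : X → Y) (hT : ∀ i, ∀ x ∈ Ω, x ∉ C i → T i x = T0 x) :
    ∃ T' : X → Y, (∀ x ∈ Ω, ∀ i, x ∈ C i → T' =ᶠ[𝓝 x] T i) ∧
      ∀ x ∈ Ω, (∀ i, x ∉ C i) → T' =ᶠ[𝓝 x] T0 := by
  classical
  set T' : X → Y := fun x => if h : ∃ i, x ∈ C i then T h.choose x else T0 x with hT'
  have h1 : ∀ x ∈ Ω, ∀ i, x ∈ C i → T' x = T i x := by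
    intro x hx i hi
    have hex : ∃ i, x ∈ C i := ⟨i, hi⟩
    simp only [hT', hex, dif_pos]
    have : hex.choose = i := by
      by_contra hne
      exact disj _ _ hne x hx hex.choose_spec hi
    rw [this]
  have h2 : ∀ x, (∀ i, x ∉ C i) → T' x = T0 x := by
    intro x hx
    have : ¬ ∃ i, x ∈ C i := fun ⟨i, hi⟩ => hx i hi
    simp only [hT', this, dif_neg, not_false_eq_true]
  refine ⟨T', fun x hx i hi => ?_, fun x hx hno => ?_⟩
  · obtain ⟨U, hU, hfin⟩ := locfin x hx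
    have h3 : ∀ᶠ y in 𝓝 x, ∀ j ∈ {i | (C i ∩ U).Nonempty}, x ∉ C j → y ∉ C j := by
      rw [hfin.eventually_all]
      intro j _
      by_cases hj : x ∈ C j
      · exact Eventually.of_forall fun y h => absurd hj h
      · filter_upwards [(hC j).isOpen_compl.mem_nhds hj] with y hy _
        exact hy
    filter_upwards [h3, hU, hΩ.mem_nhds hx] with y hy hyU hyΩ
    by_cases hyi : y ∈ C i
    · exact h1 y hyΩ i hyi
    · rw [h2 y, hT i y hyΩ hyi]
      intro j hj
      by_cases hji : j = i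
      · exact hyi (hji ▸ hj)
      · exact hy j ⟨y, hj, hyU⟩ (disj i j (Ne.symm hji) x hx hi) hj
  · obtain ⟨U, hU, hfin⟩ := locfin x hx
    have h3 : ∀ᶠ y in 𝓝 x, ∀ j ∈ {i | (C i ∩ U).Nonempty}, y ∉ C j := by
      rw [hfin.eventually_all]
      intro j _
      exact (hC j).isOpen_compl.mem_nhds (hno j)
    filter_upwards [h3, hU] with y hy hyU
    apply h2 y
    intro j hj
    exact hy j ⟨y, hj, hyU⟩ hj

section E

variable {E : Type*} [NormedAddCommGroup E] [NormedSpace ℝ E]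

/-- The energy of a glued modification. -/
theorem lintegral_glue_le {ι : Type*} [Countable ι] [MeasurableSpace E] {Ω : Set E}
    {C : ι → Set E} {T : ι → E → E} {T0 T' : E → E}
    (h1 : ∀ x ∈ Ω, ∀ i, x ∈ C i → T' =ᶠ[𝓝 x] T i)
    (h2 : ∀ x ∈ Ω, (∀ i, x ∉ C i) → T' =ᶠ[𝓝 x] T0) {p : ℝ} (hp : 0 < p) (μ : Measure E)
    (hΩ : MeasurableSet Ω) (hCm : ∀ i, MeasurableSet (C i)) :
    ∫⁻ x in Ω, ENNReal.ofReal (‖fderiv ℝ T' x - fderiv ℝ T0 x‖ ^ p) ∂μ ≤
      ∑' i, ∫⁻ x in Ω ∩ C i, ENNReal.ofReal (‖fderiv ℝ (T i) x - fderiv ℝ T0 x‖ ^ p) ∂μ := by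
  set F : E → ℝ≥0∞ := fun x => ENNReal.ofReal (‖fderiv ℝ T' x - fderiv ℝ T0 x‖ ^ p) with hF
  have hsplit : ∫⁻ x in Ω, F x ∂μ = ∫⁻ x in ⋃ i, Ω ∩ C i, F x ∂μ := by
    have hsub : (⋃ i, Ω ∩ C i) ⊆ Ω := iUnion_subset fun i => inter_subset_left
    have hm : MeasurableSet (⋃ i, Ω ∩ C i) := MeasurableSet.iUnion fun i => hΩ.inter (hCm i)
    rw [← lintegral_inter_add_sdiff F Ω hm, inter_eq_right.2 hsub]
    have : ∫⁻ x in Ω \ ⋃ i, Ω ∩ C i, F x ∂μ = 0 := by
      rw [setLIntegral_congr_fun (hΩ.diff hm) (g := fun _ => 0)]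
      · simp
      · intro x hx
        have hno : ∀ i, x ∉ C i := fun i hi => hx.2 (mem_iUnion.2 ⟨i, hx.1, hi⟩)
        simp only [hF]
        rw [(h2 x hx.1 hno).fderiv_eq, sub_self, norm_zero, Real.zero_rpow hp.ne',
          ENNReal.ofReal_zero]
    rw [this, add_zero]
  rw [hsplit]
  refine (lintegral_iUnion_le _ _).trans ?_
  apply ENNReal.tsum_le_tsum
  intro i
  apply le_of_eq
  apply setLIntegral_congr_fun (hΩ.inter (hCm i))
  intro x hx
  simp only [hF]
  rw [(h1 x hx.1 i hx.2).fderiv_eq]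

omit [NormedSpace ℝ E] in
theorem HomeoOn.locInv {Ω Λ : Set E} {h k : E → E} (hΩ : IsOpen Ω) (hΛ : IsOpen Λ)
    (hh : HomeoOn Ω Λ h k) {x : E} (hx : x ∈ Ω) : LocInv Ω h x := by
  refine ⟨Ω, hΩ.mem_nhds hx, Subset.rfl, ?_, ?_⟩
  · intro a ha b hb hab
    rw [← hh.left a ha, ← hh.left b hb, hab]
  · intro V hV hVo
    have : h '' V = Λ ∩ k ⁻¹' V := by
      ext y
      constructor
      · rintro ⟨a, ha, rfl⟩
        refine ⟨hh.maps (hV ha), ?_⟩
        rw [mem_preimage, hh.left a (hV ha)]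
        exact ha
      · rintro ⟨hy, hky⟩
        exact ⟨k y, hky, hh.right y hy⟩
    rw [this]
    exact hh.cont'.isOpen_inter_preimage hΛ hVo

omit [NormedSpace ℝ E] in
/-- If `g` is uniformly close to the homeomorphism `h` and equal to it near `x0`, the fibre of `g`
through `x0` is a singleton. -/
theorem HomeoOn.exists_fiber {Ω Λ : Set E} {h k : E → E} (hΩ : IsOpen Ω) (hΛ : IsOpen Λ)
    (hh : HomeoOn Ω Λ h k) {x0 : E} {r : ℝ} (hr : 0 < r) (hb : ball x0 r ⊆ Ω) :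
    ∃ η > 0, ∀ g : E → E, (∀ x ∈ ball x0 r, g x = h x) → (∀ x ∈ Ω, ‖g x - h x‖ < η) →
      ∀ x ∈ Ω, g x = g x0 → x = x0 := by
  have hx0 : x0 ∈ Ω := hb (mem_ball_self hr)
  obtain ⟨U, hU, hUΩ, hinj, hop⟩ := hh.locInv hΩ hΛ hx0
  have hinj' : InjOn h Ω := by
    intro a ha b hb hab
    rw [← hh.left a ha, ← hh.left b hb, hab]
  have hopen : IsOpen (h '' ball x0 r) := by
    have : h '' ball x0 r = Λ ∩ k ⁻¹' ball x0 r := by
      ext y
      constructor
      · rintro ⟨a, ha, rfl⟩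
        refine ⟨hh.maps (hb ha), ?_⟩
        rw [mem_preimage, hh.left a (hb ha)]
        exact ha
      · rintro ⟨hy, hky⟩
        exact ⟨k y, hky, hh.right y hy⟩
    rw [this]
    exact hh.cont'.isOpen_inter_preimage hΛ isOpen_ball
  obtain ⟨η, hη, hηb⟩ := Metric.isOpen_iff.1 hopen (h x0) ⟨x0, mem_ball_self hr, rfl⟩
  refine ⟨η, hη, fun g hg hclose x hx hgx => ?_⟩
  have h0 : g x0 = h x0 := hg x0 (mem_ball_self hr)
  have h1 : h x ∈ ball (h x0) η := by
    rw [mem_ball, dist_eq_norm, ← h0, ← hgx, norm_sub_rev]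
    exact hclose x hx
  obtain ⟨z, hz, hzx⟩ := hηb h1
  have h2 : z = x := hinj' (hb hz) hx hzx
  subst h2
  rw [hg z hz, h0] at hgx
  exact hinj' hx hx0 hgx

end E

end Vale.Agent.P073.SMV
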