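import Vale.Agent.P073.SMV.Cone

/-!
# Slow isotopies between positively homogeneous maps
-/

namespace Vale.Agent.P073.SMV

open Set Filter Topology Metric
open scoped ContDiff

variable {E : Type*} [NormedAddCommGroup E] [InnerProductSpace ℝ E] [FiniteDimensional ℝ E]

/-- `K` is smooth off the origin with injective bounded derivative, equal to `F` outside of a ball
and to `G` near the origin. -/
structure Trans (F G K : E → E) (C δ : ℝ) : Prop where
  reg : ∀ x, x ≠ 0 → RegAt K x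
  bound : ∀ x, ‖K x‖ ≤ C * ‖x‖
  dbound : ∀ x, x ≠ 0 → ‖fderiv ℝ K x‖ ≤ C
  outer : ∀ x, 1 / 2 ≤ ‖x‖ → K x = F x
  inner : ∀ x, ‖x‖ ≤ δ → K x = G x

/-- Two maps are connected by a map which interpolates radially. -/
def ConeIso (F G : E → E) : Prop := ∃ (K : E → E) (C δ : ℝ), 0 < δ ∧ δ ≤ 1 / 2 ∧ Trans F G K C δ

omit [FiniteDimensional ℝ E] in
theorem ConeIso.comp_left {F G : E → E} (h : ConeIso F G) (L : E ≃L[ℝ] E) :
    ConeIso (fun x => L (F x)) (fun x => L (G x)) := by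
  obtain ⟨K, C, δ, hδ, hδ', hK⟩ := h
  refine ⟨fun x => L (K x), ‖(L : E →L[ℝ] E)‖ * C, δ, hδ, hδ', ?_, ?_, ?_, ?_, ?_⟩
  · intro x hx
    exact (RegAt.clm L _).comp (hK.reg x hx)
  · intro x
    have h1 : ‖(L : E →L[ℝ] E) (K x)‖ ≤ ‖(L : E →L[ℝ] E)‖ * ‖K x‖ :=
      ContinuousLinearMap.le_opNorm _ _
    calc ‖L (K x)‖ ≤ ‖(L : E →L[ℝ] E)‖ * ‖K x‖ := h1
      _ ≤ ‖(L : E →L[ℝ] E)‖ * (C * ‖x‖) := by gcongr; exact hK.bound x
      _ = _ := by ring
  · intro x hx
    have h1 : fderiv ℝ (fun x => L (K x)) x = (L : E →L[ℝ] E).comp (fderiv ℝ K x) := by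
      have := fderiv_comp x (g := fun y => L y) (f := K) L.differentiableAt
        ((hK.reg x hx).1.differentiableAt (by simp))
      rw [show (fun x => L (K x)) = (fun y => L y) ∘ K from rfl, this]
      congr 1
      exact L.fderiv
    rw [h1]
    refine (ContinuousLinearMap.opNorm_comp_le _ _).trans ?_
    gcongr
    exact hK.dbound x hx
  · intro x hx
    simp only [hK.outer x hx]
  · intro x hx
    simp only [hK.inner x hx]

omit [FiniteDimensional ℝ E] in
theorem ConeIso.trans {F G H : E → E} (h1 : ConeIso F G) (h2 : ConeIso G H) (hG : PosHom G)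
    (hH : PosHom H) : ConeIso F H := by
  obtain ⟨K, C, δ, hδ, hδ', hK⟩ := h1
  obtain ⟨M, D, η, hη, hη', hM⟩ := h2
  set N : E → E := fun x => if ‖x‖ < (3 / 4) * δ then δ • M (δ⁻¹ • x) else K x with hN
  have hM' : ∀ x, δ / 2 ≤ ‖x‖ → δ • M (δ⁻¹ • x) = G x := by
    intro x hx
    have : 1 / 2 ≤ ‖δ⁻¹ • x‖ := by
      rw [norm_smul, norm_inv, Real.norm_of_nonneg hδ.le, inv_mul_eq_div, le_div_iff₀ hδ]
      linarith
    rw [hM.outer _ this, ← hG δ hδ, smul_smul, mul_inv_cancel₀ hδ.ne', one_smul]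
  have hN1 : ∀ x, ‖x‖ ≤ δ → N x = δ • M (δ⁻¹ • x) := by
    intro x hx
    simp only [hN]
    split_ifs with h
    · rfl
    · rw [hM' x (by linarith), hK.inner x hx]
  have hN2 : ∀ x, δ / 2 ≤ ‖x‖ → N x = K x := by
    intro x hx
    simp only [hN]
    split_ifs with h
    · rw [hM' x hx, hK.inner x (by linarith)]
    · rfl
  have hsc : ∀ x : E, x ≠ 0 → RegAt (fun x => δ • M (δ⁻¹ • x)) x := by
    intro x hx
    have e1 : RegAt (fun x : E => δ⁻¹ • x) x := by
      have := RegAt.clm (ContinuousLinearEquiv.smulLeft (M₁ := E)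
        (Units.mk0 δ⁻¹ (inv_ne_zero hδ.ne'))) x
      exact this
    have e2 : RegAt (fun x : E => δ • x) (M (δ⁻¹ • x)) := by
      have := RegAt.clm (ContinuousLinearEquiv.smulLeft (M₁ := E)
        (Units.mk0 δ hδ.ne')) (M (δ⁻¹ • x))
      exact this
    have e3 : RegAt (fun x : E => M (δ⁻¹ • x)) x :=
      RegAt.comp (g := M) (h := fun x : E => δ⁻¹ • x)
        (hM.reg _ (smul_ne_zero (inv_ne_zero hδ.ne') hx)) e1
    exact RegAt.comp (g := fun x : E => δ • x) (h := fun x : E => M (δ⁻¹ • x)) e2 e3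
  have hcase : ∀ x, x ≠ 0 → (N =ᶠ[𝓝 x] K) ∨ ((N =ᶠ[𝓝 x] fun x => δ • M (δ⁻¹ • x))) := by
    intro x hx
    rcases lt_or_ge (δ / 2) ‖x‖ with h | h
    · left
      filter_upwards [(isOpen_lt continuous_const continuous_norm).mem_nhds h] with y hy
      exact hN2 y (le_of_lt hy)
    · right
      have : ‖x‖ < δ := by linarith
      filter_upwards [(isOpen_lt continuous_norm continuous_const).mem_nhds this] with y hy
      exact hN1 y (le_of_lt hy)
  refine ⟨N, max C D, δ * η, by positivity, ?_, ?_, ?_, ?_, ?_, ?_⟩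
  · nlinarith
  · intro x hx
    rcases hcase x hx with h | h
    · exact (hK.reg x hx).congr h
    · exact (hsc x hx).congr h
  · intro x
    rcases lt_or_ge (δ / 2) ‖x‖ with h | h
    · rw [hN2 x h.le]
      exact (hK.bound x).trans (by gcongr; exact le_max_left _ _)
    · rw [hN1 x (by linarith), norm_smul, Real.norm_of_nonneg hδ.le]
      have := hM.bound (δ⁻¹ • x)
      rw [norm_smul, norm_inv, Real.norm_of_nonneg hδ.le] at this
      calc δ * ‖M (δ⁻¹ • x)‖ ≤ δ * (D * (δ⁻¹ * ‖x‖)) := by gcongr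
        _ = D * ‖x‖ := by field_simp
        _ ≤ _ := by gcongr; exact le_max_right _ _
  · intro x hx
    rcases hcase x hx with h | h
    · rw [h.fderiv_eq]
      exact (hK.dbound x hx).trans (le_max_left _ _)
    · rw [h.fderiv_eq]
      have h1 : fderiv ℝ (fun x => δ • M (δ⁻¹ • x)) x = fderiv ℝ M (δ⁻¹ • x) := by
        have e1 : (fun x => δ • M (δ⁻¹ • x)) = δ • (fun x => M (δ⁻¹ • x)) := rfl
        have e2 := congrFun (fderiv_const_smul_field (𝕜 := ℝ) (f := fun x => M (δ⁻¹ • x)) δ) x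
        have e3 : fderiv ℝ (fun x => M (δ⁻¹ • x)) x = δ⁻¹ • fderiv ℝ M (δ⁻¹ • x) := by
          rw [fderiv_comp_smul]
        rw [e1, e2, Pi.smul_apply, e3, smul_smul, mul_inv_cancel₀ hδ.ne', one_smul]
      rw [h1]
      exact (hM.dbound _ (smul_ne_zero (inv_ne_zero hδ.ne') hx)).trans (le_max_right _ _)
  · intro x hx
    rw [hN2 x (by linarith), hK.outer x hx]
  · intro x hx
    have h1 : δ * η ≤ δ := by nlinarith
    rw [hN1 x (hx.trans h1)]
    have : ‖δ⁻¹ • x‖ ≤ η := by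
      rw [norm_smul, norm_inv, Real.norm_of_nonneg hδ.le, inv_mul_eq_div, div_le_iff₀ hδ]
      linarith
    rw [hM.inner _ this, ← hH δ hδ, smul_smul, mul_inv_cancel₀ hδ.ne', one_smul]


/-- A smooth family of positively homogeneous maps. -/
structure Family (J : Set ℝ) (F : ℝ → E → E) : Prop where
  isOpen : IsOpen J
  subset : Icc 0 1 ⊆ J
  smooth : ContDiffOn ℝ ∞ (fun p : ℝ × E => F p.1 p.2) (J ×ˢ {0}ᶜ)
  homog : ∀ t ∈ Icc (0 : ℝ) 1, PosHom (F t)
  inj : ∀ t ∈ Icc (0 : ℝ) 1, ∀ x, x ≠ 0 → Function.Injective (fderiv ℝ (F t) x)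

theorem exists_bound_deriv_smoothTransition :
    ∃ M : ℝ, 0 < M ∧ ∀ u, |deriv Real.smoothTransition u| ≤ M := by
  have hc : Continuous (deriv Real.smoothTransition) :=
    (Real.smoothTransition.contDiff (n := 1)).continuous_deriv (by simp)
  obtain ⟨C, hC⟩ := (isCompact_Icc (a := (0 : ℝ)) (b := 1)).bddAbove_image hc.abs.continuousOn
  refine ⟨max C 1, by positivity, fun u => ?_⟩
  by_cases hu : u ∈ Icc (0 : ℝ) 1
  · exact (hC ⟨u, hu, rfl⟩).trans (le_max_left _ _)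
  · have h0 : deriv Real.smoothTransition u = 0 := by
      rw [mem_Icc, not_and_or, not_le, not_le] at hu
      rcases hu with hu | hu
      · have : Real.smoothTransition =ᶠ[𝓝 u] fun _ => 0 := by
          filter_upwards [gt_mem_nhds hu] with v hv
          exact Real.smoothTransition.zero_of_nonpos hv.le
        rw [this.deriv_eq, deriv_const]
      · have : Real.smoothTransition =ᶠ[𝓝 u] fun _ => 1 := by
          filter_upwards [lt_mem_nhds hu] with v hv
          exact Real.smoothTransition.one_of_one_le hv.le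
        rw [this.deriv_eq, deriv_const]
    rw [h0, abs_zero]
    positivity

theorem coneIso_of_family {J : Set ℝ} {F : ℝ → E → E} (hF : Family J F) :
    ConeIso (F 0) (F 1) := by
  have : ProperSpace E := FiniteDimensional.proper ℝ E
  set Φ : ℝ × E → E := fun p => F p.1 p.2 with hΦ
  have hopen : IsOpen (J ×ˢ ({0}ᶜ : Set E)) := hF.isOpen.prod isOpen_compl_singleton
  have hsm : ∀ p ∈ J ×ˢ ({0}ᶜ : Set E), ContDiffAt ℝ ∞ Φ p := fun p hp =>
    hF.smooth.contDiffAt (hopen.mem_nhds hp)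
  set Q : Set (ℝ × E) := Icc (0 : ℝ) 1 ×ˢ sphere (0 : E) 1 with hQ
  have hQc : IsCompact Q := isCompact_Icc.prod (isCompact_sphere _ _)
  have hQJ : Q ⊆ J ×ˢ ({0}ᶜ : Set E) := by
    rintro ⟨t, x⟩ ⟨ht, hx⟩
    refine ⟨hF.subset ht, ?_⟩
    rintro rfl
    simp at hx
  have hfc : ContinuousOn (fun p => fderiv ℝ Φ p) Q := by
    intro p hp
    exact ((hsm p (hQJ hp)).fderiv_right (m := ∞) (by simp)).continuousAt.continuousWithinAt
  -- upper bounds
  obtain ⟨M0, hM0⟩ := hQc.bddAbove_image (f := fun p => ‖fderiv ℝ Φ p‖)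
    (fun p hp => (((hsm p (hQJ hp)).fderiv_right (m := ∞)
      (by simp)).continuousAt.norm).continuousWithinAt)
  obtain ⟨M1, hM1⟩ := hQc.bddAbove_image
    (f := fun p => ‖Φ p‖) (fun p hp => ((hsm p (hQJ hp)).continuousAt.norm).continuousWithinAt)
  set M : ℝ := max (max M0 M1) 1 with hM
  have hMpos : 0 < M := lt_of_lt_of_le one_pos (le_max_right _ _)
  have hMf : ∀ p ∈ Q, ‖fderiv ℝ Φ p‖ ≤ M := fun p hp =>
    (hM0 ⟨p, hp, rfl⟩).trans ((le_max_left _ _).trans (le_max_left _ _))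
  have hMv : ∀ p ∈ Q, ‖Φ p‖ ≤ M := fun p hp =>
    (hM1 ⟨p, hp, rfl⟩).trans ((le_max_right _ _).trans (le_max_left _ _))
  -- relation between the partial derivative and `fderiv (F t)`
  have hpart : ∀ p ∈ Q, ∀ w : E, fderiv ℝ Φ p (0, w) = fderiv ℝ (F p.1) p.2 w := by
    rintro ⟨t, x⟩ hp w
    have h1 : HasFDerivAt Φ (fderiv ℝ Φ (t, x)) (t, x) :=
      ((hsm _ (hQJ hp)).differentiableAt (by simp)).hasFDerivAt
    have h2 : HasFDerivAt (fun y : E => (t, y)) (ContinuousLinearMap.inr ℝ ℝ E) x :=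
      hasFDerivAt_prodMk_right t x
    have h3 := h1.comp x h2
    have h4 : fderiv ℝ (F t) x = (fderiv ℝ Φ (t, x)).comp (ContinuousLinearMap.inr ℝ ℝ E) :=
      h3.fderiv
    simp only [h4, ContinuousLinearMap.comp_apply, ContinuousLinearMap.inr_apply]
  -- lower bound
  have hlow : ∃ m : ℝ, 0 < m ∧ ∀ p ∈ Q, ∀ w : E, m * ‖w‖ ≤ ‖fderiv ℝ Φ p (0, w)‖ := by
    have hcc : ContinuousOn (fun q : (ℝ × E) × E => ‖fderiv ℝ Φ q.1 (0, q.2)‖)
        (Q ×ˢ sphere (0 : E) 1) := by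
      apply ContinuousOn.norm
      apply ContinuousOn.clm_apply
      · exact hfc.comp continuousOn_fst (fun q hq => hq.1)
      · exact (continuous_const.prodMk continuous_snd).continuousOn
    obtain ⟨m, hm, hm'⟩ := IsCompact.exists_forall_le' (hQc.prod (isCompact_sphere (0 : E) 1)) hcc
      (a := 0) (by
        rintro ⟨p, w⟩ ⟨hp, hw⟩
        rw [norm_pos_iff]
        simp only [hpart p hp w]
        intro h0
        have hx0 : p.2 ≠ 0 := (hQJ hp).2
        have := hF.inj p.1 hp.1 p.2 hx0 (h0.trans (map_zero _).symm)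
        simp only [mem_sphere, dist_zero_right] at hw
        rw [this, norm_zero] at hw
        exact zero_ne_one hw)
    refine ⟨m, hm, fun p hp w => ?_⟩
    by_cases hw : w = 0
    · simp [hw]
    · have hn : 0 < ‖w‖ := norm_pos_iff.2 hw
      have h1 := hm' (p, ‖w‖⁻¹ • w) ⟨hp, by simp [norm_smul, hn.ne']⟩
      simp only at h1
      have h2 : fderiv ℝ Φ p (0, ‖w‖⁻¹ • w) = ‖w‖⁻¹ • fderiv ℝ Φ p (0, w) := by
        rw [← map_smul]
        simp
      rw [h2, norm_smul, norm_inv, norm_norm, inv_mul_eq_div, le_div_iff₀ hn] at h1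
      exact h1
  obtain ⟨m, hm, hlow⟩ := hlow
  obtain ⟨N, hN, hNb⟩ := exists_bound_deriv_smoothTransition
  -- choice of the speed
  set T : ℝ := (4 * N * M) / m + 1 with hT
  have hTpos : 0 < T := by positivity
  have hTm : 2 * N * M / T < m := by
    rw [div_lt_iff₀ hTpos, hT]
    have : m * (4 * N * M / m + 1) = 4 * N * M + m := by field_simp
    rw [this]
    have : 0 < N * M := by positivity
    linarith
  set τ : E → ℝ := fun x => Real.smoothTransition (-(Real.log (4 * ‖x‖ ^ 2)) / T) with hτ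
  have hτI : ∀ x, τ x ∈ Icc (0 : ℝ) 1 := fun x =>
    ⟨Real.smoothTransition.nonneg _, Real.smoothTransition.le_one _⟩
  have hτd : ∀ x : E, x ≠ 0 → ContDiffAt ℝ ∞ τ x ∧ ∀ w, |fderiv ℝ τ x w| ≤ 2 * N / T * ‖w‖ / ‖x‖ := by
    intro x hx
    have hn : 0 < ‖x‖ := norm_pos_iff.2 hx
    have h1 : HasFDerivAt (fun y : E => ‖y‖ ^ 2) (2 • (innerSL ℝ x)) x :=
      (hasStrictFDerivAt_norm_sq x).hasFDerivAt
    have h2 : HasFDerivAt (fun y : E => 4 * ‖y‖ ^ 2) ((4 : ℝ) • (2 • (innerSL ℝ x))) x :=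
      h1.const_mul 4
    have h3 : HasFDerivAt (fun y : E => Real.log (4 * ‖y‖ ^ 2))
        ((4 * ‖x‖ ^ 2)⁻¹ • ((4 : ℝ) • (2 • (innerSL ℝ x)))) x := h2.log (by positivity)
    have h4 : HasFDerivAt (fun y : E => -(Real.log (4 * ‖y‖ ^ 2)) / T)
        (T⁻¹ • (-((4 * ‖x‖ ^ 2)⁻¹ • ((4 : ℝ) • (2 • (innerSL ℝ x)))) : E →L[ℝ] ℝ)) x := by
      have := (h3.neg).const_mul T⁻¹
      refine this.congr_of_eventuallyEq (Eventually.of_forall fun y => ?_)
      simp only [Pi.neg_apply]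
      ring
    have h5 : HasDerivAt Real.smoothTransition
        (deriv Real.smoothTransition (-(Real.log (4 * ‖x‖ ^ 2)) / T))
        (-(Real.log (4 * ‖x‖ ^ 2)) / T) :=
      ((Real.smoothTransition.contDiff (n := 1)).differentiable (by simp) _).hasDerivAt
    have h6 := h5.comp_hasFDerivAt x h4
    refine ⟨?_, fun w => ?_⟩
    · have e1 : ContDiffAt ℝ ∞ (fun y : E => 4 * ‖y‖ ^ 2) x :=
        contDiffAt_const.mul (contDiff_norm_sq ℝ).contDiffAt
      have e2 : ContDiffAt ℝ ∞ (fun y : E => Real.log (4 * ‖y‖ ^ 2)) x :=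
        e1.log (by positivity)
      have e3 : ContDiffAt ℝ ∞ (fun y : E => -(Real.log (4 * ‖y‖ ^ 2)) / T) x :=
        e2.neg.div_const T
      exact (Real.smoothTransition.contDiff.contDiffAt).comp x e3
    · have h7 : fderiv ℝ τ x = deriv Real.smoothTransition (-(Real.log (4 * ‖x‖ ^ 2)) / T) •
          (T⁻¹ • (-((4 * ‖x‖ ^ 2)⁻¹ • ((4 : ℝ) • (2 • (innerSL ℝ x)))) : E →L[ℝ] ℝ)) :=
        h6.fderiv
      rw [h7]
      simp only [smul_apply, neg_apply, smul_eq_mul,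
        innerSL_apply_apply, nsmul_eq_mul, Nat.cast_ofNat]
      rw [abs_mul, abs_mul, abs_neg, abs_mul, abs_mul, abs_mul]
      have hin : |@inner ℝ E _ x w| ≤ ‖x‖ * ‖w‖ := abs_real_inner_le_norm x w
      rw [abs_of_pos (inv_pos.2 hTpos), abs_of_pos (inv_pos.2 (by positivity : 0 < 4 * ‖x‖ ^ 2))]
      have e4 : |(4 : ℝ)| = 4 := abs_of_pos (by norm_num)
      have e5 : |(2 : ℝ)| = 2 := abs_of_pos (by norm_num)
      rw [e4, e5]
      calc |deriv Real.smoothTransition (-Real.log (4 * ‖x‖ ^ 2) / T)| *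
            (T⁻¹ * ((4 * ‖x‖ ^ 2)⁻¹ * (4 * (2 * |@inner ℝ E _ x w|))))
          ≤ N * (T⁻¹ * ((4 * ‖x‖ ^ 2)⁻¹ * (4 * (2 * (‖x‖ * ‖w‖))))) := by
            gcongr
            exact hNb _
        _ = 2 * N / T * ‖w‖ / ‖x‖ := by
            field_simp
  -- the map
  set K : E → E := fun x => F (τ x) x with hK
  have hKloc : ∀ x : E, x ≠ 0 → ∀ y, K y = ‖x‖ • Φ (τ y, ‖x‖⁻¹ • y) := by
    intro x hx y
    have hn : 0 < ‖x‖ := norm_pos_iff.2 hx
    simp only [hK, hΦ]
    rw [← hF.homog _ (hτI y) ‖x‖ hn, smul_smul, mul_inv_cancel₀ hn.ne', one_smul]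
  have hKsm : ∀ x : E, x ≠ 0 → ContDiffAt ℝ ∞ K x := by
    intro x hx
    have h1 : ContDiffAt ℝ ∞ (fun y => (τ y, y)) x := (hτd x hx).1.prodMk contDiffAt_id
    exact ContDiffAt.comp (g := Φ) (f := fun y => (τ y, y)) x
      (hsm (τ x, x) ⟨hF.subset (hτI x), hx⟩) h1
  have hKd : ∀ x : E, x ≠ 0 → ∃ p ∈ Q, ∃ a : E → ℝ, (∀ w, |a w| ≤ 2 * N / T * ‖w‖) ∧
      ∀ w, fderiv ℝ K x w = fderiv ℝ Φ p (a w, w) := by
    intro x hx
    have hn : 0 < ‖x‖ := norm_pos_iff.2 hx
    have hy : ‖x‖⁻¹ • x ∈ sphere (0 : E) 1 := by simp [norm_smul, hn.ne']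
    have hpQ : (τ x, ‖x‖⁻¹ • x) ∈ Q := ⟨hτI x, hy⟩
    refine ⟨(τ x, ‖x‖⁻¹ • x), hpQ, fun w => ‖x‖ * fderiv ℝ τ x w, fun w => ?_, fun w => ?_⟩
    · rw [abs_mul, abs_of_pos hn]
      have := (hτd x hx).2 w
      calc ‖x‖ * |fderiv ℝ τ x w| ≤ ‖x‖ * (2 * N / T * ‖w‖ / ‖x‖) := by gcongr
        _ = _ := by field_simp
    · have h1 : HasFDerivAt τ (fderiv ℝ τ x) x :=
        ((hτd x hx).1.differentiableAt (by simp)).hasFDerivAt
      have h2 : HasFDerivAt (fun y : E => ‖x‖⁻¹ • y) (‖x‖⁻¹ • ContinuousLinearMap.id ℝ E) x :=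
        (hasFDerivAt_id x).const_smul ‖x‖⁻¹
      have h3 : HasFDerivAt Φ (fderiv ℝ Φ (τ x, ‖x‖⁻¹ • x)) (τ x, ‖x‖⁻¹ • x) :=
        ((hsm _ (hQJ hpQ)).differentiableAt (by simp)).hasFDerivAt
      have h4 := (h3.comp x (h1.prodMk h2)).const_smul ‖x‖
      have h5 : HasFDerivAt K (‖x‖ • (fderiv ℝ Φ (τ x, ‖x‖⁻¹ • x)).comp
          ((fderiv ℝ τ x).prod (‖x‖⁻¹ • ContinuousLinearMap.id ℝ E))) x := by
        refine h4.congr_of_eventuallyEq (Eventually.of_forall fun y => ?_)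
        exact hKloc x hx y
      rw [h5.fderiv]
      simp only [smul_apply, ContinuousLinearMap.comp_apply,
        ContinuousLinearMap.prod_apply, ContinuousLinearMap.id_apply]
      rw [← map_smul]
      congr 1
      rw [Prod.smul_mk, smul_smul, mul_inv_cancel₀ hn.ne', one_smul, smul_eq_mul]
  have hKlow : ∀ x : E, x ≠ 0 → Function.Injective (fderiv ℝ K x) := by
    intro x hx
    obtain ⟨p, hp, a, ha, hfd⟩ := hKd x hx
    rw [injective_iff_map_eq_zero]
    intro w hw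
    rw [hfd] at hw
    by_contra hw0
    have hn : 0 < ‖w‖ := norm_pos_iff.2 hw0
    have h1 : fderiv ℝ Φ p (a w, w) = fderiv ℝ Φ p (a w, 0) + fderiv ℝ Φ p (0, w) := by
      rw [← map_add]; simp
    rw [h1] at hw
    have h2 : ‖fderiv ℝ Φ p (0, w)‖ = ‖fderiv ℝ Φ p (a w, 0)‖ := by
      rw [eq_neg_of_add_eq_zero_right hw, norm_neg]
    have h3 : ‖fderiv ℝ Φ p (a w, 0)‖ ≤ M * (2 * N / T * ‖w‖) := by
      refine (ContinuousLinearMap.le_opNorm _ _).trans ?_
      have : ‖((a w, 0) : ℝ × E)‖ = |a w| := by simp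
      rw [this]
      gcongr
      · exact hMf p hp
      · exact ha w
    have h4 := hlow p hp w
    rw [h2] at h4
    have h5 : m * ‖w‖ ≤ (2 * N * M / T) * ‖w‖ := by
      calc m * ‖w‖ ≤ M * (2 * N / T * ‖w‖) := h4.trans h3
        _ = _ := by ring
    have h6 := le_of_mul_le_mul_right h5 hn
    linarith
  refine ⟨K, M * (1 + 2 * N / T), Real.exp (-T / 2) / 2, by positivity, ?_, ?_, ?_, ?_, ?_, ?_⟩
  · have : Real.exp (-T / 2) ≤ 1 := Real.exp_le_one_iff.2 (by linarith)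
    linarith
  · intro x hx
    exact ⟨hKsm x hx, hKlow x hx⟩
  · intro x
    by_cases hx : x = 0
    · have : K x = 0 := by rw [hx]; exact (hF.homog _ (hτI 0)).zero
      rw [this, hx]; simp
    · have hn : 0 < ‖x‖ := norm_pos_iff.2 hx
      have hy : ‖x‖⁻¹ • x ∈ sphere (0 : E) 1 := by simp [norm_smul, hn.ne']
      rw [hKloc x hx x, norm_smul, norm_norm]
      have h1 := hMv (τ x, ‖x‖⁻¹ • x) ⟨hτI x, hy⟩
      have h2 : 0 ≤ M * (2 * N / T) * ‖x‖ := by positivity
      nlinarith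
  · intro x hx
    obtain ⟨p, hp, a, ha, hfd⟩ := hKd x hx
    refine ContinuousLinearMap.opNorm_le_bound _ (by positivity) fun w => ?_
    rw [hfd]
    refine (ContinuousLinearMap.le_opNorm _ _).trans ?_
    have h1 : ‖((a w, w) : ℝ × E)‖ ≤ (1 + 2 * N / T) * ‖w‖ := by
      rw [Prod.norm_mk, Real.norm_eq_abs]
      have h2 := ha w
      have h3 : 0 ≤ 2 * N / T * ‖w‖ := by positivity
      apply max_le
      · nlinarith [norm_nonneg w]
      · nlinarith
    calc ‖fderiv ℝ Φ p‖ * ‖((a w, w) : ℝ × E)‖ ≤ M * ((1 + 2 * N / T) * ‖w‖) := by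
          gcongr
          exact hMf p hp
      _ = _ := by ring
  · intro x hx
    have : τ x = 0 := by
      simp only [hτ]
      apply Real.smoothTransition.zero_of_nonpos
      have : 0 ≤ Real.log (4 * ‖x‖ ^ 2) := Real.log_nonneg (by nlinarith)
      rw [neg_div]
      have := div_nonneg this hTpos.le
      linarith
    simp only [hK, this]
  · intro x hx
    by_cases hx0 : x = 0
    · simp only [hK, hx0, (hF.homog _ (hτI 0)).zero, (hF.homog 1 (by simp)).zero]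
    have hn : 0 < ‖x‖ := norm_pos_iff.2 hx0
    have : τ x = 1 := by
      simp only [hτ]
      apply Real.smoothTransition.one_of_one_le
      rw [le_div_iff₀ hTpos, one_mul]
      have h1 : 4 * ‖x‖ ^ 2 ≤ Real.exp (-T) := by
        have h2 : ‖x‖ ^ 2 ≤ (Real.exp (-T / 2) / 2) ^ 2 := by gcongr
        have h3 : Real.exp (-T / 2) ^ 2 = Real.exp (-T) := by
          rw [← Real.exp_nat_mul]; congr 1; push_cast; ring
        rw [div_pow, h3] at h2
        linarith
      have h4 : Real.log (4 * ‖x‖ ^ 2) ≤ -T := by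
        have := Real.log_le_log (by positivity) h1
        rwa [Real.log_exp] at this
      linarith
    simp only [hK, this]

end Vale.Agent.P073.SMV
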