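import Vale.Agent.P073.SMV.Shift

/-!
# Local data of a map of class one at a vertex
-/

namespace Vale.Agent.P073.SMV

open Set Filter Topology Metric MeasureTheory
open scoped ContDiff ENNReal NNReal

theorem PosHom.exists_bound {E : Type*} [NormedAddCommGroup E] [NormedSpace ℝ E]
    [FiniteDimensional ℝ E] {H : E → E} (hH : PosHom H) (hr : ∀ x, x ≠ 0 → RegAt H x) :
    ∃ C : ℝ, 0 < C ∧ (∀ x, x ≠ 0 → ‖fderiv ℝ H x‖ ≤ C) ∧ ∀ x, ‖H x‖ ≤ C * ‖x‖ := by
  have hc : ContinuousOn (fun x => ‖fderiv ℝ H x‖) (sphere (0 : E) 1) := by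
    intro x hx
    have hx0 : x ≠ 0 := by
      rintro rfl
      simp at hx
    have h1 : ContDiffAt ℝ ∞ H x := (hr x hx0).1
    exact (h1.fderiv_right (m := ∞) (by simp)).continuousAt.norm.continuousWithinAt
  have : ProperSpace E := FiniteDimensional.proper ℝ E
  obtain ⟨C, hC⟩ := (isCompact_sphere (0 : E) 1).bddAbove_image hc
  have hb : ∀ x, x ≠ 0 → ‖fderiv ℝ H x‖ ≤ max C 1 := by
    intro x hx
    have hn : 0 < ‖x‖ := norm_pos_iff.2 hx
    have h1 : ‖x‖⁻¹ • x ∈ sphere (0 : E) 1 := by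
      simp [norm_smul, hn.ne']
    have h2 := hC ⟨_, h1, rfl⟩
    simp only at h2
    rw [hH.fderiv_smul (inv_pos.2 hn)] at h2
    exact h2.trans (le_max_left _ _)
  refine ⟨max C 1, by positivity, hb, fun x => ?_⟩
  by_cases hx : x = 0
  · simp [hx, hH.zero]
  · rw [← hH.euler ((hr x hx).1.differentiableAt (by simp))]
    exact (ContinuousLinearMap.le_opNorm _ _).trans (by gcongr; exact hb x hx)

/-- The cone of a homeomorphism is a homeomorphism. -/
theorem exists_coneMap {E : Type*} [NormedAddCommGroup E] [NormedSpace ℝ E]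
    {Ω Λ : Set E} {h k : E → E} (hΛ : IsOpen Λ)
    (hh : HomeoOn Ω Λ h k) {v : E} (hv : v ∈ Ω) {H : E → E} {r : ℝ} (hr : 0 < r)
    (hrΩ : closedBall v r ⊆ Ω) (hH : PosHom H) (hreg : ∀ x, x ≠ 0 → RegAt H x)
    (hcone : ∀ x, ‖x‖ ≤ r → h (v + x) = h v + H x) : ∃ K, ConeMap H K := by
  have hinjΩ : InjOn h Ω := by
    intro a ha b hb hab
    rw [← hh.left a ha, ← hh.left b hb, hab]
  have hinj : Function.Injective H := by
    intro x y hxy
    set c : ℝ := r / (‖x‖ + ‖y‖ + 1) with hc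
    have hc0 : 0 < c := by positivity
    have hcx : ‖c • x‖ ≤ r := by
      rw [norm_smul, Real.norm_of_nonneg hc0.le, hc, div_mul_eq_mul_div, div_le_iff₀ (by positivity)]
      nlinarith [norm_nonneg x, norm_nonneg y]
    have hcy : ‖c • y‖ ≤ r := by
      rw [norm_smul, Real.norm_of_nonneg hc0.le, hc, div_mul_eq_mul_div, div_le_iff₀ (by positivity)]
      nlinarith [norm_nonneg x, norm_nonneg y]
    have h1 : h (v + c • x) = h (v + c • y) := by
      rw [hcone _ hcx, hcone _ hcy, hH c hc0, hH c hc0, hxy]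
    have h2 := hinjΩ (hrΩ (by rw [mem_closedBall, dist_eq_norm, add_sub_cancel_left]; exact hcx))
      (hrΩ (by rw [mem_closedBall, dist_eq_norm, add_sub_cancel_left]; exact hcy)) h1
    exact smul_right_injective _ hc0.ne' (add_left_cancel h2)
  have hsurj : Function.Surjective H := by
    intro y
    have hvΛ : h v ∈ Λ := hh.maps hv
    have hkc : ContinuousAt k (h v) := hh.cont'.continuousAt (hΛ.mem_nhds hvΛ)
    have h1 : Tendsto (fun c : ℝ => h v + c • y) (𝓝 0) (𝓝 (h v)) := by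
      have : Continuous fun c : ℝ => h v + c • y := continuous_const.add
        (continuous_id.smul continuous_const)
      simpa using this.tendsto 0
    have h2 : ∀ᶠ c : ℝ in 𝓝 0, h v + c • y ∈ Λ := h1.eventually (hΛ.mem_nhds hvΛ)
    have h3 : ∀ᶠ c : ℝ in 𝓝 0, ‖k (h v + c • y) - v‖ < r := by
      have h4 : Tendsto (fun c : ℝ => k (h v + c • y)) (𝓝 0) (𝓝 v) := by
        have := hkc.tendsto.comp h1
        rwa [hh.left v hv] at this
      have h5 := h4.eventually (ball_mem_nhds v hr)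
      filter_upwards [h5] with c hc
      rwa [dist_eq_norm] at hc
    have h6 : ∀ᶠ c : ℝ in 𝓝[>] 0, (h v + c • y ∈ Λ ∧ ‖k (h v + c • y) - v‖ < r) ∧ 0 < c :=
      ((h2.and h3).filter_mono nhdsWithin_le_nhds).and self_mem_nhdsWithin
    obtain ⟨c, ⟨h7, h8⟩, hc0⟩ := h6.exists
    have h9 := hcone (k (h v + c • y) - v) h8.le
    have h10 : v + (k (h v + c • y) - v) = k (h v + c • y) := by abel
    rw [h10, hh.right _ h7] at h9
    have h11 := add_left_cancel h9
    refine ⟨c⁻¹ • (k (h v + c • y) - v), ?_⟩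
    rw [hH _ (inv_pos.2 hc0), ← h11, smul_smul, inv_mul_cancel₀ hc0.ne', one_smul]
  set e := Equiv.ofBijective H ⟨hinj, hsurj⟩
  exact ⟨e.symm, hH, fun x => e.symm_apply_apply x, fun x => e.apply_symm_apply x, hreg⟩

/-- The local data at a vertex. -/
structure VtxData (Ω S : Set R3) (h : R3 → R3) (v : R3) (H K : R3 → R3) (r C : ℝ) : Prop where
  pos : 0 < r
  posC : 0 < C
  cone : ConeMap H K
  eq : ∀ x, ‖x‖ ≤ r → h (v + x) = h v + H x
  sub : closedBall v r ⊆ Ω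
  iso : ∀ w ∈ S, w ≠ v → r < ‖w - v‖
  bound : ∀ x, ‖x‖ < r → x ≠ 0 → ‖fderiv ℝ h (v + x)‖ ≤ C
  boundH : ∀ x, ‖H x‖ ≤ C * ‖x‖
  boundH' : ∀ x, x ≠ 0 → ‖fderiv ℝ H x‖ ≤ C

theorem fderiv_cone {E : Type*} [NormedAddCommGroup E] [NormedSpace ℝ E] {h H : E → E} {v : E}
    {r : ℝ} (heq : ∀ x, ‖x‖ ≤ r → h (v + x) = h v + H x) {x : E} (hx : ‖x‖ < r) :
    fderiv ℝ h (v + x) = fderiv ℝ H x := by
  have h1 : h =ᶠ[𝓝 (v + x)] fun y => h v + H (y - v) := by
    have : ball v r ∈ 𝓝 (v + x) := by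
      apply isOpen_ball.mem_nhds
      rw [mem_ball, dist_eq_norm, add_sub_cancel_left]
      exact hx
    filter_upwards [this] with y hy
    rw [mem_ball, dist_eq_norm] at hy
    have := heq (y - v) hy.le
    rwa [add_sub_cancel] at this
  rw [h1.fderiv_eq, fderiv_const_add]
  have h2 := fderiv_comp_sub (𝕜 := ℝ) (f := H) (x := v + x) v
  rw [add_sub_cancel_left] at h2
  exact h2

theorem ClassOne.exists_vtx {Ω Λ S : Set R3} {h k : R3 → R3} (hΩ : IsOpen Ω) (hΛ : IsOpen Λ)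
    (hc : ClassOne Ω Λ S h k) {v : R3} (hv : v ∈ S) :
    ∃ (H K : R3 → R3) (r C : ℝ), VtxData Ω S h v H K r C := by
  have hvΩ := hc.sub hv
  obtain ⟨H, r1, hr1, hH, hreg, heq⟩ := hc.cone v hv
  obtain ⟨r2, hr2, hb2⟩ := Metric.nhds_basis_closedBall.mem_iff.1 (hΩ.mem_nhds hvΩ)
  -- isolation
  have hfin : (S ∩ closedBall v r2).Finite := hc.fin _ hb2 (isCompact_closedBall _ _)
  obtain ⟨r3, hr3, hiso⟩ : ∃ r3 > 0, ∀ w ∈ S ∩ closedBall v r2, w ≠ v → r3 < ‖w - v‖ := by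
    have hfin' : ((S ∩ closedBall v r2) \ {v}).Finite := hfin.subset sdiff_subset
    have hcl : IsClosed ((S ∩ closedBall v r2) \ {v}) := hfin'.isClosed
    have hvn : v ∉ (S ∩ closedBall v r2) \ {v} := fun h => h.2 rfl
    obtain ⟨δ, hδ, hb⟩ := Metric.isOpen_iff.1 hcl.isOpen_compl v hvn
    refine ⟨δ / 2, by positivity, fun w hw hwv => ?_⟩
    by_contra hcon
    push Not at hcon
    have : w ∈ ball v δ := by rw [mem_ball, dist_eq_norm]; linarith
    exact hb this ⟨hw, hwv⟩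
  set r := min r1 (min (r2 / 2) r3) with hr
  have hr0 : 0 < r := by positivity
  have hrr1 : r ≤ r1 := min_le_left _ _
  have hrr2 : r ≤ r2 / 2 := (min_le_right _ _).trans (min_le_left _ _)
  have hrr3 : r ≤ r3 := (min_le_right _ _).trans (min_le_right _ _)
  have hsub : closedBall v r ⊆ Ω := (closedBall_subset_closedBall (by linarith)).trans hb2
  obtain ⟨K, hK⟩ := exists_coneMap hΛ hc.toHomeoOn hvΩ hr0 hsub hH hreg
    (fun x hx => heq x (hx.trans hrr1))
  obtain ⟨C, hC, hC1, hC2⟩ := hK.exists_bound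
  refine ⟨H, K, r, C, hr0, hC, hK, fun x hx => heq x (hx.trans hrr1), hsub, ?_, ?_, hC2, hC1⟩
  · intro w hw hwv
    by_cases hwb : w ∈ closedBall v r2
    · exact lt_of_le_of_lt hrr3 (hiso w ⟨hw, hwb⟩ hwv)
    · rw [mem_closedBall, dist_eq_norm, not_le] at hwb
      linarith
  · intro x hx hx0
    rw [fderiv_cone heq (lt_of_lt_of_le hx hrr1)]
    exact hC1 x hx0

end Vale.Agent.P073.SMV
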