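import Vale.Agent.P073.SMV.Prof
import Vale.Agent.P073.SMV.Vtx

/-!
# The modification at a single vertex
-/

namespace Vale.Agent.P073.SMV

open Set Filter Topology Metric MeasureTheory
open scoped ContDiff ENNReal NNReal

/-- The data used to modify a map with cone `H` at a vertex along a tube with direction `d`. -/
structure Cap (H : R3 → R3) (d : R3) (L : R3 ≃L[ℝ] R3) (A B K : R3 → R3) (C δ : ℝ) : Prop where
  δpos : 0 < δ
  δle : δ ≤ 1 / 2
  Cone : 1 ≤ C
  tr : Trans H (fun x => L (A x)) K C δ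
  lev : LevelMap d B A
  bB : ∀ x, ‖B x‖ ≤ C * ‖x‖
  bB' : ∀ x, x ≠ 0 → ‖fderiv ℝ B x‖ ≤ C

theorem exists_cap {H K0 : R3 → R3} (h : ConeMap H K0) {d : R3} (hd : ‖d‖ = 1) :
    ∃ (L : R3 ≃L[ℝ] R3) (A B K : R3 → R3) (C δ : ℝ), Cap H d L A B K C δ := by
  obtain ⟨L, A, B, hAB, ⟨K, C, δ, hδ, hδ', hK⟩, hlev, hid⟩ := exists_level_form h hd
  have hA : LevelMap d A B := ⟨hd, hAB, hlev, hid⟩
  obtain ⟨C2, hC2, hC2a, hC2b⟩ := hAB.symm.exists_bound
  refine ⟨L, A, B, K, max C (max C2 1), δ, hδ, hδ', ?_, ?_, hA.symm, ?_, ?_⟩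
  · exact (le_max_right _ _).trans (le_max_right _ _)
  · refine ⟨hK.reg, fun x => (hK.bound x).trans ?_, fun x hx => (hK.dbound x hx).trans ?_,
      hK.outer, hK.inner⟩
    · gcongr
      exact le_max_left _ _
    · exact le_max_left _ _
  · intro x
    refine (hC2b x).trans ?_
    gcongr
    exact (le_max_left _ _).trans (le_max_right _ _)
  · intro x hx
    exact (hC2a x hx).trans ((le_max_left _ _).trans (le_max_right _ _))

/-- The modification in the ball. -/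
noncomputable def capMap (h : R3 → R3) (v : R3) (K : R3 → R3) (s : ℝ) (w : R3) : R3 :=
  if ‖w - v‖ < s then h v + s • K (s⁻¹ • (w - v)) else h w

section capMap

variable {Ω S : Set R3} {h H K0 A B K : R3 → R3} {v d : R3} {r1 C0 C δ s : ℝ} {L : R3 ≃L[ℝ] R3}

theorem capMap_of_lt {w : R3} (hw : ‖w - v‖ < s) :
    capMap h v K s w = h v + s • K (s⁻¹ • (w - v)) := if_pos hw

theorem capMap_of_le {w : R3} (hw : s ≤ ‖w - v‖) : capMap h v K s w = h w :=
  if_neg (not_lt.2 hw)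

theorem capMap_outer (hD : VtxData Ω S h v H K0 r1 C0) (hcap : Cap H d L A B K C δ) (hs : 0 < s)
    (hsr : s ≤ r1) {w : R3} (hw : s / 2 ≤ ‖w - v‖) : capMap h v K s w = h w := by
  rcases lt_or_ge ‖w - v‖ s with h1 | h1
  · rw [capMap_of_lt h1]
    have h2 : 1 / 2 ≤ ‖s⁻¹ • (w - v)‖ := by
      rw [norm_smul, norm_inv, Real.norm_of_nonneg hs.le, inv_mul_eq_div, le_div_iff₀ hs]
      linarith
    rw [hcap.tr.outer _ h2, ← hD.cone.homog s hs, smul_smul, mul_inv_cancel₀ hs.ne', one_smul]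
    have h3 := hD.eq (w - v) (h1.le.trans hsr)
    rw [add_sub_cancel] at h3
    exact h3.symm
  · exact capMap_of_le h1

theorem capMap_inner (hcap : Cap H d L A B K C δ) (hs : 0 < s) {z : R3} (hz : ‖z‖ ≤ δ * s) :
    capMap h v K s (v + z) = h v + L (A z) := by
  have hδ := hcap.δle
  have h1 : ‖v + z - v‖ < s := by
    rw [add_sub_cancel_left]
    nlinarith
  rw [capMap_of_lt h1, add_sub_cancel_left]
  have h2 : ‖s⁻¹ • z‖ ≤ δ := by
    rw [norm_smul, norm_inv, Real.norm_of_nonneg hs.le, inv_mul_eq_div, div_le_iff₀ hs]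
    exact hz
  rw [hcap.tr.inner _ h2, ← map_smul, ← hcap.lev.cone.symm.homog s hs, smul_smul,
    mul_inv_cancel₀ hs.ne', one_smul]

theorem capMap_near_lt {w : R3} (hw : ‖w - v‖ < s) :
    capMap h v K s =ᶠ[𝓝 w] fun y => h v + s • K (s⁻¹ • (y - v)) := by
  have hc : Continuous fun y : R3 => ‖y - v‖ := (continuous_id.sub continuous_const).norm
  filter_upwards [(isOpen_lt hc continuous_const).mem_nhds hw] with y hy
  exact capMap_of_lt hy

theorem capMap_near_gt (hD : VtxData Ω S h v H K0 r1 C0) (hcap : Cap H d L A B K C δ) (hs : 0 < s)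
    (hsr : s ≤ r1) {w : R3} (hw : s / 2 < ‖w - v‖) : capMap h v K s =ᶠ[𝓝 w] h := by
  have hc : Continuous fun y : R3 => ‖y - v‖ := (continuous_id.sub continuous_const).norm
  filter_upwards [(isOpen_lt continuous_const hc).mem_nhds hw] with y hy
  exact capMap_outer hD hcap hs hsr (le_of_lt hy)

theorem fderiv_scaled {E : Type*} [NormedAddCommGroup E] [NormedSpace ℝ E] {K : E → E} {s : ℝ}
    (hs : s ≠ 0) (c v w : E) :
    fderiv ℝ (fun y => c + s • K (s⁻¹ • (y - v))) w = fderiv ℝ K (s⁻¹ • (w - v)) := by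
  have e1 : fderiv ℝ (fun y => c + s • K (s⁻¹ • (y - v))) w =
      fderiv ℝ (fun y => s • K (s⁻¹ • (y - v))) w := by rw [fderiv_const_add]
  have e2 := congrFun (fderiv_const_smul_field (𝕜 := ℝ) (f := fun y => K (s⁻¹ • (y - v))) s) w
  have e3 := fderiv_comp_sub (𝕜 := ℝ) (f := fun y => K (s⁻¹ • y)) (x := w) v
  have e4 : fderiv ℝ (fun y => K (s⁻¹ • y)) (w - v) = s⁻¹ • fderiv ℝ K (s⁻¹ • (w - v)) := by
    rw [fderiv_comp_smul]
  rw [e1]
  have e5 : fderiv ℝ (fun y => s • K (s⁻¹ • (y - v))) w =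
      s • fderiv ℝ (fun y => K (s⁻¹ • (y - v))) w := e2
  rw [e5, e3, e4, smul_smul, mul_inv_cancel₀ hs, one_smul]

theorem regAt_capMap (hD : VtxData Ω S h v H K0 r1 C0) (hcap : Cap H d L A B K C δ) (hs : 0 < s)
    (hsr : s ≤ r1) {w : R3} (hwv : w ≠ v) (hw : s / 2 < ‖w - v‖ → RegAt h w) :
    RegAt (capMap h v K s) w := by
  rcases lt_or_ge (s / 2) ‖w - v‖ with h1 | h1
  · exact (hw h1).congr (capMap_near_gt hD hcap hs hsr h1)
  · have h2 : ‖w - v‖ < s := by linarith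
    refine RegAt.congr ?_ (capMap_near_lt h2)
    have hne : s⁻¹ • (w - v) ≠ 0 := smul_ne_zero (inv_ne_zero hs.ne') (sub_ne_zero.2 hwv)
    have hr := hcap.tr.reg _ hne
    refine ⟨?_, ?_⟩
    · have e1 : ContDiffAt ℝ ∞ (fun y : R3 => s⁻¹ • (y - v)) w :=
        (contDiffAt_id.sub contDiffAt_const).const_smul s⁻¹
      exact contDiffAt_const.add
        ((ContDiffAt.comp (g := K) (f := fun y : R3 => s⁻¹ • (y - v)) w hr.1 e1).const_smul s)
    · rw [fderiv_scaled hs.ne']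
      exact hr.2

theorem norm_fderiv_capMap_le (hD : VtxData Ω S h v H K0 r1 C0) (hcap : Cap H d L A B K C δ)
    (hs : 0 < s) (hsr : s ≤ r1) {w : R3} (hwv : w ≠ v) :
    ‖fderiv ℝ (capMap h v K s) w‖ ≤ C + ‖fderiv ℝ h w‖ := by
  have hC := hcap.Cone
  rcases lt_or_ge (s / 2) ‖w - v‖ with h1 | h1
  · rw [(capMap_near_gt hD hcap hs hsr h1).fderiv_eq]
    linarith
  · have h2 : ‖w - v‖ < s := by linarith
    rw [(capMap_near_lt h2).fderiv_eq, fderiv_scaled hs.ne']
    have hne : s⁻¹ • (w - v) ≠ 0 := smul_ne_zero (inv_ne_zero hs.ne') (sub_ne_zero.2 hwv)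
    have := hcap.tr.dbound _ hne
    have := norm_nonneg (fderiv ℝ h w)
    linarith

theorem norm_capMap_sub_le (hD : VtxData Ω S h v H K0 r1 C0) (hcap : Cap H d L A B K C δ)
    (hs : 0 < s) (hsr : s ≤ r1) (w : R3) : ‖capMap h v K s w - h w‖ ≤ (C + C0) * s := by
  have hC := hcap.Cone
  have hC0 := hD.posC
  rcases lt_or_ge ‖w - v‖ s with h1 | h1
  · rw [capMap_of_lt h1]
    have h3 := hD.eq (w - v) (h1.le.trans hsr)
    rw [add_sub_cancel] at h3
    rw [h3, add_sub_add_left_eq_sub]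
    refine (norm_sub_le _ _).trans ?_
    rw [norm_smul, Real.norm_of_nonneg hs.le]
    have b1 := hcap.tr.bound (s⁻¹ • (w - v))
    rw [norm_smul, norm_inv, Real.norm_of_nonneg hs.le] at b1
    have b2 := hD.boundH (w - v)
    have b3 : s * ‖K (s⁻¹ • (w - v))‖ ≤ C * ‖w - v‖ := by
      calc s * ‖K (s⁻¹ • (w - v))‖ ≤ s * (C * (s⁻¹ * ‖w - v‖)) := by gcongr
        _ = C * ‖w - v‖ := by field_simp
    calc s * ‖K (s⁻¹ • (w - v))‖ + ‖H (w - v)‖ ≤ C * ‖w - v‖ + C0 * ‖w - v‖ := add_le_add b3 b2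
      _ ≤ (C + C0) * s := by
          rw [← add_mul]
          gcongr
  · rw [capMap_of_le h1, sub_self, norm_zero]
    positivity

end capMap

/-! ### The tube at a vertex -/

/-- The tube map based at `v`. -/
noncomputable def tubeAt (v d : R3) (B : R3 → R3) (ρ : ℝ → ℝ) (y : R3) : R3 :=
  v + tubeMap d B ρ (y - v)

section tubeAt

variable {v d : R3} {A B : R3 → R3} {ρ : ℝ → ℝ} {R t0 M : ℝ}

theorem tubeAt_injective (h : LevelMap d B A) : Function.Injective (tubeAt v d B ρ) := by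
  intro x y hxy
  have h1 : tubeMap d B ρ (x - v) = tubeMap d B ρ (y - v) := add_left_cancel hxy
  have h2 := congrArg (tubeMap d A ρ) h1
  rw [tubeMap_tubeMap h, tubeMap_tubeMap h] at h2
  exact sub_left_injective h2

theorem tubeAt_self (h : LevelMap d B A) (hρ : Profile R t0 M ρ) : tubeAt v d B ρ v = v := by
  unfold tubeAt
  rw [sub_self, tubeMap_eq_cone h hρ (by rw [norm_zero]; exact hρ.t0_pos.le),
    h.cone.homog.zero, add_zero]

/-- The closed tube. -/
def tubeSet (v d : R3) (R : ℝ) (ρ : ℝ → ℝ) : Set R3 :=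
  {y | @inner ℝ R3 _ d (y - v) ∈ Icc 0 R ∧
    ‖(y - v) - (@inner ℝ R3 _ d (y - v)) • d‖ ≤ ρ (@inner ℝ R3 _ d (y - v))}

theorem isClosed_tubeSet (hρ : Continuous ρ) : IsClosed (tubeSet v d R ρ) := by
  have hin : Continuous fun y : R3 => @inner ℝ R3 _ d (y - v) :=
    continuous_const.inner (continuous_id.sub continuous_const)
  have h1 : IsClosed {y : R3 | @inner ℝ R3 _ d (y - v) ∈ Icc 0 R} := isClosed_Icc.preimage hin
  have h2 : IsClosed {y : R3 | ‖(y - v) - (@inner ℝ R3 _ d (y - v)) • d‖ ≤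
      ρ (@inner ℝ R3 _ d (y - v))} :=
    isClosed_le ((continuous_id.sub continuous_const).sub (hin.smul continuous_const)).norm
      (hρ.comp hin)
  exact h1.inter h2

theorem tubeAt_of_notMem (h : LevelMap d B A) (hρ : Profile R t0 M ρ) {y : R3}
    (hy : y ∉ tubeSet v d R ρ) : tubeAt v d B ρ y = y := by
  unfold tubeAt
  have : tubeMap d B ρ (y - v) = y - v := by
    by_cases ht : @inner ℝ R3 _ d (y - v) ∈ Icc 0 R
    · apply tubeMap_of_le h
      by_contra hcon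
      push Not at hcon
      exact hy ⟨ht, hcon.le⟩
    · apply tubeMap_of_not_pos
      rw [hρ.zero _ (fun hm => ht ⟨hm.1.le, hm.2.le⟩)]
      exact lt_irrefl _
  rw [this, add_sub_cancel]

/-- A point of the tube is near the axis. -/
theorem mem_tubeSet_dist {y : R3} (hy : y ∈ tubeSet v d R ρ) :
    dist y (v + (@inner ℝ R3 _ d (y - v)) • d) ≤ ρ (@inner ℝ R3 _ d (y - v)) := by
  rw [dist_eq_norm]
  have : y - (v + (@inner ℝ R3 _ d (y - v)) • d) =
      (y - v) - (@inner ℝ R3 _ d (y - v)) • d := by abel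
  rw [this]
  exact hy.2

theorem tubeAt_eventually (h : LevelMap d B A) (hρ : Profile R t0 M ρ) {y : R3} (hyv : y ≠ v)
    (hyR : y ≠ v + R • d) (ht : @inner ℝ R3 _ d (y - v) ∉ Ioo 0 R) :
    tubeAt v d B ρ =ᶠ[𝓝 y] fun z => z := by
  have hin : Continuous fun y : R3 => @inner ℝ R3 _ d (y - v) :=
    continuous_const.inner (continuous_id.sub continuous_const)
  have hnp : ∀ z : R3, @inner ℝ R3 _ d (z - v) ∉ Ioo 0 R → tubeAt v d B ρ z = z := by
    intro z hz
    unfold tubeAt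
    rw [tubeMap_of_not_pos (by rw [hρ.zero _ hz]; exact lt_irrefl _), add_sub_cancel]
  have hperp : 0 < ‖(y - v) - (@inner ℝ R3 _ d (y - v)) • d‖ →
      tubeAt v d B ρ =ᶠ[𝓝 y] fun z => z := by
    intro hp
    have h1 : tubeMap d B ρ =ᶠ[𝓝 (y - v)] fun z => z :=
      tubeMap_eventually_id h hρ (by rw [hρ.zero _ ht]; exact hp)
    have h2 : Tendsto (fun z : R3 => z - v) (𝓝 y) (𝓝 (y - v)) :=
      (continuous_id.sub continuous_const).tendsto y
    filter_upwards [h2.eventually h1] with z hz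
    unfold tubeAt
    rw [hz, add_sub_cancel]
  rcases lt_trichotomy (@inner ℝ R3 _ d (y - v)) 0 with h0 | h0 | h0
  · filter_upwards [(isOpen_lt hin continuous_const).mem_nhds h0] with z hz
    exact hnp z (fun hm => lt_asymm hm.1 hz)
  · apply hperp
    rw [h0, zero_smul, sub_zero]
    exact norm_pos_iff.2 (sub_ne_zero.2 hyv)
  · have hR : R ≤ @inner ℝ R3 _ d (y - v) := by
      by_contra hcon
      exact ht ⟨h0, not_le.1 hcon⟩
    rcases eq_or_lt_of_le hR with h1 | h1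
    · apply hperp
      rw [← h1]
      apply norm_pos_iff.2
      intro h2
      apply hyR
      have := sub_eq_zero.1 h2
      rw [← this]; abel
    · filter_upwards [(isOpen_lt continuous_const hin).mem_nhds h1] with z hz
      exact hnp z (fun hm => lt_asymm hm.2 hz)

theorem regAt_tubeAt (h : LevelMap d B A) (hρ : Profile R t0 M ρ) {y : R3} (hyv : y ≠ v)
    (hyR : y ≠ v + R • d) : RegAt (tubeAt v d B ρ) y := by
  by_cases ht : @inner ℝ R3 _ d (y - v) ∈ Ioo 0 R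
  · have h1 : RegAt (tubeMap d B ρ) (y - v) := regAt_tubeMap h hρ ht
    have h2 : RegAt (fun z : R3 => z - v) y := by
      refine ⟨contDiffAt_id.sub contDiffAt_const, ?_⟩
      rw [fderiv_sub_const, fderiv_fun_id]
      exact fun a b hab => hab
    exact (RegAt.comp (g := tubeMap d B ρ) (h := fun z : R3 => z - v) h1 h2).add_const v
  · exact (RegAt.id y).congr (tubeAt_eventually h hρ hyv hyR ht)

theorem norm_fderiv_tubeAt_le (h : LevelMap d B A) (hρ : Profile R t0 M ρ) {C : ℝ} (hC : 1 ≤ C)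
    (hM : 0 ≤ M) (hB : ∀ x, ‖B x‖ ≤ C * ‖x‖) (hB' : ∀ x, x ≠ 0 → ‖fderiv ℝ B x‖ ≤ C) {y : R3}
    (hyv : y ≠ v) (hyR : y ≠ v + R • d) :
    ‖fderiv ℝ (tubeAt v d B ρ) y‖ ≤ 1 + M * (2 * C + 1) + C * (1 + M) := by
  by_cases ht : @inner ℝ R3 _ d (y - v) ∈ Ioo 0 R
  · have h1 := norm_fderiv_tubeMap_le h hρ (by linarith) hB hB' ht
    have h2 : fderiv ℝ (tubeAt v d B ρ) y = fderiv ℝ (tubeMap d B ρ) (y - v) := by
      unfold tubeAt
      rw [fderiv_const_add]
      exact fderiv_comp_sub (𝕜 := ℝ) (f := tubeMap d B ρ) (x := y) v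
    rw [h2]
    exact h1
  · rw [(tubeAt_eventually h hρ hyv hyR ht).fderiv_eq, fderiv_fun_id]
    refine ContinuousLinearMap.norm_id_le.trans ?_
    nlinarith [mul_nonneg (by linarith : (0:ℝ) ≤ C) hM]

theorem norm_tubeAt_sub_le (h : LevelMap d B A) {C : ℝ} (hC : 1 ≤ C)
    (hB : ∀ x, ‖B x‖ ≤ C * ‖x‖) (y : R3) :
    ‖tubeAt v d B ρ y - y‖ ≤ (2 * C + 2) * max (ρ (@inner ℝ R3 _ d (y - v))) 0 := by
  have h1 : tubeAt v d B ρ y - y = tubeMap d B ρ (y - v) - (y - v) := by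
    unfold tubeAt; abel
  rw [h1]
  exact norm_tubeMap_sub_le h (by linarith) hB _

/-- Near the vertex the modified map is linear. -/
theorem capMap_tubeAt {H K : R3 → R3} {L : R3 ≃L[ℝ] R3} {C δ s : ℝ} {h : R3 → R3}
    (hcap : Cap H d L A B K C δ) (hρ : Profile R t0 M ρ) (hs : 0 < s) :
    (fun y => capMap h v K s (tubeAt v d B ρ y)) =ᶠ[𝓝 v] fun y => h v + L (y - v) := by
  have hC := hcap.Cone
  have hδ := hcap.δpos
  have ht0 := hρ.t0_pos
  have hmem : ball v (min t0 (δ * s / C)) ∈ 𝓝 v := ball_mem_nhds v (by positivity)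
  filter_upwards [hmem] with y hy
  rw [mem_ball, dist_eq_norm] at hy
  have h1 : ‖y - v‖ ≤ t0 := (hy.trans_le (min_le_left _ _)).le
  have h2 : ‖y - v‖ ≤ δ * s / C := (hy.trans_le (min_le_right _ _)).le
  have h3 : tubeAt v d B ρ y = v + B (y - v) := by
    unfold tubeAt
    rw [tubeMap_eq_cone hcap.lev hρ h1]
  have h4 : ‖B (y - v)‖ ≤ δ * s := by
    refine (hcap.bB _).trans ?_
    rw [le_div_iff₀ (by linarith)] at h2
    linarith
  rw [h3, capMap_inner hcap hs h4, hcap.lev.cone.left]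

end tubeAt

end Vale.Agent.P073.SMV
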