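import Vale.Agent.P073.SMV.GB2

/-!
# Positively homogeneous homeomorphisms, smooth off the origin
-/

namespace Vale.Agent.P073.SMV

open Set Filter Topology Metric
open scoped ContDiff

variable {E : Type*} [NormedAddCommGroup E] [NormedSpace ℝ E]

theorem RegAt.congr {g g' : E → E} {x : E} (H : RegAt g x) (h : g' =ᶠ[𝓝 x] g) : RegAt g' x :=
  ⟨H.1.congr_of_eventuallyEq h, by rw [h.fderiv_eq]; exact H.2⟩

theorem RegAt.comp {g h : E → E} {x : E} (Hg : RegAt g (h x)) (Hh : RegAt h x) :
    RegAt (fun y => g (h y)) x := by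
  refine ⟨ContDiffAt.comp x Hg.1 Hh.1, ?_⟩
  have : fderiv ℝ (fun y => g (h y)) x = (fderiv ℝ g (h x)).comp (fderiv ℝ h x) :=
    fderiv_comp x (Hg.1.differentiableAt (by simp)) (Hh.1.differentiableAt (by simp))
  rw [this]
  exact Hg.2.comp Hh.2

theorem RegAt.id (x : E) : RegAt (fun y : E => y) x :=
  ⟨contDiffAt_id, by rw [fderiv_fun_id]; exact fun a b h => h⟩

theorem RegAt.clm (L : E ≃L[ℝ] E) (x : E) : RegAt (fun y => L y) x := by
  refine ⟨L.contDiff.contDiffAt, ?_⟩
  have : fderiv ℝ (fun y => L y) x = (L : E →L[ℝ] E) := L.fderiv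
  rw [this]
  exact L.injective

theorem RegAt.add_const {g : E → E} {x : E} (H : RegAt g x) (c : E) :
    RegAt (fun y => c + g y) x := by
  refine ⟨contDiffAt_const.add H.1, ?_⟩
  have : fderiv ℝ (fun y => c + g y) x = fderiv ℝ g x := by
    rw [fderiv_const_add]
  rw [this]
  exact H.2

variable [FiniteDimensional ℝ E]

/-- A map with a left inverse near a point where it is regular: the inverse is regular. -/
theorem RegAt.inv_of_left {g k : E → E} {x : E} (H : RegAt g x) (hk : ∀ᶠ z in 𝓝 x, k (g z) = z) :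
    RegAt k (g x) := by
  obtain ⟨e, he, rfl, hes⟩ := H.exists_local
  have hc : ContinuousAt e.symm (e x) := hes.continuousAt
  have hxx : e.symm (e x) = x := e.left_inv he
  have h1 : k =ᶠ[𝓝 (e x)] e.symm := by
    have : ∀ᶠ z in 𝓝 (e x), k (e (e.symm z)) = e.symm z := by
      have h0 : ∀ᶠ w in 𝓝 (e.symm (e x)), k (e w) = w := by rw [hxx]; exact hk
      exact hc.eventually h0
    filter_upwards [this, e.open_target.mem_nhds (e.map_source he)] with z hz hzt
    rw [e.right_inv hzt] at hz
    exact hz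
  have h2 : ContDiffAt ℝ ∞ k (e x) := hes.congr_of_eventuallyEq h1
  refine ⟨h2, ?_⟩
  have h3 : (fderiv ℝ k (e x)).comp (fderiv ℝ e x) = ContinuousLinearMap.id ℝ E := by
    have h4 : fderiv ℝ (fun y => k (e y)) x = (fderiv ℝ k (e x)).comp (fderiv ℝ e x) :=
      fderiv_comp x (h2.differentiableAt (by simp)) (H.1.differentiableAt (by simp))
    rw [← h4]
    have h5 : (fun y => k (e y)) =ᶠ[𝓝 x] fun y => y := hk
    rw [h5.fderiv_eq, fderiv_fun_id]
  have h6 : Function.Surjective (fderiv ℝ k (e x)) := by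
    intro v
    exact ⟨fderiv ℝ e x v, by simpa using congrArg (fun T => T v) h3⟩
  exact (LinearMap.injective_iff_surjective (f := (fderiv ℝ k (e x) : E →ₗ[ℝ] E))).2 h6

omit [FiniteDimensional ℝ E] in
/-- The derivative of a map with a smooth left inverse is injective. -/
theorem regAt_of_left {g k : E → E} {x : E} (hg : ContDiffAt ℝ ∞ g x)
    (hk : DifferentiableAt ℝ k (g x)) (hkg : ∀ᶠ z in 𝓝 x, k (g z) = z) : RegAt g x := by
  refine ⟨hg, ?_⟩
  have h4 : fderiv ℝ (fun y => k (g y)) x = (fderiv ℝ k (g x)).comp (fderiv ℝ g x) :=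
    fderiv_comp x hk (hg.differentiableAt (by simp))
  have h5 : (fun y => k (g y)) =ᶠ[𝓝 x] fun y => y := hkg
  rw [h5.fderiv_eq, fderiv_fun_id] at h4
  intro a b hab
  have ha := congrArg (fun T => T a) h4
  have hb := congrArg (fun T => T b) h4
  simp only [ContinuousLinearMap.coe_id', id_eq, ContinuousLinearMap.coe_comp,
    Function.comp_apply] at ha hb
  rw [ha, hb, hab]

/-- Positively homogeneous. -/
def PosHom (H : E → E) : Prop := ∀ c : ℝ, 0 < c → ∀ x, H (c • x) = c • H x

omit [FiniteDimensional ℝ E] in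
theorem PosHom.zero {H : E → E} (hH : PosHom H) : H 0 = 0 := by
  have := hH 2 two_pos 0
  rw [smul_zero, two_smul] at this
  exact left_eq_add.1 this

omit [FiniteDimensional ℝ E] in
theorem PosHom.fderiv_smul {H : E → E} (hH : PosHom H) {c : ℝ} (hc : 0 < c) (x : E) :
    fderiv ℝ H (c • x) = fderiv ℝ H x := by
  have h1 : (fun y => H (c • y)) = fun y => c • H y := by ext y; exact hH c hc y
  have h2 : fderiv ℝ (fun y => H (c • y)) x = c • fderiv ℝ H (c • x) := by
    rw [fderiv_comp_smul]
  have h3 : fderiv ℝ (fun y => c • H y) x = c • fderiv ℝ H x := by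
    exact congrFun (fderiv_const_smul_field (𝕜 := ℝ) (f := H) c) x
  rw [← h1, h2] at h3
  exact smul_right_injective _ hc.ne' h3

omit [FiniteDimensional ℝ E] in
/-- Euler's identity. -/
theorem PosHom.euler {H : E → E} (hH : PosHom H) {x : E} (hx : DifferentiableAt ℝ H x) :
    fderiv ℝ H x x = H x := by
  have h1 : HasDerivAt (fun t : ℝ => H (t • x)) (fderiv ℝ H x x) 1 := by
    have h2 : HasFDerivAt H (fderiv ℝ H x) ((1 : ℝ) • x) := by rw [one_smul]; exact hx.hasFDerivAt
    have h3 : HasDerivAt (fun t : ℝ => t • x) x 1 := by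
      simpa using (hasDerivAt_id (1 : ℝ)).smul_const x
    exact h2.comp_hasDerivAt 1 h3
  have h2 : HasDerivAt (fun t : ℝ => t • H x) (H x) 1 := by
    simpa using (hasDerivAt_id (1 : ℝ)).smul_const (H x)
  have h3 : (fun t : ℝ => H (t • x)) =ᶠ[𝓝 1] fun t : ℝ => t • H x := by
    filter_upwards [lt_mem_nhds one_pos] with t ht
    exact hH t ht x
  exact (h1.congr_of_eventuallyEq h3.symm).unique h2

/-- `H` is a positively homogeneous homeomorphism with inverse `K`, smooth off the origin with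
injective derivative. -/
structure ConeMap (H K : E → E) : Prop where
  homog : PosHom H
  left : ∀ x, K (H x) = x
  right : ∀ x, H (K x) = x
  reg : ∀ x, x ≠ 0 → RegAt H x

namespace ConeMap

variable {H K H' K' : E → E}

omit [FiniteDimensional ℝ E] in
theorem ne_zero (h : ConeMap H K) {x : E} (hx : x ≠ 0) : H x ≠ 0 := by
  intro h0
  apply hx
  rw [← h.left x, h0]
  nth_rewrite 1 [← h.homog.zero]
  exact h.left 0

theorem symm (h : ConeMap H K) : ConeMap K H := by
  refine ⟨?_, h.right, h.left, ?_⟩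
  · intro c hc x
    rw [← h.left (c • K x), h.homog c hc, h.right]
  · intro x hx
    have h1 : K x ≠ 0 := by
      intro h0
      apply hx
      rw [← h.right x, h0, h.homog.zero]
    have := (h.reg _ h1).inv_of_left (k := K) (Eventually.of_forall h.left)
    rwa [h.right] at this

omit [FiniteDimensional ℝ E] in
theorem comp (h : ConeMap H K) (h' : ConeMap H' K') :
    ConeMap (fun x => H (H' x)) (fun x => K' (K x)) := by
  refine ⟨fun c hc x => ?_, fun x => ?_, fun x => ?_, fun x hx => ?_⟩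
  · simp only [h'.homog c hc, h.homog c hc]
  · simp only [h.left, h'.left]
  · simp only [h'.right, h.right]
  · exact (h.reg _ (h'.ne_zero hx)).comp (h'.reg x hx)

omit [FiniteDimensional ℝ E] in
theorem clm (L : E ≃L[ℝ] E) : ConeMap (fun x => L x) (fun x => L.symm x) := by
  refine ⟨fun c hc x => by simp, fun x => by simp, fun x => by simp, fun x hx => RegAt.clm L x⟩

/-- Bounds on the derivative. -/
theorem exists_bound (h : ConeMap H K) :
    ∃ C : ℝ, 0 < C ∧ (∀ x, x ≠ 0 → ‖fderiv ℝ H x‖ ≤ C) ∧ ∀ x, ‖H x‖ ≤ C * ‖x‖ := by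
  have hc : ContinuousOn (fun x => ‖fderiv ℝ H x‖) (sphere (0 : E) 1) := by
    intro x hx
    have hx0 : x ≠ 0 := by
      rintro rfl
      simp at hx
    have h1 : ContDiffAt ℝ ∞ H x := (h.reg x hx0).1
    exact (h1.fderiv_right (m := ∞) (by simp)).continuousAt.norm.continuousWithinAt
  have : ProperSpace E := FiniteDimensional.proper ℝ E
  obtain ⟨C, hC⟩ := (isCompact_sphere (0 : E) 1).bddAbove_image hc
  have hb : ∀ x, x ≠ 0 → ‖fderiv ℝ H x‖ ≤ max C 1 := by
    intro x hx
    have hn : 0 < ‖x‖ := norm_pos_iff.2 hx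
    have h1 : ‖x‖⁻¹ • x ∈ sphere (0 : E) 1 := by
      simp [norm_smul, hn.ne']
    have h2 := hC ⟨_, h1, rfl⟩
    simp only at h2
    rw [h.homog.fderiv_smul (inv_pos.2 hn)] at h2
    exact h2.trans (le_max_left _ _)
  refine ⟨max C 1, by positivity, hb, fun x => ?_⟩
  by_cases hx : x = 0
  · simp [hx, h.homog.zero]
  · rw [← h.homog.euler ((h.reg x hx).1.differentiableAt (by simp))]
    exact (ContinuousLinearMap.le_opNorm _ _).trans (by gcongr; exact hb x hx)

end ConeMap

end Vale.Agent.P073.SMV
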