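import Mathlib

/-!
# Global bijectivity of maps which are locally injective, open and close to a homeomorphism

A closed, open, locally injective continuous map onto a connected space with one singleton fibre is
bijective. Applied to maps between open sets of a finite dimensional space which are finely close
to a homeomorphism.
-/

namespace Vale.Agent.P073.SMV

open Set Filter Topology Metric

/-- A closed open map to a preconnected space, injective near every point, with one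
fibre reduced to a point, is bijective. -/
theorem bijective_of_fiber {X Y : Type*} [TopologicalSpace X] [TopologicalSpace Y] [T2Space X]
    [T1Space Y] [PreconnectedSpace Y] {g : X → Y} (ho : IsOpenMap g)
    (hcl : IsClosedMap g) (hinj : ∀ x, ∃ U ∈ 𝓝 x, InjOn g U) {x0 : X}
    (hx0 : ∀ x, g x = g x0 → x = x0) : Function.Bijective g := by
  classical
  set S : Set Y := {y | ∃ x, g x = y ∧ ∀ x', g x' = y → x' = x} with hS
  have hopen : IsOpen S := by
    rw [isOpen_iff_mem_nhds]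
    rintro y ⟨x, rfl, hx⟩
    obtain ⟨U, hU, hUinj⟩ := hinj x
    obtain ⟨V, hVU, hVo, hxV⟩ := mem_nhds_iff.1 hU
    have h1 : g '' V ∈ 𝓝 (g x) := (ho V hVo).mem_nhds ⟨x, hxV, rfl⟩
    have h2 : (g '' Vᶜ)ᶜ ∈ 𝓝 (g x) := by
      apply (hcl _ hVo.isClosed_compl).isOpen_compl.mem_nhds
      rintro ⟨x', hx', hgx'⟩
      exact hx' (hx x' hgx' ▸ hxV)
    filter_upwards [h1, h2] with y hy1 hy2
    obtain ⟨z, hzV, hz⟩ := hy1
    refine ⟨z, hz, fun z' hz' => ?_⟩
    have hz'V : z' ∈ V := by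
      by_contra h
      exact hy2 ⟨z', h, hz'⟩
    exact hUinj (hVU hz'V) (hVU hzV) (hz'.trans hz.symm)
  have hclosed : IsOpen Sᶜ := by
    rw [isOpen_iff_mem_nhds]
    intro y hy
    by_cases hne : ∃ x, g x = y
    · obtain ⟨x, rfl⟩ := hne
      have : ∃ x', g x' = g x ∧ x' ≠ x := by
        by_contra hcon
        push Not at hcon
        exact hy ⟨x, rfl, hcon⟩
      obtain ⟨x', hx', hne⟩ := this
      obtain ⟨U, V, hU, hV, hx'U, hxV, hUV⟩ := t2_separation hne
      have h1 : g '' U ∈ 𝓝 (g x) := hx' ▸ (ho U hU).mem_nhds ⟨x', hx'U, rfl⟩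
      have h2 : g '' V ∈ 𝓝 (g x) := (ho V hV).mem_nhds ⟨x, hxV, rfl⟩
      filter_upwards [h1, h2] with w hw1 hw2
      obtain ⟨a, haU, ha⟩ := hw1
      obtain ⟨b, hbV, hb⟩ := hw2
      rintro ⟨z, hz, hz'⟩
      have := (hz' a ha).trans (hz' b hb).symm
      exact Set.disjoint_left.1 hUV haU (this ▸ hbV)
    · have : (range g)ᶜ ∈ 𝓝 y := by
        apply hcl.isClosed_range.isOpen_compl.mem_nhds
        rintro ⟨x, hx⟩
        exact hne ⟨x, hx⟩
      filter_upwards [this] with w hw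
      rintro ⟨z, hz, -⟩
      exact hw ⟨z, hz⟩
  have hSuniv : S = univ := by
    have : IsClopen S := ⟨⟨hclosed⟩, hopen⟩
    exact this.eq_univ ⟨g x0, x0, rfl, hx0⟩
  constructor
  · intro a b hab
    have : g b ∈ S := hSuniv ▸ mem_univ _
    obtain ⟨x, -, hx⟩ := this
    exact (hx a hab).trans (hx b rfl).symm
  · intro y
    have : y ∈ S := hSuniv ▸ mem_univ _
    obtain ⟨x, hx, -⟩ := this
    exact ⟨x, hx⟩


variable {E : Type*} [NormedAddCommGroup E]

/-- `h` is a homeomorphism of `Ω` onto `Λ`, with inverse `k`. -/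
structure HomeoOn (Ω Λ : Set E) (h k : E → E) : Prop where
  maps : MapsTo h Ω Λ
  maps' : MapsTo k Λ Ω
  left : ∀ x ∈ Ω, k (h x) = x
  right : ∀ y ∈ Λ, h (k y) = y
  cont : ContinuousOn h Ω
  cont' : ContinuousOn k Λ

/-- `g` is finely close to `h` in the target `Λ`. -/
def FineClose (Ω Λ : Set E) (g h : E → E) : Prop :=
  ∃ ε : E → ℝ, ∀ x ∈ Ω, ε x ≤ 1 ∧ closedBall (h x) (2 * ε x) ⊆ Λ ∧ dist (g x) (h x) ≤ ε x

theorem FineClose.mapsTo {Ω Λ : Set E} {g h : E → E} (H : FineClose Ω Λ g h) : MapsTo g Ω Λ := by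
  obtain ⟨ε, hε⟩ := H
  intro x hx
  obtain ⟨-, h2, h3⟩ := hε x hx
  apply h2
  rw [mem_closedBall]
  have : 0 ≤ ε x := dist_nonneg.trans h3
  linarith

theorem FineClose.proper [ProperSpace E] {Ω Λ : Set E} {g h k : E → E} (hΛ : IsOpen Λ)
    (hh : HomeoOn Ω Λ h k) (H : FineClose Ω Λ g h) {K : Set E} (hK : IsCompact K) (hKΛ : K ⊆ Λ) :
    ∃ K' ⊆ Ω, IsCompact K' ∧ ∀ x ∈ Ω, g x ∈ K → x ∈ K' := by
  obtain ⟨ε, hε⟩ := H
  obtain ⟨δ, hδ, hδK⟩ := hK.exists_cthickening_subset_open hΛ hKΛ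
  set A : Set E := {z | ∀ w ∉ Λ, δ ≤ dist w z} with hA
  have hAclosed : IsClosed A := by
    have : A = ⋂ w ∈ Λᶜ, {z | δ ≤ dist w z} := by
      ext z; simp [hA]
    rw [this]
    exact isClosed_biInter fun w _ => isClosed_le continuous_const (continuous_const.dist continuous_id)
  have hAΛ : A ⊆ Λ := by
    intro z hz
    by_contra hcon
    have := hz z hcon
    rw [dist_self] at this
    linarith
  set K2 : Set E := cthickening δ K ∪ (cthickening 1 K ∩ A) with hK2
  have hK2c : IsCompact K2 := by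
    apply IsCompact.union
    · exact hK.cthickening
    · exact (hK.cthickening).inter_right hAclosed
  have hK2Λ : K2 ⊆ Λ := by
    apply union_subset hδK
    exact inter_subset_right.trans hAΛ
  refine ⟨k '' K2, ?_, hK2c.image_of_continuousOn (hh.cont'.mono hK2Λ), ?_⟩
  · rintro _ ⟨z, hz, rfl⟩
    exact hh.maps' (hK2Λ hz)
  · intro x hx hgx
    refine ⟨h x, ?_, hh.left x hx⟩
    obtain ⟨h1, h2, h3⟩ := hε x hx
    by_cases hc : ε x ≤ δ
    · left
      exact mem_cthickening_of_dist_le (h x) (g x) δ K hgx (by rw [dist_comm]; linarith)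
    · right
      refine ⟨mem_cthickening_of_dist_le (h x) (g x) 1 K hgx (by rw [dist_comm]; linarith), ?_⟩
      intro w hw
      by_contra hcon
      push Not at hcon hc
      apply hw
      apply h2
      rw [mem_closedBall]
      linarith

/-- Global bijectivity for maps between open sets. -/
theorem HomeoOn.of_fineClose [ProperSpace E] {Ω Λ : Set E} (hΩ : IsOpen Ω) (hΛ : IsOpen Λ)
    (hΛc : IsPreconnected Λ) {h k g : E → E} (hh : HomeoOn Ω Λ h k) (hg : ContinuousOn g Ω)
    (H : FineClose Ω Λ g h)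
    (hloc : ∀ x ∈ Ω, ∃ U ∈ 𝓝 x, U ⊆ Ω ∧ InjOn g U ∧ ∀ V ⊆ U, IsOpen V → IsOpen (g '' V))
    {x0 : E} (hx0 : x0 ∈ Ω) (hf : ∀ x ∈ Ω, g x = g x0 → x = x0) :
    ∃ k', HomeoOn Ω Λ g k' := by
  classical
  have hmaps : MapsTo g Ω Λ := H.mapsTo
  -- openness
  have hopen : ∀ V ⊆ Ω, IsOpen V → IsOpen (g '' V) := by
    intro V hV hVo
    rw [isOpen_iff_mem_nhds]
    rintro _ ⟨x, hx, rfl⟩
    obtain ⟨U, hU, hUΩ, -, hUo⟩ := hloc x (hV hx)
    obtain ⟨W, hWU, hWo, hxW⟩ := _root_.mem_nhds_iff.1 hU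
    have := (hUo (W ∩ V) (inter_subset_left.trans hWU) (hWo.inter hVo)).mem_nhds ⟨x, ⟨hxW, hx⟩, rfl⟩
    exact Filter.mem_of_superset this (image_mono inter_subset_right)
  set G : Ω → Λ := fun x => ⟨g x, hmaps x.2⟩ with hG
  have hGc : Continuous G := by
    apply Continuous.subtype_mk
    exact continuousOn_iff_continuous_domRestrict.1 hg
  have hGo : IsOpenMap G := by
    intro V hV
    have h1 : IsOpen (Subtype.val '' V : Set E) := hΩ.isOpenMap_subtype_val V hV
    have h2 : IsOpen (g '' (Subtype.val '' V)) := hopen _ (by rintro _ ⟨x, -, rfl⟩; exact x.2) h1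
    have h3 : G '' V = Subtype.val ⁻¹' (g '' (Subtype.val '' V)) := by
      ext y
      constructor
      · rintro ⟨x, hx, rfl⟩
        exact ⟨x, ⟨x, hx, rfl⟩, rfl⟩
      · rintro ⟨_, ⟨x, hx, rfl⟩, hy⟩
        exact ⟨x, hx, Subtype.ext hy⟩
    rw [h3]
    exact h2.preimage continuous_subtype_val
  have : LocallyCompactSpace Λ := hΛ.locallyCompactSpace
  have hGp : IsProperMap G := by
    rw [isProperMap_iff_isCompact_preimage]
    refine ⟨hGc, fun K hK => ?_⟩
    obtain ⟨K', hK'Ω, hK'c, hK'⟩ := H.proper hΛ hh (hK.image continuous_subtype_val)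
      (by rintro _ ⟨x, -, rfl⟩; exact x.2)
    have hK'' : IsCompact (Subtype.val ⁻¹' K' : Set Ω) := by
      rw [Subtype.isCompact_iff]
      have : (Subtype.val '' (Subtype.val ⁻¹' K' : Set Ω)) = K' := by
        rw [Subtype.image_preimage_coe]
        exact inter_eq_right.2 hK'Ω
      rw [this]
      exact hK'c
    refine hK''.of_isClosed_subset (hK.isClosed.preimage hGc) ?_
    intro x hx
    exact hK' x x.2 ⟨G x, hx, rfl⟩
  have : PreconnectedSpace Λ := Subtype.preconnectedSpace hΛc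
  have hbij : Function.Bijective G := by
    apply bijective_of_fiber hGo hGp.isClosedMap (x0 := ⟨x0, hx0⟩)
    · rintro ⟨x, hx⟩
      obtain ⟨U, hU, -, hUinj, -⟩ := hloc x hx
      refine ⟨Subtype.val ⁻¹' U, continuous_subtype_val.continuousAt.preimage_mem_nhds hU, ?_⟩
      intro a ha b hb hab
      exact Subtype.ext (hUinj ha hb (congrArg Subtype.val hab))
    · rintro ⟨x, hx⟩ hxx
      exact Subtype.ext (hf x hx (congrArg Subtype.val hxx))
  set e := Equiv.ofBijective G hbij with he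
  have heo : IsHomeomorph G := ⟨hGc, hGo, hbij⟩
  set k' : E → E := fun y => if hy : y ∈ Λ then (e.symm ⟨y, hy⟩ : Ω) else 0 with hk'
  have hk'1 : ∀ y (hy : y ∈ Λ), k' y = (e.symm ⟨y, hy⟩ : Ω) := fun y hy => by simp [hk', hy]
  refine ⟨k', hmaps, ?_, ?_, ?_, hg, ?_⟩
  · intro y hy
    rw [hk'1 y hy]
    exact (e.symm ⟨y, hy⟩).2
  · intro x hx
    rw [hk'1 _ (hmaps hx)]
    have : e.symm ⟨g x, hmaps hx⟩ = ⟨x, hx⟩ := by
      rw [Equiv.symm_apply_eq]
      rfl
    rw [this]
  · intro y hy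
    rw [hk'1 y hy]
    have : G (e.symm ⟨y, hy⟩) = ⟨y, hy⟩ := e.apply_symm_apply ⟨y, hy⟩
    exact congrArg Subtype.val this
  · rw [continuousOn_iff_continuous_domRestrict]
    have : Λ.domRestrict k' = fun y => (e.symm y : E) := by
      ext y
      simp only [domRestrict_apply]
      rw [hk'1 y.1 y.2]
    rw [this]
    refine continuous_subtype_val.comp ?_
    have := (heo.homeomorph G).symm.continuous
    exact this

end Vale.Agent.P073.SMV
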