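import Vale.Agent.P073.SMV.GB

/-!
# Global bijectivity, smooth version
-/

namespace Vale.Agent.P073.SMV

open Set Filter Topology Metric
open scoped ContDiff

variable {E : Type*} [NormedAddCommGroup E] [NormedSpace ℝ E]

/-- The condition of local invertibility used in `HomeoOn.of_fineClose`. -/
def LocInv (Ω : Set E) (g : E → E) (x : E) : Prop :=
  ∃ U ∈ 𝓝 x, U ⊆ Ω ∧ InjOn g U ∧ ∀ V ⊆ U, IsOpen V → IsOpen (g '' V)

/-- Smooth at `x` with injective derivative. -/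
def RegAt (g : E → E) (x : E) : Prop := ContDiffAt ℝ ∞ g x ∧ Function.Injective (fderiv ℝ g x)

variable [FiniteDimensional ℝ E]

theorem RegAt.exists_equiv {g : E → E} {x : E} (H : RegAt g x) :
    ∃ A : E ≃L[ℝ] E, (A : E →L[ℝ] E) = fderiv ℝ g x := by
  have h1 : LinearMap.ker (fderiv ℝ g x : E →ₗ[ℝ] E) = ⊥ := LinearMap.ker_eq_bot.2 H.2
  have h2 : LinearMap.range (fderiv ℝ g x : E →ₗ[ℝ] E) = ⊤ :=
    LinearMap.range_eq_top.2 ((LinearMap.injective_iff_surjective).1 H.2)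
  refine ⟨ContinuousLinearEquiv.ofBijective (fderiv ℝ g x) h1 h2, ?_⟩
  ext v
  simp

theorem RegAt.exists_local {g : E → E} {x : E} (H : RegAt g x) :
    ∃ e : OpenPartialHomeomorph E E, x ∈ e.source ∧ (e : E → E) = g ∧
      ContDiffAt ℝ ∞ e.symm (g x) := by
  obtain ⟨A, hA⟩ := H.exists_equiv
  have h1 : HasFDerivAt g (A : E →L[ℝ] E) x := by
    rw [hA]; exact (H.1.differentiableAt (by simp)).hasFDerivAt
  refine ⟨H.1.toOpenPartialHomeomorph g h1 (by simp),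
    ContDiffAt.mem_toOpenPartialHomeomorph_source H.1 h1 (by simp), rfl, ?_⟩
  exact H.1.to_localInverse h1 (by simp)

theorem RegAt.locInv {Ω : Set E} (hΩ : IsOpen Ω) {g : E → E} {x : E} (hx : x ∈ Ω)
    (H : RegAt g x) : LocInv Ω g x := by
  obtain ⟨e, he, rfl, -⟩ := H.exists_local
  refine ⟨e.source ∩ Ω, (e.open_source.inter hΩ).mem_nhds ⟨he, hx⟩, inter_subset_right,
    e.injOn.mono inter_subset_left, fun V hV hVo => ?_⟩
  exact e.isOpen_image_of_subset_source hVo (hV.trans inter_subset_left)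

/-- Smooth bijections with injective derivatives have smooth inverses. -/
theorem HomeoOn.contDiffOn_inv {Ω Λ : Set E} (hΛ : IsOpen Λ) {g k : E → E}
    (hh : HomeoOn Ω Λ g k) (hg : ∀ x ∈ Ω, RegAt g x) : ContDiffOn ℝ ∞ k Λ := by
  intro y hy
  apply ContDiffAt.contDiffWithinAt
  have hx : k y ∈ Ω := hh.maps' hy
  obtain ⟨e, he, heg, hes⟩ := (hg _ hx).exists_local
  rw [hh.right y hy] at hes
  apply hes.congr_of_eventuallyEq
  have h1 : ContinuousAt k y := hh.cont'.continuousAt (hΛ.mem_nhds hy)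
  filter_upwards [h1.preimage_mem_nhds (e.open_source.mem_nhds he), hΛ.mem_nhds hy] with z hz hzΛ
  have : e (k z) = z := by rw [heg]; exact hh.right z hzΛ
  rw [← this, e.left_inv hz, this]

/-- `g` is a diffeomorphism of `Ω` onto `Λ` with inverse `k`. -/
structure DiffeoOn (Ω Λ : Set E) (g k : E → E) : Prop extends HomeoOn Ω Λ g k where
  smooth : ContDiffOn ℝ ∞ g Ω
  smooth' : ContDiffOn ℝ ∞ k Λ

theorem DiffeoOn.of_fineClose {Ω Λ : Set E} (hΩ : IsOpen Ω) (hΛ : IsOpen Λ)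
    (hΛc : IsPreconnected Λ) {h k g : E → E} (hh : HomeoOn Ω Λ h k)
    (H : FineClose Ω Λ g h) (hg : ∀ x ∈ Ω, RegAt g x)
    {x0 : E} (hx0 : x0 ∈ Ω) (hf : ∀ x ∈ Ω, g x = g x0 → x = x0) :
    ∃ k', DiffeoOn Ω Λ g k' := by
  have : ProperSpace E := FiniteDimensional.proper ℝ E
  have hgc : ContDiffOn ℝ ∞ g Ω := fun x hx => (hg x hx).1.contDiffWithinAt
  obtain ⟨k', hk'⟩ := HomeoOn.of_fineClose hΩ hΛ hΛc hh hgc.continuousOn H
    (fun x hx => (hg x hx).locInv hΩ hx) hx0 hf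
  exact ⟨k', hk', hgc, hk'.contDiffOn_inv hΛ hg⟩

end Vale.Agent.P073.SMV
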