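import Vale.Agent.P073.SMV.Glue
import Vale.Agent.P073.SMV.Spec

/-!
# Local finiteness of thickened sets, and bumps
-/

namespace Vale.Agent.P073.SMV

open Set Filter Topology Metric MeasureTheory
open scoped ContDiff ENNReal NNReal

section

variable {E : Type*} [NormedAddCommGroup E] [NormedSpace ℝ E] [FiniteDimensional ℝ E]

omit [NormedSpace ℝ E] [FiniteDimensional ℝ E] in
theorem infDist_compl_pos {Ω : Set E} (hΩ : IsOpen Ω) (hne : Ωᶜ.Nonempty) {x : E} (hx : x ∈ Ω) :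
    0 < infDist x Ωᶜ :=
  (hΩ.isClosed_compl.notMem_iff_infDist_pos hne).1 (fun h => h hx)

omit [NormedSpace ℝ E] [FiniteDimensional ℝ E] in
theorem mem_of_infDist_pos {Ω : Set E} {x : E} (hx : 0 < infDist x Ωᶜ) : x ∈ Ω := by
  by_contra h
  have : infDist x Ωᶜ = 0 := infDist_zero_of_mem h
  linarith

/-- Thickenings of a locally finite family by at most a quarter of the distance to the
complement form a locally finite family. -/
theorem locfin_thick {ι : Type*} {Ω : Set E} (hΩ : IsOpen Ω) (hne : Ωᶜ.Nonempty)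
    {Z C : ι → Set E} (hZ : ∀ K ⊆ Ω, IsCompact K → {i | (Z i ∩ K).Nonempty}.Finite)
    (hC : ∀ i, ∀ y ∈ C i, y ∈ Ω → ∃ z ∈ Z i, dist y z ≤ infDist z Ωᶜ / 4) :
    ∀ x ∈ Ω, ∃ U ∈ 𝓝 x, {i | (C i ∩ U).Nonempty}.Finite := by
  intro x hx
  have : ProperSpace E := FiniteDimensional.proper ℝ E
  set δ := infDist x Ωᶜ with hδ
  have hδ0 : 0 < δ := infDist_compl_pos hΩ hne hx
  set K : Set E := closedBall x δ ∩ {z | 2 * δ / 5 ≤ infDist z Ωᶜ} with hK
  have hKc : IsCompact K := by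
    apply (isCompact_closedBall x δ).inter_right
    exact isClosed_le continuous_const (continuous_infDist_pt _)
  have hKΩ : K ⊆ Ω := by
    rintro z ⟨-, hz⟩
    apply mem_of_infDist_pos
    have : 2 * δ / 5 ≤ infDist z Ωᶜ := hz
    linarith
  refine ⟨closedBall x (δ / 2), closedBall_mem_nhds x (by positivity), ?_⟩
  refine (hZ K hKΩ hKc).subset ?_
  rintro i ⟨y, hyC, hyx⟩
  rw [mem_closedBall] at hyx
  have h1 : δ ≤ infDist y Ωᶜ + dist x y := infDist_le_infDist_add_dist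
  rw [dist_comm x y] at h1
  have hyΩ : y ∈ Ω := by
    apply mem_of_infDist_pos
    linarith
  obtain ⟨z, hz, hyz⟩ := hC i y hyC hyΩ
  refine ⟨z, hz, ?_, ?_⟩
  · have h2 : infDist z Ωᶜ ≤ infDist y Ωᶜ + dist z y := infDist_le_infDist_add_dist
    have h3 : infDist y Ωᶜ ≤ infDist x Ωᶜ + dist y x := infDist_le_infDist_add_dist
    rw [dist_comm z y] at h2
    rw [mem_closedBall]
    have h4 : dist z x ≤ dist y z + dist y x := by
      rw [dist_comm y z]; exact dist_triangle z y x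
    rw [← hδ] at h3
    linarith
  · change 2 * δ / 5 ≤ infDist z Ωᶜ
    have h2 : infDist y Ωᶜ ≤ infDist z Ωᶜ + dist y z := infDist_le_infDist_add_dist
    linarith

/-- A fixed bump. -/
theorem exists_bump : ∃ (φ : E → ℝ) (N : ℝ), 1 ≤ N ∧ ContDiff ℝ ∞ φ ∧ (∀ x, 0 ≤ φ x ∧ φ x ≤ 1) ∧
    (∀ x, ‖x‖ ≤ 1 / 2 → φ x = 1) ∧ (∀ x, 1 ≤ ‖x‖ → φ x = 0) ∧ ∀ x, ‖fderiv ℝ φ x‖ ≤ N := by
  have : ProperSpace E := FiniteDimensional.proper ℝ E
  obtain ⟨f, hf0, hf1, hfc, hfs, hfr⟩ : ∃ f : E → ℝ, (∀ x, ‖x‖ ≤ 1 / 2 → f x = 1) ∧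
      (∀ x, 1 ≤ ‖x‖ → f x = 0) ∧ HasCompactSupport f ∧ ContDiff ℝ ∞ f ∧
      (∀ x, 0 ≤ f x ∧ f x ≤ 1) := by
    let b : ContDiffBump (0 : E) := ⟨1 / 2, 1, by norm_num, by norm_num⟩
    refine ⟨b, fun x hx => ?_, fun x hx => ?_, b.hasCompactSupport, b.contDiff,
      fun x => ⟨b.nonneg, b.le_one⟩⟩
    · apply b.one_of_mem_closedBall
      rw [mem_closedBall, dist_zero_right]
      exact hx
    · apply b.zero_of_le_dist
      rw [dist_zero_right]
      exact hx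
  obtain ⟨C, hC⟩ : ∃ C, ∀ x, ‖fderiv ℝ f x‖ ≤ C := by
    have h1 : BddAbove (range fun x => ‖fderiv ℝ f x‖) := by
      apply (hfs.continuous_fderiv (by simp)).norm.bddAbove_range_of_hasCompactSupport
      exact (hfc.fderiv ℝ).norm
    obtain ⟨C, hC⟩ := h1
    exact ⟨C, fun x => hC (mem_range_self x)⟩
  exact ⟨f, max C 1, le_max_right _ _, hfs, hfr, hf0, hf1, fun x => (hC x).trans (le_max_left _ _)⟩

end

end Vale.Agent.P073.SMV
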