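import Vale.Agent.P073.SMV.VPrep

/-!
# The patch at a single vertex
-/

namespace Vale.Agent.P073.SMV

open Set Filter Topology Metric MeasureTheory
open scoped ContDiff ENNReal NNReal

theorem exists_patch {Ω Λ S W : Set R3} {h k : R3 → R3} (hΩ : IsOpen Ω) (hΛ : IsOpen Λ)
    (hc : ClassOne Ω Λ S h k) {M : ℝ} (hM : 0 < M)
    (hprof : ∀ (v d : R3) (R : ℝ) (Ω : Set R3) (m : R3 → ℝ),
      IsOpen Ω → ‖d‖ = 1 → 0 < R → (∀ t ∈ Ico 0 R, v + t • d ∈ Ω) → v + R • d ∉ Ω →
      ContinuousOn m Ω → (∀ x ∈ Ω, 0 < m x) →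
      ∃ (ρ : ℝ → ℝ) (t0 : ℝ), Profile R t0 M ρ ∧ ∀ t ∈ Ioo 0 R, ρ t ≤ m (v + t • d))
    (hW : IsOpen W) (hWΩ : W ⊆ Ω) {v d : R3} {R : ℝ} (hvS : v ∈ S)
    (hWS : ∀ w ∈ S, w ∈ W → w = v) (hR : 0 < R) (hd : ‖d‖ = 1)
    (hseg : ∀ t ∈ Ico 0 R, v + t • d ∈ W) (hout : v + R • d ∉ Ω)
    {ε : R3 → ℝ} (hε : ContinuousOn ε Ω) (hεpos : ∀ y ∈ Ω, 0 < ε y)
    {c : R3 → ℝ} (hcc : ContinuousOn c Ω) (hcb : ∀ y ∈ Ω, ‖fderiv ℝ h y‖ ≤ c y ∧ 0 ≤ c y)
    {r0 : ℝ} (hr0 : 0 < r0) {μ : Measure R3} (hμ : AdmMeas Ω μ) (hμseg : μ (sg v d R) = 0)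
    {p : ℝ} (hp : 0 < p) {w : ℝ≥0∞} (hw : w ≠ 0) :
    ∃ (P : Set R3) (G : R3 → R3), IsClosed P ∧ v ∈ P ∧
      (∀ y ∈ Ω, y ∈ P → ∃ z ∈ sg v d R, dist y z ≤ infDist z Wᶜ / 4 ∧ dist y z ≤ r0 / 2) ∧
      (∀ y ∈ Ω, y ∉ P → G y = h y) ∧ (∀ y ∈ Ω, y ∈ P → RegAt G y) ∧
      (∀ y ∈ Ω, y ∈ P → ‖G y - h y‖ ≤ ε y) ∧
      ∫⁻ y in Ω ∩ P, ENNReal.ofReal (‖fderiv ℝ G y - fderiv ℝ h y‖ ^ p) ∂μ ≤ w := by
  obtain ⟨H, K0, r1, C0, hD⟩ := hc.exists_vtx hΩ hΛ hvS
  obtain ⟨L, A, B, K, C, δ, hcap⟩ := exists_cap hD.cone hd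
  have hC := hcap.Cone
  have hC0 := hD.posC
  have hr1 := hD.pos
  have hvΩ : v ∈ Ω := hc.sub hvS
  set Ct : ℝ := 1 + M * (2 * C + 1) + C * (1 + M) with hCt
  have hCt0 : 0 < Ct := by positivity
  set D : R3 → ℝ := fun y => (C + c y + 2) * (Ct + 1) with hDdef
  -- the neighbourhood of small energy
  set ν : Measure R3 := μ.withDensity (fun y => ENNReal.ofReal (D y ^ p)) with hν
  have hsgW : sg v d R ⊆ W := by
    rintro _ ⟨t, ht, rfl⟩
    exact hseg t ht
  have hνfin : ∀ K' ⊆ Ω, IsCompact K' → ν K' < ⊤ := by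
    intro K' hK' hK'c
    obtain ⟨b, hb⟩ := hK'c.bddAbove_image (hcc.mono hK')
    rw [hν, withDensity_apply _ hK'c.measurableSet]
    calc ∫⁻ y in K', ENNReal.ofReal (D y ^ p) ∂μ
        ≤ ∫⁻ _ in K', ENNReal.ofReal (((C + b + 2) * (Ct + 1)) ^ p) ∂μ := by
          apply setLIntegral_mono measurable_const
          intro y hy
          apply ENNReal.ofReal_le_ofReal
          have h1 : c y ≤ b := hb ⟨y, hy, rfl⟩
          have h2 := (hcb y (hK' hy)).2
          apply Real.rpow_le_rpow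
          · simp only [hDdef]; positivity
          · simp only [hDdef]
            gcongr
          · exact hp.le
      _ = ENNReal.ofReal (((C + b + 2) * (Ct + 1)) ^ p) * μ K' := by rw [setLIntegral_const]
      _ < ⊤ := ENNReal.mul_lt_top ENNReal.ofReal_lt_top (hμ.fin K' hK' hK'c)
  have hνseg : ν (sg v d R) = 0 := withDensity_absolutelyContinuous _ _ hμseg
  obtain ⟨U, hUo, hUseg, -, hUw⟩ := exists_open_small hΩ hνfin (hsgW.trans hWΩ) hνseg hw
  -- the working open set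
  set W' : Set R3 := W ∩ U with hW'
  have hW'o : IsOpen W' := hW.inter hUo
  have hsegW' : ∀ t ∈ Ico 0 R, v + t • d ∈ W' := fun t ht =>
    ⟨hseg t ht, hUseg ⟨t, ht, rfl⟩⟩
  have hoW : v + R • d ∉ W' := fun h => hout (hWΩ h.1)
  have hvW' : v ∈ W' := by simpa using hsegW' 0 ⟨le_rfl, hR⟩
  have hW'c : (W'ᶜ).Nonempty := ⟨_, hoW⟩
  -- the continuous radius
  obtain ⟨m, hm, hmP⟩ := exists_cont_radius (Ω := Ω)
    (P := fun z m => closedBall z m ⊆ Ω ∧ ∀ y ∈ closedBall z m, ∀ y' ∈ closedBall z m,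
      ‖h y' - h y‖ ≤ ε y / 2 ∧ c y' ≤ c y + 1) (by
      intro z a b _ hba ⟨h1, h2⟩
      exact ⟨(closedBall_subset_closedBall hba).trans h1, fun y hy y' hy' =>
        h2 y (closedBall_subset_closedBall hba hy) y' (closedBall_subset_closedBall hba hy')⟩) (by
      intro z hz
      have hεz := hεpos z hz
      have c0 : ∀ᶠ y in 𝓝 z, y ∈ Ω := hΩ.mem_nhds hz
      have c1 : ∀ᶠ y in 𝓝 z, ε z / 2 < ε y :=
        (hε.continuousAt (hΩ.mem_nhds hz)).eventually (lt_mem_nhds (by linarith))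
      have c2 : ∀ᶠ y in 𝓝 z, h y ∈ ball (h z) (ε z / 8) :=
        (hc.cont.continuousAt (hΩ.mem_nhds hz)).eventually (ball_mem_nhds _ (by positivity))
      have c3 : ∀ᶠ y in 𝓝 z, c y ∈ ball (c z) (1 / 2) :=
        (hcc.continuousAt (hΩ.mem_nhds hz)).eventually (ball_mem_nhds _ (by positivity))
      obtain ⟨δ', hδ', hb⟩ := Metric.eventually_nhds_iff_ball.1 (c0.and (c1.and (c2.and c3)))
      refine ⟨δ' / 4, by positivity, ?_⟩
      apply eventually_nhdsWithin_of_eventually_nhds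
      filter_upwards [ball_mem_nhds z (by positivity : 0 < δ' / 4)] with z' hz'
      rw [mem_ball] at hz'
      have hin : ∀ y ∈ closedBall z' (δ' / 4), y ∈ ball z δ' := by
        intro y hy
        rw [mem_closedBall] at hy
        rw [mem_ball]
        have := dist_triangle y z' z
        linarith
      refine ⟨fun y hy => (hb y (hin y hy)).1, fun y hy y' hy' => ?_⟩
      obtain ⟨-, a1, a2, a3⟩ := hb y (hin y hy)
      obtain ⟨-, -, b2, b3⟩ := hb y' (hin y' hy')
      rw [mem_ball, dist_eq_norm] at a2 b2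
      rw [mem_ball, Real.dist_eq, abs_lt] at a3 b3
      constructor
      · calc ‖h y' - h y‖ = ‖(h y' - h z) - (h y - h z)‖ := by congr 1; abel
          _ ≤ ‖h y' - h z‖ + ‖h y - h z‖ := norm_sub_le _ _
          _ ≤ ε y / 2 := by linarith
      · linarith)
  set mi : R3 → ℝ := fun z => min (infDist z W'ᶜ / 4) (min (m z) (r0 / 2)) with hmi
  have hmic : ContinuousOn mi W' :=
    ((continuous_infDist_pt _).continuousOn.div_const 4).inf
      ((hm.mono (inter_subset_left.trans hWΩ)).inf continuousOn_const)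
  have hmipos : ∀ z ∈ W', 0 < mi z := by
    intro z hz
    have h1 := infDist_compl_pos hW'o hW'c hz
    have h2 := (hmP z (hWΩ hz.1)).1
    exact lt_min (by positivity) (lt_min h2 (by positivity))
  have hmi1 : ∀ z, mi z ≤ infDist z W'ᶜ / 4 := fun z => min_le_left _ _
  have hmi2 : ∀ z, mi z ≤ m z := fun z => (min_le_right _ _).trans (min_le_left _ _)
  have hmi3 : ∀ z, mi z ≤ r0 / 2 := fun z => (min_le_right _ _).trans (min_le_right _ _)
  -- the radius of the ball
  obtain ⟨s, hs, hsm, hsr, hsε, hsε'⟩ : ∃ s : ℝ, 0 < s ∧ s ≤ mi v ∧ s ≤ r1 ∧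
      (C + C0) * s ≤ ε v / 4 ∧ ∀ y ∈ closedBall v (2 * s), ε v / 2 ≤ ε y := by
    have small : ∀ a : ℝ, 0 < a → ∀ᶠ s : ℝ in 𝓝[>] 0, s < a := fun a ha =>
      (gt_mem_nhds ha).filter_mono nhdsWithin_le_nhds
    have hεv := hεpos v hvΩ
    have c1 : ∀ᶠ y in 𝓝 v, ε v / 2 < ε y :=
      (hε.continuousAt (hΩ.mem_nhds hvΩ)).eventually (lt_mem_nhds (by linarith))
    obtain ⟨δ', hδ', hb⟩ := Metric.eventually_nhds_iff_ball.1 c1
    have e0 : ∀ᶠ s : ℝ in 𝓝[>] 0, 0 < s := self_mem_nhdsWithin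
    obtain ⟨s, ⟨⟨⟨⟨f0, f1⟩, f2⟩, f3⟩, f4⟩⟩ := ((((e0.and (small _ (hmipos v hvW'))).and
      (small _ hr1)).and (small (ε v / 4 / (C + C0)) (by positivity))).and
      (small (δ' / 2) (by positivity))).exists
    refine ⟨s, f0, f1.le, f2.le, ?_, fun y hy => ?_⟩
    · rw [lt_div_iff₀ (by positivity)] at f3
      linarith
    · rw [mem_closedBall] at hy
      exact (hb y (by rw [mem_ball]; linarith)).le
  -- the profile
  obtain ⟨ρ, t0, hρ, hρm⟩ := hprof v d R W' (fun z => min (mi z) s / (2 * C + 4)) hW'o hd hR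
    hsegW' hoW ((hmic.inf continuousOn_const).div_const _)
    (fun z hz => by have := hmipos z hz; positivity)
  set τ : R3 → R3 := tubeAt v d B ρ with hτ
  set cap : R3 → R3 := capMap h v K s with hcapdef
  have hlev := hcap.lev
  -- points of the patch
  have hN : ∀ y ∈ Ω, y ∈ closedBall v s ∪ tubeSet v d R ρ → ∃ z ∈ sg v d R, z ∈ W' ∧
      dist y z ≤ mi z ∧ dist (τ y) z ≤ mi z ∧ dist y (τ y) ≤ s := by
    intro y hy hyP
    by_cases hyt : y ∈ tubeSet v d R ρ
    · set t := @inner ℝ R3 _ d (y - v) with ht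
      have hd1 : dist y (v + t • d) ≤ ρ t := mem_tubeSet_dist hyt
      have htI : t ∈ Icc 0 R := hyt.1
      have htR : t ≠ R := by
        intro hR'
        have h0 : ρ t = 0 := hρ.zero _ (fun hm => absurd hR' (ne_of_lt hm.2))
        rw [h0] at hd1
        have h2 : y = v + t • d := dist_le_zero.1 hd1
        rw [hR'] at h2
        rw [h2] at hy
        exact hout hy
      have htI' : t ∈ Ico 0 R := ⟨htI.1, lt_of_le_of_ne htI.2 htR⟩
      have hzW := hsegW' t htI'
      have hmz := hmipos _ hzW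
      have hρle : ρ t ≤ min (mi (v + t • d)) s / (2 * C + 4) := by
        rcases eq_or_lt_of_le htI.1 with h0 | h0
        · rw [← h0, hρ.zero 0 (fun hm => lt_irrefl _ hm.1)]
          rw [← h0] at hmz
          positivity
        · exact hρm t ⟨h0, htI'.2⟩
      have hρ0 : 0 ≤ ρ t := dist_nonneg.trans hd1
      have hdisp : dist y (τ y) ≤ (2 * C + 2) * ρ t := by
        rw [dist_comm, dist_eq_norm]
        have := norm_tubeAt_sub_le (v := v) (ρ := ρ) hlev hC hcap.bB y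
        rw [← ht, max_eq_left hρ0] at this
        exact this
      have hle : (2 * C + 4) * ρ t ≤ min (mi (v + t • d)) s := by
        rw [le_div_iff₀ (by positivity)] at hρle
        linarith
      have hle1 := hle.trans (min_le_left _ _)
      have hle2 := hle.trans (min_le_right _ _)
      refine ⟨v + t • d, ⟨t, htI', rfl⟩, hzW, ?_, ?_, ?_⟩
      · nlinarith
      · have h3 : dist (τ y) (v + t • d) ≤ dist y (τ y) + dist y (v + t • d) := by
          rw [dist_comm y (τ y)]; exact dist_triangle _ _ _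
        nlinarith
      · nlinarith
    · have hyb : y ∈ closedBall v s := hyP.resolve_right hyt
      have hτy : τ y = y := tubeAt_of_notMem hlev hρ hyt
      rw [mem_closedBall] at hyb
      refine ⟨v, ⟨0, ⟨le_rfl, hR⟩, by simp⟩, hvW', hyb.trans hsm, ?_, ?_⟩
      · rw [hτy]; exact hyb.trans hsm
      · rw [hτy, dist_self]; exact hs.le
  have hball : ∀ z ∈ W', ∀ y, dist y z ≤ mi z → y ∈ W' := by
    intro z hz y hyz
    by_contra hcon
    have h1 : infDist z W'ᶜ ≤ dist z y := infDist_le_dist_of_mem hcon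
    have h2 := hmi1 z
    have h3 := infDist_compl_pos hW'o hW'c hz
    rw [dist_comm] at h1
    linarith
  have hτinj : Function.Injective τ := tubeAt_injective hlev
  have hτv : τ v = v := tubeAt_self hlev hρ
  have hne : ∀ y, y ≠ v → τ y ≠ v := fun y hy h0 => hy (hτinj (h0.trans hτv.symm))
  have hyR : ∀ y ∈ Ω, y ≠ v + R • d := fun y hy h0 => hout (h0 ▸ hy)
  have hregcap : ∀ u ∈ W', u ≠ v → RegAt cap u := by
    intro u hu huv
    apply regAt_capMap hD hcap hs hsr huv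
    intro _
    exact hc.reg u (hWΩ hu.1) (fun hS => huv (hWS u hS hu.1))
  have hG : ∀ y ∈ Ω, y ∈ closedBall v s ∪ tubeSet v d R ρ → RegAt (fun y => cap (τ y)) y := by
    intro y hy hyP
    by_cases hyv : y = v
    · subst hyv
      have h1 := capMap_tubeAt (v := y) (h := h) hcap hρ hs
      refine RegAt.congr ?_ h1
      refine ⟨contDiffAt_const.add (L.contDiff.contDiffAt.comp y
        (contDiffAt_id.sub contDiffAt_const)), ?_⟩
      have h2 : HasFDerivAt (fun u : R3 => h y + L (u - y)) (L : R3 →L[ℝ] R3) y := by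
        have h3 : HasFDerivAt (fun u : R3 => u - y) (ContinuousLinearMap.id ℝ R3) y :=
          (hasFDerivAt_id y).sub_const y
        have h4 : HasFDerivAt (fun u : R3 => L (u - y))
            ((L : R3 →L[ℝ] R3).comp (ContinuousLinearMap.id ℝ R3)) y :=
          HasFDerivAt.comp (g := fun u => L u) (f := fun u : R3 => u - y) y L.hasFDerivAt h3
        rw [ContinuousLinearMap.comp_id] at h4
        exact h4.const_add (h y)
      rw [h2.fderiv]
      exact L.injective
    · obtain ⟨z, -, hzW, -, h2, -⟩ := hN y hy hyP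
      exact RegAt.comp (g := cap) (h := τ) (hregcap _ (hball z hzW _ h2) (hne y hyv))
        (regAt_tubeAt hlev hρ hyv (hyR y hy))
  refine ⟨closedBall v s ∪ tubeSet v d R ρ, fun y => cap (τ y),
    isClosed_closedBall.union (isClosed_tubeSet hρ.cont), Or.inl (mem_closedBall_self hs.le),
    ?_, ?_, hG, ?_, ?_⟩
  · intro y hy hyP
    obtain ⟨z, hz, hzW, h1, -, -⟩ := hN y hy hyP
    refine ⟨z, hz, ?_, h1.trans (hmi3 z)⟩
    refine (h1.trans (hmi1 z)).trans ?_
    have : infDist z W'ᶜ ≤ infDist z Wᶜ :=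
      infDist_le_infDist_of_subset (compl_subset_compl.2 inter_subset_left)
        ⟨_, fun h => hout (hWΩ h)⟩
    linarith
  · intro y hy hyP
    have h1 : y ∉ closedBall v s := fun h => hyP (Or.inl h)
    have h2 : y ∉ tubeSet v d R ρ := fun h => hyP (Or.inr h)
    simp only [hτ, hcapdef]
    rw [tubeAt_of_notMem hlev hρ h2]
    apply capMap_of_le
    rw [mem_closedBall, dist_eq_norm, not_le] at h1
    exact h1.le
  · intro y hy hyP
    obtain ⟨z, hz, hzW, h1, h2, h3⟩ := hN y hy hyP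
    have hP := (hmP z (hWΩ hzW.1)).2.2
    have hyz : y ∈ closedBall z (m z) := by rw [mem_closedBall]; exact h1.trans (hmi2 z)
    have hτz : τ y ∈ closedBall z (m z) := by rw [mem_closedBall]; exact h2.trans (hmi2 z)
    have h4 := (hP y hyz (τ y) hτz).1
    have h5 : ‖cap (τ y) - h (τ y)‖ ≤ ε y / 2 := by
      rcases lt_or_ge ‖τ y - v‖ s with h6 | h6
      · have h7 := norm_capMap_sub_le hD hcap hs hsr (τ y)
        have h8 : y ∈ closedBall v (2 * s) := by
          rw [mem_closedBall]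
          have := dist_triangle y (τ y) v
          rw [← dist_eq_norm] at h6
          linarith
        have h9 := hsε' y h8
        linarith
      · have : cap (τ y) = h (τ y) := capMap_of_le h6
        rw [this, sub_self, norm_zero]
        have := hεpos y hy
        positivity
    calc ‖cap (τ y) - h y‖ = ‖(cap (τ y) - h (τ y)) + (h (τ y) - h y)‖ := by congr 1; abel
      _ ≤ ‖cap (τ y) - h (τ y)‖ + ‖h (τ y) - h y‖ := norm_add_le _ _
      _ ≤ ε y := by linarith
  · have hPm : MeasurableSet (Ω ∩ (closedBall v s ∪ tubeSet v d R ρ)) :=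
      hΩ.measurableSet.inter (isClosed_closedBall.union (isClosed_tubeSet hρ.cont)).measurableSet
    have hPU : Ω ∩ (closedBall v s ∪ tubeSet v d R ρ) ⊆ U := by
      rintro y ⟨hy, hyP⟩
      obtain ⟨z, hz, hzW, h1, -, -⟩ := hN y hy hyP
      exact (hball z hzW y h1).2
    have hae : ∀ᵐ y ∂μ, y ∈ Ω ∩ (closedBall v s ∪ tubeSet v d R ρ) →
        ENNReal.ofReal (‖fderiv ℝ (fun y => cap (τ y)) y - fderiv ℝ h y‖ ^ p) ≤
        ENNReal.ofReal (D y ^ p) := by
      filter_upwards [compl_mem_ae_iff.2 (hμ.noAtoms v hvΩ)] with y hyn hyA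
      have hyv : y ≠ v := hyn
      obtain ⟨hy, hyP⟩ := hyA
      obtain ⟨z, hz, hzW, h1, h2, h3⟩ := hN y hy hyP
      have hP := (hmP z (hWΩ hzW.1)).2.2
      have hyz : y ∈ closedBall z (m z) := by rw [mem_closedBall]; exact h1.trans (hmi2 z)
      have hτz : τ y ∈ closedBall z (m z) := by rw [mem_closedBall]; exact h2.trans (hmi2 z)
      have h4 := (hP y hyz (τ y) hτz).2
      have hτW : τ y ∈ W' := hball z hzW _ h2
      have hτΩ : τ y ∈ Ω := hWΩ hτW.1
      apply ENNReal.ofReal_le_ofReal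
      apply Real.rpow_le_rpow (norm_nonneg _) _ hp.le
      have b1 := norm_fderiv_capMap_le hD hcap hs hsr (hne y hyv)
      have b2 := (hcb _ hτΩ).1
      have b3 := (hcb y hy).1
      have b30 := (hcb y hy).2
      have b4 : ‖fderiv ℝ τ y‖ ≤ Ct :=
        norm_fderiv_tubeAt_le hlev hρ hC hM.le hcap.bB hcap.bB' hyv (hyR y hy)
      have b5 : fderiv ℝ (fun y => cap (τ y)) y = (fderiv ℝ cap (τ y)).comp (fderiv ℝ τ y) :=
        fderiv_comp y ((hregcap _ hτW (hne y hyv)).1.differentiableAt (by simp))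
          ((regAt_tubeAt hlev hρ hyv (hyR y hy)).1.differentiableAt (by simp))
      rw [b5]
      refine (norm_sub_le _ _).trans ?_
      have b6 : ‖(fderiv ℝ cap (τ y)).comp (fderiv ℝ τ y)‖ ≤ (C + c y + 1) * Ct := by
        refine (ContinuousLinearMap.opNorm_comp_le _ _).trans ?_
        gcongr
        linarith
      simp only [hDdef]
      nlinarith
    calc ∫⁻ y in Ω ∩ (closedBall v s ∪ tubeSet v d R ρ),
          ENNReal.ofReal (‖fderiv ℝ (fun y => cap (τ y)) y - fderiv ℝ h y‖ ^ p) ∂μ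
        ≤ ∫⁻ y in Ω ∩ (closedBall v s ∪ tubeSet v d R ρ), ENNReal.ofReal (D y ^ p) ∂μ := by
          apply lintegral_mono_ae
          rw [ae_restrict_iff' hPm]
          exact hae
      _ = ν (Ω ∩ (closedBall v s ∪ tubeSet v d R ρ)) := by
          rw [hν, withDensity_apply _ hPm]
      _ ≤ ν U := measure_mono hPU
      _ ≤ w := hUw.le

end Vale.Agent.P073.SMV
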