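import Vale.Agent.P073.SMV.Iso

/-!
# Linearisation of a homogeneous map near one direction
-/

namespace Vale.Agent.P073.SMV

open Set Filter Topology Metric
open scoped ContDiff NNReal

section normed

variable {E : Type*} [NormedAddCommGroup E] [NormedSpace ℝ E]

/-- A homogeneous map with bounded derivative off the origin is Lipschitz. -/
theorem PosHom.lipschitz {V : E → E} (hV : PosHom V) {C : ℝ≥0}
    (hd : ∀ x, x ≠ 0 → DifferentiableAt ℝ V x) (hb : ∀ x, x ≠ 0 → ‖fderiv ℝ V x‖ ≤ C) :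
    LipschitzWith C V := by
  have h0 : ∀ x, ‖V x‖ ≤ C * ‖x‖ := by
    intro x
    by_cases hx : x = 0
    · rw [hx, hV.zero]; simp
    · rw [← hV.euler (hd x hx)]
      exact (ContinuousLinearMap.le_opNorm _ _).trans (by gcongr; exact hb x hx)
  apply LipschitzWith.of_dist_le_mul
  intro x y
  rw [dist_eq_norm, dist_eq_norm]
  by_cases hs : (0 : E) ∈ segment ℝ x y
  · have h1 : ‖x‖ + ‖y‖ = ‖x - y‖ := by
      have := dist_add_dist_of_mem_segment hs
      rw [dist_zero_right, dist_zero_left, dist_eq_norm] at this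
      exact this
    calc ‖V x - V y‖ ≤ ‖V x‖ + ‖V y‖ := norm_sub_le _ _
      _ ≤ C * ‖x‖ + C * ‖y‖ := add_le_add (h0 x) (h0 y)
      _ = C * ‖x - y‖ := by rw [← h1]; ring
  · rw [norm_sub_rev, norm_sub_rev x y]
    refine (convex_segment x y).norm_image_sub_le_of_norm_hasFDerivWithin_le
      (f' := fun z => fderiv ℝ V z) (fun z hz => ?_) (fun z hz => ?_)
      (left_mem_segment ℝ x y) (right_mem_segment ℝ x y)
    · have : z ≠ 0 := fun h => hs (h ▸ hz)
      exact (hd z this).hasFDerivAt.hasFDerivWithinAt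
    · have : z ≠ 0 := fun h => hs (h ▸ hz)
      exact hb z this

omit [NormedSpace ℝ E] in
theorem bijective_id_sub [CompleteSpace E] {V : E → E} {c : ℝ≥0} (hc : c < 1)
    (hV : LipschitzWith c V) :
    Function.Bijective (fun x => x - V x) := by
  constructor
  · intro x y hxy
    have h1 : x - y = V x - V y := by
      have : x - V x = y - V y := hxy
      rw [sub_eq_sub_iff_sub_eq_sub] at this
      exact this
    have h2 := hV.dist_le_mul x y
    rw [dist_eq_norm, dist_eq_norm, ← h1] at h2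
    have hc' : (c : ℝ) < 1 := hc
    have h3 : ‖x - y‖ = 0 := by nlinarith [norm_nonneg (x - y)]
    exact sub_eq_zero.1 (norm_eq_zero.1 h3)
  · intro y
    have hK : ContractingWith c (fun x => y + V x) := by
      refine ⟨hc, ?_⟩
      apply LipschitzWith.of_dist_le_mul
      intro a b
      rw [dist_add_left]
      exact hV.dist_le_mul a b
    refine ⟨hK.fixedPoint, ?_⟩
    have h2 : y + V hK.fixedPoint = hK.fixedPoint := hK.fixedPoint_isFixedPt
    simp only
    nth_rewrite 1 [← h2]
    abel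

end normed

variable {E : Type*} [NormedAddCommGroup E] [InnerProductSpace ℝ E]

theorem hasFDerivAt_norm_of_ne {x : E} (hx : x ≠ 0) :
    HasFDerivAt (fun y : E => ‖y‖) (‖x‖⁻¹ • (innerSL ℝ x)) x := by
  have hn : 0 < ‖x‖ := norm_pos_iff.2 hx
  have h1 : HasFDerivAt (fun y : E => ‖y‖ ^ 2) (2 • (innerSL ℝ x)) x :=
    (hasStrictFDerivAt_norm_sq x).hasFDerivAt
  have h2 := h1.sqrt (by positivity)
  have h3 : (fun y : E => √(‖y‖ ^ 2)) = fun y => ‖y‖ := by
    ext y; exact Real.sqrt_sq (norm_nonneg y)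
  rw [h3] at h2
  refine h2.congr_fderiv ?_
  ext w
  simp only [smul_apply, nsmul_eq_mul, smul_eq_mul, Real.sqrt_sq hn.le, Nat.cast_ofNat]
  field_simp

/-- The cosine of the angle with `q`. -/
noncomputable def cosq (q : E) (x : E) : ℝ := @inner ℝ E _ q x / ‖x‖

theorem cosq_smul (q : E) {c : ℝ} (hc : 0 < c) (x : E) : cosq q (c • x) = cosq q x := by
  unfold cosq
  rw [inner_smul_right, norm_smul, Real.norm_of_nonneg hc.le, mul_div_mul_left _ _ hc.ne']

theorem contDiffAt_cosq (q : E) {x : E} (hx : x ≠ 0) : ContDiffAt ℝ ∞ (cosq q) x := by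
  unfold cosq
  exact (contDiffAt_const.inner ℝ contDiffAt_id).div (contDiffAt_norm ℝ hx)
    (norm_ne_zero_iff.2 hx)

theorem fderiv_cosq_le {q x : E} (hq : ‖q‖ = 1) (hx : ‖x‖ = 1) (w : E) :
    |fderiv ℝ (cosq q) x w| ≤ √(2 * (1 - cosq q x)) * ‖w‖ := by
  have hx0 : x ≠ 0 := by rintro rfl; simp at hx
  have hu : cosq q x = @inner ℝ E _ q x := by simp [cosq, hx]
  have h1 : HasFDerivAt (fun y : E => @inner ℝ E _ q y) (innerSL ℝ q) x :=
    (innerSL ℝ q).hasFDerivAt
  have h2 : HasFDerivAt (fun y : E => ‖y‖⁻¹) (-(‖x‖ ^ 2)⁻¹ • (‖x‖⁻¹ • (innerSL ℝ x))) x :=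
    (hasDerivAt_inv (norm_ne_zero_iff.2 hx0)).comp_hasFDerivAt x (hasFDerivAt_norm_of_ne hx0)
  have h3 : HasFDerivAt (cosq q) _ x := (h1.mul h2).congr_of_eventuallyEq
    (Eventually.of_forall fun y => by simp [cosq, div_eq_mul_inv])
  rw [h3.fderiv]
  simp only [hx, add_apply, smul_apply, smul_eq_mul, innerSL_apply_apply]
  have h4 : (@inner ℝ E _ q x * (-((1 : ℝ) ^ 2)⁻¹ * ((1 : ℝ)⁻¹ * @inner ℝ E _ x w)) +
      (1 : ℝ)⁻¹ * @inner ℝ E _ q w) = @inner ℝ E _ (q - (cosq q x) • x) w := by
    rw [inner_sub_left, real_inner_smul_left, hu]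
    ring
  rw [h4]
  refine (abs_real_inner_le_norm _ _).trans ?_
  gcongr
  apply Real.le_sqrt_of_sq_le
  rw [norm_sub_sq_real, norm_smul, hq, hx, real_inner_smul_right, hu, Real.norm_eq_abs]
  have h5 : |@inner ℝ E _ q x| ≤ 1 := by
    have := abs_real_inner_le_norm q x
    rwa [hq, hx, one_mul] at this
  have h6 := abs_le.1 h5
  rw [mul_one, sq_abs]
  nlinarith


theorem exists_small_cut {R : E → E} (hR : PosHom R) (hRs : ∀ x, x ≠ 0 → ContDiffAt ℝ ∞ R x)
    {q : E} (hq : ‖q‖ = 1) (hRq : R q = 0) (hRq' : fderiv ℝ R q = 0) {η : ℝ} (hη : 0 < η) :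
    ∃ (U : E → E) (c : ℝ), 0 ≤ c ∧ c < 1 ∧ PosHom U ∧ (∀ x, x ≠ 0 → ContDiffAt ℝ ∞ U x) ∧
      (∀ x, x ≠ 0 → ‖fderiv ℝ U x‖ ≤ η) ∧ ∀ x, c * ‖x‖ ≤ @inner ℝ E _ q x → U x = R x := by
  obtain ⟨N, hN, hNb⟩ := exists_bound_deriv_smoothTransition
  set om : ℝ := η / (4 * N + 1) with hom
  have hom0 : 0 < om := by positivity
  have hq0 : q ≠ 0 := by rintro rfl; simp at hq
  have hcont : ContinuousAt (fun x => ‖fderiv ℝ R x‖) q :=
    ((hRs q hq0).fderiv_right (m := ∞) (by simp)).continuousAt.norm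
  have hev : ∀ᶠ z in 𝓝 q, ‖fderiv ℝ R z‖ < om := by
    apply hcont.eventually_lt continuousAt_const
    simp only [hRq', norm_zero]
    exact hom0
  obtain ⟨r', hr', hrb'⟩ := Metric.eventually_nhds_iff_ball.1 hev
  set r : ℝ := min r' (1 / 2) with hrdef
  have hr : 0 < r := by positivity
  have hr2 : r ≤ 1 / 2 := min_le_right _ _
  have hrb : ∀ z ∈ ball q r, ‖fderiv ℝ R z‖ < om := fun z hz =>
    hrb' z (ball_subset_ball (min_le_left _ _) hz)
  set ε : ℝ := min (r / 4) (1 / 4) with hε
  have hε0 : 0 < ε := by positivity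
  have hεr : 2 * ε < r := by
    have : ε ≤ r / 4 := min_le_left _ _
    linarith
  have hε1 : ε ≤ 1 / 4 := min_le_right _ _
  set χ : E → ℝ := fun x => Real.smoothTransition (2 - (1 - cosq q x) / ε ^ 2) with hχ
  have hχs : ∀ x, x ≠ 0 → ContDiffAt ℝ ∞ χ x := by
    intro x hx
    have e1 : ContDiffAt ℝ ∞ (fun x => 2 - (1 - cosq q x) / ε ^ 2) x :=
      contDiffAt_const.sub ((contDiffAt_const.sub (contDiffAt_cosq q hx)).div_const _)
    exact (Real.smoothTransition.contDiff.contDiffAt).comp x e1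
  have hUhom : PosHom (fun x => χ x • R x) := by
    intro c hc x
    simp only [hχ]
    rw [cosq_smul q hc, hR c hc, smul_comm]
  have hUs : ∀ x, x ≠ 0 → ContDiffAt ℝ ∞ (fun x => χ x • R x) x := fun x hx =>
    (hχs x hx).smul (hRs x hx)
  refine ⟨fun x => χ x • R x, 1 - ε ^ 2, by nlinarith, by nlinarith, hUhom, hUs, ?_, ?_⟩
  · -- reduction to unit vectors
    suffices hunit : ∀ x : E, ‖x‖ = 1 → ‖fderiv ℝ (fun x => χ x • R x) x‖ ≤ η by
      intro x hx
      have hn : 0 < ‖x‖ := norm_pos_iff.2 hx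
      have := hunit (‖x‖⁻¹ • x) (by simp [norm_smul, hn.ne'])
      rwa [hUhom.fderiv_smul (inv_pos.2 hn)] at this
    intro x hx
    have hx0 : x ≠ 0 := by rintro rfl; simp at hx
    rcases lt_or_ge (2 * ε ^ 2) (1 - cosq q x) with hcase | hcase
    · have hzero : (fun x => χ x • R x) =ᶠ[𝓝 x] fun _ => 0 := by
        have hc1 : ContinuousAt (fun x => 1 - cosq q x) x :=
          continuousAt_const.sub (contDiffAt_cosq q hx0).continuousAt
        filter_upwards [continuousAt_const.eventually_lt hc1 hcase] with z hz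
        have : χ z = 0 := by
          simp only [hχ]
          apply Real.smoothTransition.zero_of_nonpos
          have : 2 ≤ (1 - cosq q z) / ε ^ 2 := by
            rw [le_div_iff₀ (by positivity)]; exact hz.le
          linarith
        rw [this, zero_smul]
      rw [hzero.fderiv_eq]
      simp [hη.le]
    · have hcx : cosq q x = @inner ℝ E _ q x := by simp [cosq, hx]
      have hxq : ‖x - q‖ ≤ 2 * ε := by
        have h1 : ‖x - q‖ ^ 2 ≤ (2 * ε) ^ 2 := by
          rw [norm_sub_sq_real, hx, hq, real_inner_comm, ← hcx]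
          nlinarith
        exact abs_le_of_sq_le_sq' h1 (by positivity) |>.2
      have hxr : x ∈ ball q r := by
        rw [mem_ball, dist_eq_norm]; linarith
      have hRx : ‖R x‖ ≤ om * (2 * ε) := by
        have h1 : ‖R x - R q‖ ≤ om * ‖x - q‖ := by
          apply (convex_ball q r).norm_image_sub_le_of_norm_fderiv_le (𝕜 := ℝ)
            (fun z hz => ?_) (fun z hz => (hrb z hz).le) (mem_ball_self hr) hxr
          have : z ≠ 0 := by
            rintro rfl
            rw [mem_ball, dist_eq_norm, zero_sub, norm_neg, hq] at hz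
            linarith
          exact (hRs z this).differentiableAt (by simp)
        rw [hRq, sub_zero] at h1
        exact h1.trans (by gcongr)
      have hdc : HasFDerivAt (cosq q) (fderiv ℝ (cosq q) x) x :=
        ((contDiffAt_cosq q hx0).differentiableAt (by simp)).hasFDerivAt
      have hdχ : HasFDerivAt χ (fderiv ℝ χ x) x :=
        ((hχs x hx0).differentiableAt (by simp)).hasFDerivAt
      have hdR : HasFDerivAt R (fderiv ℝ R x) x :=
        ((hRs x hx0).differentiableAt (by simp)).hasFDerivAt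
      have hbχ : ∀ w, |fderiv ℝ χ x w| ≤ 2 * N / ε * ‖w‖ := by
        intro w
        have h5 : HasDerivAt Real.smoothTransition
            (deriv Real.smoothTransition (2 - (1 - cosq q x) / ε ^ 2))
            (2 - (1 - cosq q x) / ε ^ 2) :=
          ((Real.smoothTransition.contDiff (n := 1)).differentiable (by simp) _).hasDerivAt
        have h4 : HasFDerivAt (fun z => 2 - (1 - cosq q z) / ε ^ 2)
            ((ε ^ 2)⁻¹ • fderiv ℝ (cosq q) x) x := by
          have := (hdc.const_mul (ε ^ 2)⁻¹).const_add (2 - (ε ^ 2)⁻¹)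
          refine this.congr_of_eventuallyEq (Eventually.of_forall fun y => ?_)
          simp only
          field_simp
          ring
        have h6 := (h5.comp_hasFDerivAt x h4).fderiv
        have h7 : fderiv ℝ χ x = deriv Real.smoothTransition (2 - (1 - cosq q x) / ε ^ 2) •
            ((ε ^ 2)⁻¹ • fderiv ℝ (cosq q) x) := h6
        rw [h7]
        simp only [smul_apply, smul_eq_mul, abs_mul]
        have h8 := fderiv_cosq_le hq hx w
        have h9 : √(2 * (1 - cosq q x)) ≤ 2 * ε := by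
          rw [Real.sqrt_le_left (by positivity)]
          nlinarith
        rw [abs_of_pos (by positivity : 0 < (ε ^ 2)⁻¹)]
        calc _ ≤ N * ((ε ^ 2)⁻¹ * (2 * ε * ‖w‖)) := by
              gcongr
              · exact hNb _
              · exact h8.trans (by gcongr)
          _ = _ := by field_simp
      have hfd := (hdχ.smul hdR).fderiv
      have hfd' : fderiv ℝ (fun x => χ x • R x) x = _ := hfd
      rw [hfd']
      refine ContinuousLinearMap.opNorm_le_bound _ hη.le fun w => ?_
      simp only [add_apply, smul_apply, ContinuousLinearMap.smulRight_apply]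
      refine (norm_add_le _ _).trans ?_
      rw [norm_smul, norm_smul]
      have hχ1 : ‖χ x‖ ≤ 1 := by
        rw [Real.norm_of_nonneg (Real.smoothTransition.nonneg _)]
        exact Real.smoothTransition.le_one _
      have hb2 := hbχ w
      rw [← Real.norm_eq_abs] at hb2
      have hb3 : ‖fderiv ℝ R x w‖ ≤ om * ‖w‖ :=
        (ContinuousLinearMap.le_opNorm _ _).trans (by gcongr; exact (hrb x hxr).le)
      calc ‖χ x‖ * ‖fderiv ℝ R x w‖ + ‖fderiv ℝ χ x w‖ * ‖R x‖
          ≤ 1 * (om * ‖w‖) + (2 * N / ε * ‖w‖) * (om * (2 * ε)) := by gcongr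
        _ = η * ‖w‖ := by
            rw [hom]; field_simp; ring
  · intro x hx
    by_cases hx0 : x = 0
    · simp only [hx0, hR.zero, smul_zero]
    · have hn : 0 < ‖x‖ := norm_pos_iff.2 hx0
      have h1 : 1 - ε ^ 2 ≤ cosq q x := by
        unfold cosq
        rw [le_div_iff₀ hn]
        exact hx
      have : χ x = 1 := by
        simp only [hχ]
        apply Real.smoothTransition.one_of_one_le
        have : (1 - cosq q x) / ε ^ 2 ≤ 1 := by
          rw [div_le_one (by positivity)]; linarith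
        linarith
      simp only [this, one_smul]

variable [FiniteDimensional ℝ E]

/-- A lower bound for the derivative of a homogeneous homeomorphism. -/
theorem ConeMap.exists_lower {E : Type*} [NormedAddCommGroup E] [NormedSpace ℝ E]
    [FiniteDimensional ℝ E] {H K : E → E} (h : ConeMap H K) :
    ∃ C : ℝ, 0 < C ∧ (∀ x, x ≠ 0 → ‖fderiv ℝ K x‖ ≤ C) ∧
      ∀ x, x ≠ 0 → ∀ w, ‖w‖ ≤ C * ‖fderiv ℝ H x w‖ := by
  obtain ⟨C, hC, hCb, -⟩ := h.symm.exists_bound
  refine ⟨C, hC, hCb, fun x hx w => ?_⟩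
  have hy := h.ne_zero hx
  have h4 : fderiv ℝ (fun y => K (H y)) x = (fderiv ℝ K (H x)).comp (fderiv ℝ H x) :=
    fderiv_comp x ((h.symm.reg _ hy).1.differentiableAt (by simp))
      ((h.reg x hx).1.differentiableAt (by simp))
  have h5 : (fun y => K (H y)) = fun y => y := by ext y; exact h.left y
  rw [h5, fderiv_fun_id] at h4
  have h6 : w = fderiv ℝ K (H x) (fderiv ℝ H x w) := by
    have := congrArg (fun T => T w) h4
    simpa using this
  calc ‖w‖ = ‖fderiv ℝ K (H x) (fderiv ℝ H x w)‖ := by rw [← h6]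
    _ ≤ ‖fderiv ℝ K (H x)‖ * ‖fderiv ℝ H x w‖ := ContinuousLinearMap.le_opNorm _ _
    _ ≤ C * ‖fderiv ℝ H x w‖ := by gcongr; exact hCb _ hy

theorem linearize {H K : E → E} (h : ConeMap H K) {q : E} (hq : ‖q‖ = 1) :
    ∃ (L : E ≃L[ℝ] E) (H' K' : E → E) (c : ℝ), 0 ≤ c ∧ c < 1 ∧ ConeMap H' K' ∧
      ConeIso H (fun x => L (H' x)) ∧ ∀ x, c * ‖x‖ ≤ @inner ℝ E _ q x → H' x = x := by
  have hq0 : q ≠ 0 := by rintro rfl; simp at hq
  obtain ⟨L, hL⟩ := (h.reg q hq0).exists_equiv
  have h1 : ConeMap (fun x => L.symm (H x)) (fun x => K (L x)) := by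
    have := (ConeMap.clm L.symm).comp h
    simpa using this
  set H1 : E → E := fun x => L.symm (H x) with hH1
  set K1 : E → E := fun x => K (L x) with hK1
  have hfd : fderiv ℝ H1 q = ContinuousLinearMap.id ℝ E := by
    have e1 := fderiv_comp q (g := fun y => L.symm y) (f := H) L.symm.differentiableAt
      ((h.reg q hq0).1.differentiableAt (by simp))
    have e2 : fderiv ℝ (fun y => L.symm y) (H q) = (L.symm : E →L[ℝ] E) := L.symm.fderiv
    rw [e2, ← hL] at e1
    rw [show H1 = (fun y => L.symm y) ∘ H from rfl, e1]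
    ext w; simp
  have hH1q : H1 q = q := by
    rw [← h1.homog.euler ((h1.reg q hq0).1.differentiableAt (by simp)), hfd]
    simp
  set R : E → E := fun x => H1 x - x with hR
  have hRhom : PosHom R := by
    intro c hc x
    simp only [hR]
    rw [h1.homog c hc, smul_sub]
  have hRs : ∀ x, x ≠ 0 → ContDiffAt ℝ ∞ R x := fun x hx =>
    (h1.reg x hx).1.sub contDiffAt_id
  have hRq : R q = 0 := by simp only [hR, hH1q, sub_self]
  have hRq' : fderiv ℝ R q = 0 := by
    have : fderiv ℝ R q = fderiv ℝ H1 q - fderiv ℝ (fun x : E => x) q :=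
      fderiv_fun_sub ((h1.reg q hq0).1.differentiableAt (by simp)) differentiableAt_fun_id
    rw [this, hfd, fderiv_fun_id, sub_self]
  obtain ⟨C, hC, hCK, hClow⟩ := h1.exists_lower
  obtain ⟨U, c, hc0, hc1, hUhom, hUs, hUb, hUR⟩ :=
    exists_small_cut hRhom hRs hq hRq hRq' (η := (2 * C)⁻¹) (by positivity)
  -- the family
  set F : ℝ → E → E := fun t x => H1 x - t • U x with hF
  have hfdF : ∀ t x, x ≠ 0 → fderiv ℝ (F t) x = fderiv ℝ H1 x - t • fderiv ℝ U x := by
    intro t x hx
    have e1 : HasFDerivAt H1 (fderiv ℝ H1 x) x :=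
      ((h1.reg x hx).1.differentiableAt (by simp)).hasFDerivAt
    have e2 : HasFDerivAt U (fderiv ℝ U x) x :=
      ((hUs x hx).differentiableAt (by simp)).hasFDerivAt
    exact (e1.sub (e2.const_smul t)).fderiv
  have hinj : ∀ t ∈ Icc (0 : ℝ) 1, ∀ x, x ≠ 0 → Function.Injective (fderiv ℝ (F t) x) := by
    intro t ht x hx
    rw [injective_iff_map_eq_zero]
    intro w hw
    rw [hfdF t x hx] at hw
    simp only [sub_apply, smul_apply] at hw
    have e1 : ‖fderiv ℝ H1 x w‖ = t * ‖fderiv ℝ U x w‖ := by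
      rw [sub_eq_zero.1 hw, norm_smul, Real.norm_of_nonneg ht.1]
    have e2 : ‖fderiv ℝ U x w‖ ≤ (2 * C)⁻¹ * ‖w‖ :=
      (ContinuousLinearMap.le_opNorm _ _).trans (by gcongr; exact hUb x hx)
    have e3 := hClow x hx w
    have e4 : ‖fderiv ℝ H1 x w‖ ≤ (2 * C)⁻¹ * (C * ‖fderiv ℝ H1 x w‖) := by
      calc ‖fderiv ℝ H1 x w‖ = t * ‖fderiv ℝ U x w‖ := e1
        _ ≤ 1 * ((2 * C)⁻¹ * ‖w‖) := by
            gcongr
            exact ht.2
        _ ≤ (2 * C)⁻¹ * (C * ‖fderiv ℝ H1 x w‖) := by
            rw [one_mul]; gcongr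
    have e5 : (2 * C)⁻¹ * (C * ‖fderiv ℝ H1 x w‖) = ‖fderiv ℝ H1 x w‖ / 2 := by
      field_simp
    have e6 : ‖fderiv ℝ H1 x w‖ = 0 := by
      have := norm_nonneg (fderiv ℝ H1 x w)
      linarith
    rw [e6, mul_zero] at e3
    exact norm_eq_zero.1 (le_antisymm e3 (norm_nonneg _))
  have hFam : Family univ F := by
    refine ⟨isOpen_univ, subset_univ _, ?_, fun t _ c hc x => ?_, hinj⟩
    · rintro ⟨t, x⟩ ⟨-, hx⟩
      apply ContDiffAt.contDiffWithinAt
      have e1 : ContDiffAt ℝ ∞ (fun p : ℝ × E => H1 p.2) (t, x) :=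
        ContDiffAt.comp (g := H1) (t, x) (h1.reg x hx).1 contDiffAt_snd
      have e2 : ContDiffAt ℝ ∞ (fun p : ℝ × E => U p.2) (t, x) :=
        ContDiffAt.comp (g := U) (t, x) (hUs x hx) contDiffAt_snd
      exact e1.sub (contDiffAt_fst.smul e2)
    · simp only [hF]
      rw [h1.homog c hc, hUhom c hc, smul_sub, smul_comm]
  have hiso := coneIso_of_family hFam
  have hF0 : F 0 = H1 := by ext x; simp [hF]
  rw [hF0] at hiso
  -- bijectivity of `F 1`
  set V : E → E := fun x => U (K1 x) with hV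
  have hVL : LipschitzWith (1 / 2) V := by
    apply PosHom.lipschitz
    · intro c hc x
      simp only [hV]
      rw [h1.symm.homog c hc, hUhom c hc]
    · intro x hx
      exact ((hUs _ (h1.symm.ne_zero hx)).differentiableAt (by simp)).comp x
        ((h1.symm.reg x hx).1.differentiableAt (by simp))
    · intro x hx
      have e1 : fderiv ℝ V x = (fderiv ℝ U (K1 x)).comp (fderiv ℝ K1 x) :=
        fderiv_comp x ((hUs _ (h1.symm.ne_zero hx)).differentiableAt (by simp))
          ((h1.symm.reg x hx).1.differentiableAt (by simp))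
      rw [e1]
      refine (ContinuousLinearMap.opNorm_comp_le _ _).trans ?_
      calc ‖fderiv ℝ U (K1 x)‖ * ‖fderiv ℝ K1 x‖ ≤ (2 * C)⁻¹ * C := by
            gcongr
            · exact hUb _ (h1.symm.ne_zero hx)
            · exact hCK x hx
        _ = ((1 / 2 : ℝ≥0) : ℝ) := by push_cast; field_simp
  have hbij : Function.Bijective (fun x => x - V x) := by
    apply bijective_id_sub (c := 1 / 2) _ hVL
    rw [div_lt_one (by norm_num)]
    norm_num
  set e := Equiv.ofBijective _ hbij with he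
  have heq : ∀ x, e x = x - V x := fun x => rfl
  refine ⟨L, F 1, fun x => K1 (e.symm x), c, hc0, hc1, ?_, ?_, ?_⟩
  · refine ⟨hFam.homog 1 (by simp), fun x => ?_, fun x => ?_, fun x hx => ?_⟩
    · have : F 1 x = e (H1 x) := by
        rw [heq]
        simp only [hF, hV, one_smul]
        rw [h1.left x]
      simp only [this, Equiv.symm_apply_apply]
      exact h1.left x
    · have h2 : F 1 (K1 (e.symm x)) = e (e.symm x) := by
        rw [heq]
        simp only [hF, hV, one_smul]
        rw [h1.right]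
      rw [h2, Equiv.apply_symm_apply]
    · refine ⟨?_, hinj 1 (by simp) x hx⟩
      simp only [hF, one_smul]
      exact (h1.reg x hx).1.sub (hUs x hx)
  · have e1 := hiso.comp_left L
    have e2 : (fun x => L (H1 x)) = H := by
      ext x; simp [hH1]
    rwa [e2] at e1
  · intro x hx
    simp only [hF, one_smul]
    rw [hUR x hx]
    simp [hR]

end Vale.Agent.P073.SMV
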