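import Vale.Agent.P073.SMV.PathA

/-!
# Conjugations of homogeneous maps, and the level preserving form
-/

namespace Vale.Agent.P073.SMV

open Set Filter Topology Metric
open scoped ContDiff NNReal

variable {E : Type*} [NormedAddCommGroup E] [InnerProductSpace ℝ E]

/-- Conjugating a homogeneous homeomorphism by a smooth family. -/
theorem Family.conj {J : Set ℝ} (hJ : IsOpen J) (hJI : Icc 0 1 ⊆ J) {P Q : ℝ → E → E}
    (hPQ : ∀ t ∈ J, ConeMap (P t) (Q t))
    (hP : ContDiffOn ℝ ∞ (fun p : ℝ × E => P p.1 p.2) (J ×ˢ {0}ᶜ))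
    (hQ : ContDiffOn ℝ ∞ (fun p : ℝ × E => Q p.1 p.2) (J ×ˢ {0}ᶜ))
    (hQ0 : ∀ t ∈ J, ∀ x, x ≠ 0 → RegAt (Q t) x ∧ Q t x ≠ 0)
    {H K : E → E} (h : ConeMap H K) :
    Family J (fun t x => P t (H (Q t x))) := by
  have hopen : IsOpen (J ×ˢ ({0}ᶜ : Set E)) := hJ.prod isOpen_compl_singleton
  refine ⟨hJ, hJI, ?_, fun t ht c hc x => ?_, fun t ht x hx => ?_⟩
  · rintro ⟨t, x⟩ ⟨ht, hx⟩
    apply ContDiffAt.contDiffWithinAt
    have e1 : ContDiffAt ℝ ∞ (fun p : ℝ × E => Q p.1 p.2) (t, x) :=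
      hQ.contDiffAt (hopen.mem_nhds ⟨ht, hx⟩)
    have e2 : ContDiffAt ℝ ∞ (fun p : ℝ × E => H (Q p.1 p.2)) (t, x) :=
      ContDiffAt.comp (g := H) (t, x) (h.reg _ (hQ0 t ht x hx).2).1 e1
    have e3 : ContDiffAt ℝ ∞ (fun p : ℝ × E => P p.1 p.2) (t, H (Q t x)) :=
      hP.contDiffAt (hopen.mem_nhds ⟨ht, h.ne_zero (hQ0 t ht x hx).2⟩)
    exact ContDiffAt.comp (g := fun p : ℝ × E => P p.1 p.2)
      (f := fun p : ℝ × E => (p.1, H (Q p.1 p.2))) (t, x) e3 (contDiffAt_fst.prodMk e2)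
  · have h1 : Q t (c • x) = c • Q t x := by
      rw [← (hPQ t (hJI ht)).left (c • Q t x), (hPQ t (hJI ht)).homog c hc,
        (hPQ t (hJI ht)).right]
    simp only [h1, h.homog c hc, (hPQ t (hJI ht)).homog c hc]
  · obtain ⟨h1, h2⟩ := hQ0 t (hJI ht) x hx
    have e1 : RegAt (fun y => H (Q t y)) x := (h.reg _ h2).comp h1
    exact (RegAt.comp (g := P t) (h := fun y => H (Q t y))
      ((hPQ t (hJI ht)).reg _ (h.ne_zero h2)) e1).2

/-- The push in direction `-q`. -/
noncomputable def Pp (q : E) (s : ℝ) (x : E) : E := x - (s * ‖x‖) • q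

/-- The size of the preimage. -/
noncomputable def rq (q : E) (s : ℝ) (y : E) : ℝ :=
  (s * @inner ℝ E _ q y + √(s ^ 2 * (@inner ℝ E _ q y) ^ 2 + (1 - s ^ 2) * ‖y‖ ^ 2)) / (1 - s ^ 2)

/-- The inverse of `Pp`. -/
noncomputable def Qi (q : E) (s : ℝ) (y : E) : E := y + (s * rq q s y) • q

theorem one_sub_sq_pos {s : ℝ} (hs : s ∈ Ioo (-1 : ℝ) 1) : 0 < 1 - s ^ 2 := by
  nlinarith [hs.1, hs.2]

theorem rq_Pp {q : E} (hq : ‖q‖ = 1) {s : ℝ} (hs : s ∈ Ioo (-1 : ℝ) 1) (x : E) :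
    rq q s (Pp q s x) = ‖x‖ := by
  have h0 := one_sub_sq_pos hs
  set a := ‖x‖ with ha
  set b := @inner ℝ E _ q x with hb
  have hqq : @inner ℝ E _ q q = 1 := by rw [real_inner_self_eq_norm_sq, hq]; norm_num
  have h1 : @inner ℝ E _ q (Pp q s x) = b - s * a := by
    unfold Pp
    rw [inner_sub_right, real_inner_smul_right, hqq, mul_one]
  have h2 : ‖Pp q s x‖ ^ 2 = a ^ 2 - 2 * s * a * b + s ^ 2 * a ^ 2 := by
    unfold Pp
    rw [norm_sub_sq_real, real_inner_smul_right, norm_smul, hq, real_inner_comm, ← hb, ← ha,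
      Real.norm_eq_abs, mul_one, sq_abs]
    ring
  have hab : |b| ≤ a := by
    have := abs_real_inner_le_norm q x
    rwa [hq, one_mul] at this
  have ha0 : 0 ≤ a := norm_nonneg _
  have hsb : s * b ≤ a := by
    have : |s * b| ≤ 1 * a := by
      rw [abs_mul]
      have : |s| ≤ 1 := abs_le.2 ⟨hs.1.le, hs.2.le⟩
      gcongr
    linarith [le_abs_self (s * b)]
  unfold rq
  rw [h1, h2]
  have h3 : s ^ 2 * (b - s * a) ^ 2 + (1 - s ^ 2) * (a ^ 2 - 2 * s * a * b + s ^ 2 * a ^ 2) =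
      (a - s * b) ^ 2 := by ring
  rw [h3, Real.sqrt_sq (by linarith)]
  field_simp
  ring

theorem norm_Qi {q : E} (hq : ‖q‖ = 1) {s : ℝ} (hs : s ∈ Ioo (-1 : ℝ) 1) (y : E) :
    ‖Qi q s y‖ = rq q s y := by
  have h0 := one_sub_sq_pos hs
  set b := @inner ℝ E _ q y with hb
  set D := s ^ 2 * b ^ 2 + (1 - s ^ 2) * ‖y‖ ^ 2 with hD
  have hD0 : 0 ≤ D := by positivity
  have hr : rq q s y = (s * b + √D) / (1 - s ^ 2) := rfl
  have hsb : |s * b| ≤ √D := by
    apply Real.le_sqrt_of_sq_le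
    rw [sq_abs, hD]
    nlinarith [mul_nonneg h0.le (sq_nonneg ‖y‖)]
  have hr0 : 0 ≤ rq q s y := by
    rw [hr]
    apply div_nonneg _ h0.le
    linarith [neg_abs_le (s * b)]
  have hquad : (1 - s ^ 2) * (rq q s y) ^ 2 = 2 * s * b * rq q s y + ‖y‖ ^ 2 := by
    have h1 : (1 - s ^ 2) * rq q s y - s * b = √D := by rw [hr]; field_simp; ring
    have h2 : ((1 - s ^ 2) * rq q s y - s * b) ^ 2 = D := by rw [h1, Real.sq_sqrt hD0]
    have h3 : (1 - s ^ 2) * ((1 - s ^ 2) * (rq q s y) ^ 2) =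
        (1 - s ^ 2) * (2 * s * b * rq q s y + ‖y‖ ^ 2) := by
      rw [hD] at h2; nlinarith
    exact mul_left_cancel₀ h0.ne' h3
  have h4 : ‖Qi q s y‖ ^ 2 = (rq q s y) ^ 2 := by
    unfold Qi
    rw [norm_add_sq_real, real_inner_smul_right, norm_smul, hq, real_inner_comm, ← hb,
      Real.norm_eq_abs, mul_one, sq_abs]
    nlinarith
  exact (sq_eq_sq₀ (norm_nonneg _) hr0).1 h4

theorem contDiffAt_Pp (q : E) {p : ℝ × E} (hp : p.2 ≠ 0) :
    ContDiffAt ℝ ∞ (fun p : ℝ × E => Pp q p.1 p.2) p := by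
  unfold Pp
  exact contDiffAt_snd.sub
    ((contDiffAt_fst.mul (contDiffAt_snd.norm ℝ hp)).smul contDiffAt_const)

theorem contDiffAt_rq (q : E) {p : ℝ × E} (hp1 : p.1 ∈ Ioo (-1 : ℝ) 1) (hp : p.2 ≠ 0) :
    ContDiffAt ℝ ∞ (fun p : ℝ × E => rq q p.1 p.2) p := by
  unfold rq
  have h0 := one_sub_sq_pos hp1
  have hn : 0 < ‖p.2‖ := norm_pos_iff.2 hp
  have e1 : ContDiffAt ℝ ∞ (fun p : ℝ × E => @inner ℝ E _ q p.2) p :=
    contDiffAt_const.inner ℝ contDiffAt_snd
  have e2 : ContDiffAt ℝ ∞ (fun p : ℝ × E => 1 - p.1 ^ 2) p :=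
    contDiffAt_const.sub (contDiffAt_fst.pow 2)
  have e3 : ContDiffAt ℝ ∞ (fun p : ℝ × E => ‖p.2‖ ^ 2) p := contDiffAt_snd.norm_sq ℝ
  refine ContDiffAt.div ?_ e2 h0.ne'
  refine (contDiffAt_fst.mul e1).add (ContDiffAt.sqrt ?_ ?_)
  · exact ((contDiffAt_fst.pow 2).mul (e1.pow 2)).add (e2.mul e3)
  · have : 0 < (1 - p.1 ^ 2) * ‖p.2‖ ^ 2 := by positivity
    have : 0 ≤ p.1 ^ 2 * (@inner ℝ E _ q p.2) ^ 2 := by positivity
    positivity

theorem contDiffAt_Qi (q : E) {p : ℝ × E} (hp1 : p.1 ∈ Ioo (-1 : ℝ) 1) (hp : p.2 ≠ 0) :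
    ContDiffAt ℝ ∞ (fun p : ℝ × E => Qi q p.1 p.2) p := by
  unfold Qi
  exact contDiffAt_snd.add ((contDiffAt_fst.mul (contDiffAt_rq q hp1 hp)).smul contDiffAt_const)

theorem Qi_Pp {q : E} (hq : ‖q‖ = 1) {s : ℝ} (hs : s ∈ Ioo (-1 : ℝ) 1) (x : E) :
    Qi q s (Pp q s x) = x := by
  unfold Qi
  rw [rq_Pp hq hs]
  simp [Pp]

theorem Pp_Qi {q : E} (hq : ‖q‖ = 1) {s : ℝ} (hs : s ∈ Ioo (-1 : ℝ) 1) (y : E) :
    Pp q s (Qi q s y) = y := by
  unfold Pp
  rw [norm_Qi hq hs]
  simp [Qi]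

theorem coneMap_Pp {q : E} (hq : ‖q‖ = 1) {s : ℝ} (hs : s ∈ Ioo (-1 : ℝ) 1) :
    ConeMap (Pp q s) (Qi q s) := by
  refine ⟨fun c hc x => ?_, Qi_Pp hq hs, Pp_Qi hq hs, fun x hx => ?_⟩
  · unfold Pp
    rw [norm_smul, Real.norm_of_nonneg hc.le, smul_sub, smul_smul]
    congr 2
    ring
  · have h1 : ContDiffAt ℝ ∞ (Pp q s) x :=
      ContDiffAt.comp (g := fun p : ℝ × E => Pp q p.1 p.2) (f := fun x : E => (s, x)) x
        (contDiffAt_Pp q hx) (contDiffAt_const.prodMk contDiffAt_id)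
    have h2 : Pp q s x ≠ 0 := by
      intro h0
      have := Qi_Pp hq hs x
      rw [h0] at this
      apply hx
      rw [← this]
      simp [Qi, rq]
    have h3 : ContDiffAt ℝ ∞ (Qi q s) (Pp q s x) :=
      ContDiffAt.comp (g := fun p : ℝ × E => Qi q p.1 p.2) (f := fun x : E => (s, x)) _
        (contDiffAt_Qi q hs h2) (contDiffAt_const.prodMk contDiffAt_id)
    exact regAt_of_left h1 (h3.differentiableAt (by simp)) (Eventually.of_forall (Qi_Pp hq hs))

variable [FiniteDimensional ℝ E]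

/-- Pushing the support of a homogeneous map, identity near `q`, off a half space. -/
theorem push {H K : E → E} (h : ConeMap H K) {q : E} (hq : ‖q‖ = 1) {c : ℝ} (hc0 : 0 ≤ c)
    (hc1 : c < 1) (hid : ∀ x, c * ‖x‖ ≤ @inner ℝ E _ q x → H x = x) :
    ∃ H' K' : E → E, ConeMap H' K' ∧ ConeIso H H' ∧
      ∀ y, @inner ℝ E _ (-q) y ≤ (1 - c) / 4 * ‖y‖ → H' y = y := by
  set s : ℝ := (1 + c) / 2 with hs
  have hs0 : 0 < s := by positivity
  have hs1 : s < 1 := by rw [hs]; linarith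
  set J : Set ℝ := {t | s * t ∈ Ioo (-1 : ℝ) 1} with hJ
  have hJo : IsOpen J := isOpen_Ioo.preimage (continuous_const.mul continuous_id)
  have hJI : Icc 0 1 ⊆ J := by
    intro t ht
    exact ⟨by nlinarith [mul_nonneg hs0.le ht.1], by nlinarith [ht.2]⟩
  have hmap : ContDiff ℝ ∞ (fun p : ℝ × E => (s * p.1, p.2)) :=
    (contDiff_const.mul contDiff_fst).prodMk contDiff_snd
  have hP : ContDiffOn ℝ ∞ (fun p : ℝ × E => Pp q (s * p.1) p.2) (J ×ˢ {0}ᶜ) := by
    rintro ⟨t, x⟩ ⟨ht, hx⟩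
    exact (ContDiffAt.comp (g := fun p : ℝ × E => Pp q p.1 p.2)
      (f := fun p : ℝ × E => (s * p.1, p.2)) (t, x) (contDiffAt_Pp q hx)
      hmap.contDiffAt).contDiffWithinAt
  have hQ : ContDiffOn ℝ ∞ (fun p : ℝ × E => Qi q (s * p.1) p.2) (J ×ˢ {0}ᶜ) := by
    rintro ⟨t, x⟩ ⟨ht, hx⟩
    exact (ContDiffAt.comp (g := fun p : ℝ × E => Qi q p.1 p.2)
      (f := fun p : ℝ × E => (s * p.1, p.2)) (t, x) (contDiffAt_Qi q ht hx)
      hmap.contDiffAt).contDiffWithinAt
  have hfam : Family J (fun t x => Pp q (s * t) (H (Qi q (s * t) x))) := by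
    apply Family.conj (P := fun t => Pp q (s * t)) (Q := fun t => Qi q (s * t)) hJo hJI
      (fun t ht => coneMap_Pp hq ht) hP hQ _ h
    intro t ht x hx
    have := (coneMap_Pp hq ht).symm
    exact ⟨this.reg x hx, this.ne_zero hx⟩
  have hiso := coneIso_of_family hfam
  have h0 : (fun x => Pp q (s * 0) (H (Qi q (s * 0) x))) = H := by
    ext x; simp [Pp, Qi]
  rw [h0] at hiso
  simp only [mul_one] at hiso
  have hsI : s ∈ Ioo (-1 : ℝ) 1 := ⟨by linarith, hs1⟩
  refine ⟨fun x => Pp q s (H (Qi q s x)), fun x => Pp q s (K (Qi q s x)), ?_, hiso, ?_⟩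
  · have := ((coneMap_Pp hq hsI).comp h).comp (coneMap_Pp hq hsI).symm
    exact this
  · intro y hy
    set x := Qi q s y with hx
    have hyx : y = Pp q s x := (Pp_Qi hq hsI y).symm
    by_cases hcase : c * ‖x‖ ≤ @inner ℝ E _ q x
    · simp only
      rw [hid x hcase, ← hyx]
    · exfalso
      push Not at hcase
      have hqq : @inner ℝ E _ q q = 1 := by rw [real_inner_self_eq_norm_sq, hq]; norm_num
      have h1 : @inner ℝ E _ q y = @inner ℝ E _ q x - s * ‖x‖ := by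
        rw [hyx]
        unfold Pp
        rw [inner_sub_right, real_inner_smul_right, hqq, mul_one]
      have h2 : ‖y‖ ≤ 2 * ‖x‖ := by
        rw [hyx]
        unfold Pp
        refine (norm_sub_le _ _).trans ?_
        rw [norm_smul, hq, mul_one, norm_mul, norm_norm, Real.norm_of_nonneg hs0.le]
        nlinarith [norm_nonneg x]
      rw [inner_neg_left, h1] at hy
      have h3 : (1 - c) / 4 * ‖y‖ ≤ (1 - c) / 4 * (2 * ‖x‖) := by
        have : 0 ≤ (1 - c) / 4 := by linarith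
        gcongr
      have h4 : -(@inner ℝ E _ q x - s * ‖x‖) ≤ (1 - c) / 4 * (2 * ‖x‖) := hy.trans h3
      rw [hs] at h4
      nlinarith [norm_nonneg x]

/-- Scaling of the orthogonal complement of `d`. -/
noncomputable def Dd (d : E) (l : ℝ) (x : E) : E := l • x + ((1 - l) * @inner ℝ E _ d x) • d

omit [FiniteDimensional ℝ E] in
theorem inner_Dd {d : E} (hd : ‖d‖ = 1) (l : ℝ) (x : E) :
    @inner ℝ E _ d (Dd d l x) = @inner ℝ E _ d x := by
  have hqq : @inner ℝ E _ d d = 1 := by rw [real_inner_self_eq_norm_sq, hd]; norm_num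
  unfold Dd
  rw [inner_add_right, real_inner_smul_right, real_inner_smul_right, hqq]
  ring

omit [FiniteDimensional ℝ E] in
theorem Dd_Dd {d : E} (hd : ‖d‖ = 1) (l m : ℝ) (x : E) : Dd d l (Dd d m x) = Dd d (l * m) x := by
  have h1 := inner_Dd hd m x
  unfold Dd at h1 ⊢
  rw [h1, smul_add, smul_smul, smul_smul, add_assoc, ← add_smul]
  congr 2
  ring

omit [FiniteDimensional ℝ E] in
theorem Dd_one (d : E) (x : E) : Dd d 1 x = x := by simp [Dd]

omit [FiniteDimensional ℝ E] in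
theorem contDiff_Dd (d : E) : ContDiff ℝ ∞ (fun p : ℝ × E => Dd d p.1 p.2) := by
  unfold Dd
  exact (contDiff_fst.smul contDiff_snd).add
    (((contDiff_const.sub contDiff_fst).mul (contDiff_const.inner ℝ contDiff_snd)).smul
      contDiff_const)

omit [FiniteDimensional ℝ E] in
theorem coneMap_Dd {d : E} (hd : ‖d‖ = 1) {l : ℝ} (hl : l ≠ 0) :
    ConeMap (Dd d l) (Dd d l⁻¹) := by
  have hleft : ∀ x, Dd d l⁻¹ (Dd d l x) = x := fun x => by
    rw [Dd_Dd hd, inv_mul_cancel₀ hl, Dd_one]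
  refine ⟨fun c hc x => ?_, hleft, fun x => ?_, fun x hx => ?_⟩
  · unfold Dd
    rw [smul_add, smul_smul, smul_smul, smul_smul, real_inner_smul_right]
    congr 2 <;> ring
  · rw [Dd_Dd hd, mul_inv_cancel₀ hl, Dd_one]
  · have h1 : ∀ m : ℝ, ContDiff ℝ ∞ (Dd d m) := fun m =>
      (contDiff_Dd d).comp (f := fun x : E => (m, x)) (contDiff_const.prodMk contDiff_id)
    exact regAt_of_left (h1 l).contDiffAt ((h1 l⁻¹).differentiable (by simp) _)
      (Eventually.of_forall hleft)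

/-- Shrinking the support to the cone of opening one around `d`. -/
theorem shrink {H K : E → E} (h : ConeMap H K) {d : E} (hd : ‖d‖ = 1) {c : ℝ} (hc0 : 0 < c)
    (hc1 : c ≤ 1) (hid : ∀ x, @inner ℝ E _ d x ≤ c * ‖x‖ → H x = x) :
    ∃ H' K' : E → E, ConeMap H' K' ∧ ConeIso H H' ∧
      ∀ y, @inner ℝ E _ d y ≤ ‖y - (@inner ℝ E _ d y) • d‖ → H' y = y := by
  set lam : ℝ → ℝ := fun t => 1 - t * (1 - c) with hlam
  have hlams : ContDiff ℝ ∞ lam := contDiff_const.sub (contDiff_id.mul contDiff_const)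
  set J : Set ℝ := {t | 0 < lam t} with hJ
  have hJo : IsOpen J := isOpen_lt continuous_const hlams.continuous
  have hJI : Icc 0 1 ⊆ J := by
    intro t ht
    change 0 < lam t
    simp only [hlam]
    nlinarith [ht.1, ht.2]
  have hP : ContDiffOn ℝ ∞ (fun p : ℝ × E => Dd d (lam p.1) p.2) (J ×ˢ {0}ᶜ) :=
    ((contDiff_Dd d).comp (f := fun p : ℝ × E => (lam p.1, p.2))
      ((hlams.comp contDiff_fst).prodMk contDiff_snd)).contDiffOn
  have hQ : ContDiffOn ℝ ∞ (fun p : ℝ × E => Dd d (lam p.1)⁻¹ p.2) (J ×ˢ {0}ᶜ) := by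
    rintro ⟨t, x⟩ ⟨ht, hx⟩
    apply ContDiffAt.contDiffWithinAt
    have ht' : lam t ≠ 0 := ne_of_gt ht
    refine ContDiffAt.comp (g := fun p : ℝ × E => Dd d p.1 p.2)
      (f := fun p : ℝ × E => ((lam p.1)⁻¹, p.2)) (t, x) (contDiff_Dd d).contDiffAt ?_
    refine ContDiffAt.prodMk ?_ contDiffAt_snd
    exact ContDiffAt.inv ((hlams.comp contDiff_fst).contDiffAt) ht'
  have hfam : Family J (fun t x => Dd d (lam t) (H (Dd d (lam t)⁻¹ x))) := by
    apply Family.conj (P := fun t => Dd d (lam t)) (Q := fun t => Dd d (lam t)⁻¹) hJo hJI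
      (fun t ht => coneMap_Dd hd (ne_of_gt ht)) hP hQ _ h
    intro t ht x hx
    have := (coneMap_Dd hd (ne_of_gt ht : lam t ≠ 0)).symm
    exact ⟨this.reg x hx, this.ne_zero hx⟩
  have hiso := coneIso_of_family hfam
  have hl0 : lam 0 = 1 := by simp [hlam]
  have hl1 : lam 1 = c := by simp [hlam]
  have h0 : (fun x => Dd d (lam 0) (H (Dd d (lam 0)⁻¹ x))) = H := by
    ext x; simp [hl0, Dd_one]
  rw [h0] at hiso
  simp only [hl1] at hiso
  refine ⟨fun x => Dd d c (H (Dd d c⁻¹ x)), fun x => Dd d c (K (Dd d c⁻¹ x)), ?_, hiso, ?_⟩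
  · have := ((coneMap_Dd hd hc0.ne').comp h).comp (coneMap_Dd hd hc0.ne').symm
    exact this
  · intro y hy
    have hqq : @inner ℝ E _ d d = 1 := by rw [real_inner_self_eq_norm_sq, hd]; norm_num
    have hy2 : Dd d c (Dd d c⁻¹ y) = y := by rw [Dd_Dd hd, mul_inv_cancel₀ hc0.ne', Dd_one]
    simp only
    rw [hid, hy2]
    rw [inner_Dd hd]
    set t := @inner ℝ E _ d y with ht
    -- norm of `Dd d c⁻¹ y`
    have h1 : Dd d c⁻¹ y = c⁻¹ • (y - t • d) + t • d := by
      unfold Dd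
      rw [← ht, smul_sub, smul_smul, sub_add_eq_add_sub, add_sub_assoc, ← sub_smul]
      congr 2
      ring
    have h2 : @inner ℝ E _ (c⁻¹ • (y - t • d)) (t • d) = 0 := by
      rw [real_inner_smul_left, real_inner_smul_right, inner_sub_left, real_inner_smul_left, hqq,
        real_inner_comm, ← ht]
      ring
    have h3 : ‖Dd d c⁻¹ y‖ ^ 2 = ‖c⁻¹ • (y - t • d)‖ ^ 2 + ‖t • d‖ ^ 2 := by
      rw [h1, norm_add_sq_real, h2]; ring
    have h4 : ‖c⁻¹ • (y - t • d)‖ ≤ ‖Dd d c⁻¹ y‖ := by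
      apply le_of_sq_le_sq _ (norm_nonneg _)
      rw [h3]
      nlinarith [norm_nonneg (t • d)]
    have h5 : ‖y - t • d‖ ≤ c * ‖Dd d c⁻¹ y‖ := by
      rw [norm_smul, norm_inv, Real.norm_of_nonneg hc0.le, inv_mul_eq_div,
        div_le_iff₀ hc0] at h4
      linarith
    exact hy.trans h5

/-- Multiplying a homogeneous homeomorphism by a positive function. -/
theorem ConeMap.smul {H K : E → E} (h : ConeMap H K) {lam : E → ℝ} (hl : ∀ x, 0 < lam x)
    (hls : ∀ x, x ≠ 0 → ContDiffAt ℝ ∞ lam x) (hlh : ∀ c : ℝ, 0 < c → ∀ x, lam (c • x) = lam x) :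
    ConeMap (fun x => lam x • H x) (fun y => (lam (K y))⁻¹ • K y) := by
  have hhom : PosHom (fun x => lam x • H x) := fun c hc x => by
    simp only
    rw [hlh c hc, h.homog c hc, smul_comm]
  refine ⟨hhom, fun x => ?_, fun y => ?_, fun x hx => ?_⟩
  · rw [h.symm.homog _ (hl x), h.left, hlh _ (hl x), smul_smul, inv_mul_cancel₀ (hl x).ne',
      one_smul]
  · rw [h.homog _ (inv_pos.2 (hl _)), h.right, hlh _ (inv_pos.2 (hl _)), smul_smul,
      mul_inv_cancel₀ (hl _).ne', one_smul]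
  · have e1 : ContDiffAt ℝ ∞ (fun x => lam x • H x) x := (hls x hx).smul (h.reg x hx).1
    refine ⟨e1, ?_⟩
    have hdl : HasFDerivAt lam (fderiv ℝ lam x) x :=
      ((hls x hx).differentiableAt (by simp)).hasFDerivAt
    have hdH : HasFDerivAt H (fderiv ℝ H x) x :=
      ((h.reg x hx).1.differentiableAt (by simp)).hasFDerivAt
    have hfd : fderiv ℝ (fun x => lam x • H x) x = _ := (hdl.smul hdH).fderiv
    rw [injective_iff_map_eq_zero]
    intro w hw
    rw [hfd] at hw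
    simp only [add_apply, smul_apply, ContinuousLinearMap.smulRight_apply] at hw
    have heul := h.homog.euler ((h.reg x hx).1.differentiableAt (by simp))
    -- `w` is a multiple of `x`
    have h1 : fderiv ℝ H x (lam x • w + (fderiv ℝ lam x w) • x) = 0 := by
      rw [map_add, map_smul, map_smul, heul]
      exact hw
    have h2 : lam x • w + (fderiv ℝ lam x w) • x = 0 := by
      apply (h.reg x hx).2
      rw [h1, map_zero]
    have h3 : fderiv ℝ lam x x = 0 := by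
      have e2 : HasDerivAt (fun t : ℝ => lam (t • x)) (fderiv ℝ lam x x) 1 := by
        have e3 : HasFDerivAt lam (fderiv ℝ lam x) ((1 : ℝ) • x) := by rw [one_smul]; exact hdl
        have e4 : HasDerivAt (fun t : ℝ => t • x) x 1 := by
          simpa using (hasDerivAt_id (1 : ℝ)).smul_const x
        exact e3.comp_hasDerivAt 1 e4
      have e5 : (fun t : ℝ => lam (t • x)) =ᶠ[𝓝 1] fun _ => lam x := by
        filter_upwards [lt_mem_nhds one_pos] with t ht
        exact hlh t ht x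
      exact (e2.congr_of_eventuallyEq e5.symm).unique (hasDerivAt_const _ _)
    have h4 : fderiv ℝ lam x w = 0 := by
      have e6 := congrArg (fderiv ℝ lam x) h2
      rw [map_add, map_smul, map_smul, h3, smul_zero, add_zero, map_zero, smul_eq_mul] at e6
      exact (mul_eq_zero.1 e6).resolve_left (hl x).ne'
    rw [h4, zero_smul, add_zero] at h2
    exact (smul_eq_zero.1 h2).resolve_left (hl x).ne'

/-- Making a homogeneous homeomorphism supported in the cone around `d` preserve the levels. -/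
theorem level {H K : E → E} (h : ConeMap H K) {d : E} (hd : ‖d‖ = 1)
    (hid : ∀ y, @inner ℝ E _ d y ≤ ‖y - (@inner ℝ E _ d y) • d‖ → H y = y) :
    ∃ A B : E → E, ConeMap A B ∧ ConeIso H A ∧ (∀ x, @inner ℝ E _ d (A x) = @inner ℝ E _ d x) ∧
      ∀ y, @inner ℝ E _ d y ≤ ‖y - (@inner ℝ E _ d y) • d‖ → A y = y := by
  classical
  have hpos : ∀ x, 0 < @inner ℝ E _ d x → 0 < @inner ℝ E _ d (H x) := by
    intro x hx
    by_cases hc : @inner ℝ E _ d x ≤ ‖x - (@inner ℝ E _ d x) • d‖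
    · rw [hid x hc]; exact hx
    · by_cases hc' : @inner ℝ E _ d (H x) ≤ ‖H x - (@inner ℝ E _ d (H x)) • d‖
      · exfalso
        have h1 := hid _ hc'
        have h2 : H x = x := by rw [← h.left (H x), h1, h.left]
        rw [h2] at hc'
        exact hc hc'
      · push Not at hc'
        exact lt_of_le_of_lt (norm_nonneg _) hc'
  set lam : E → ℝ := fun x =>
    if 0 < @inner ℝ E _ d x then @inner ℝ E _ d x / @inner ℝ E _ d (H x) else 1 with hlam
  have hl : ∀ x, 0 < lam x := by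
    intro x
    simp only [hlam]
    split_ifs with hx
    · exact div_pos hx (hpos x hx)
    · exact one_pos
  have hl1 : ∀ x, H x = x → lam x = 1 := by
    intro x hx
    simp only [hlam]
    split_ifs with hx'
    · rw [hx, div_self hx'.ne']
    · rfl
  have hlh : ∀ c : ℝ, 0 < c → ∀ x, lam (c • x) = lam x := by
    intro c hc x
    simp only [hlam]
    rw [h.homog c hc, real_inner_smul_right, real_inner_smul_right]
    by_cases hx : 0 < @inner ℝ E _ d x
    · rw [if_pos hx, if_pos (by positivity), mul_div_mul_left _ _ hc.ne']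
    · rw [if_neg hx, if_neg]
      intro h1
      exact hx ((mul_pos_iff_of_pos_left hc).1 h1)
  have hls : ∀ x, x ≠ 0 → ContDiffAt ℝ ∞ lam x := by
    intro x hx
    by_cases hx' : 0 < @inner ℝ E _ d x
    · have e1 : ContDiffAt ℝ ∞ (fun x => @inner ℝ E _ d x / @inner ℝ E _ d (H x)) x :=
        (contDiffAt_const.inner ℝ contDiffAt_id).div
          (contDiffAt_const.inner ℝ (h.reg x hx).1) (hpos x hx').ne'
      refine e1.congr_of_eventuallyEq ?_
      have hc : Continuous fun z : E => @inner ℝ E _ d z := continuous_const.inner continuous_id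
      filter_upwards [(isOpen_lt continuous_const hc).mem_nhds hx'] with z hz
      simp only [hlam]
      rw [if_pos hz]
    · have hlt : @inner ℝ E _ d x < ‖x - (@inner ℝ E _ d x) • d‖ := by
        rcases lt_or_eq_of_le (not_lt.1 hx') with h1 | h1
        · exact lt_of_lt_of_le h1 (norm_nonneg _)
        · rw [h1, zero_smul, sub_zero]
          exact norm_pos_iff.2 hx
      have hc : Continuous fun z : E => @inner ℝ E _ d z := continuous_const.inner continuous_id
      have hc2 : Continuous fun z : E => ‖z - (@inner ℝ E _ d z) • d‖ :=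
        (continuous_id.sub (hc.smul continuous_const)).norm
      refine (contDiffAt_const (c := (1 : ℝ))).congr_of_eventuallyEq ?_
      filter_upwards [(isOpen_lt hc hc2).mem_nhds hlt] with z hz
      exact hl1 z (hid z (le_of_lt hz))
  set F : ℝ → E → E := fun t x => Real.exp (t * Real.log (lam x)) • H x with hF
  have hcone : ∀ t : ℝ, ∃ G, ConeMap (F t) G := by
    intro t
    refine ⟨_, h.smul (lam := fun x => Real.exp (t * Real.log (lam x))) (fun x => Real.exp_pos _)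
      (fun x hx => ?_) (fun c hc x => ?_)⟩
    · exact (contDiffAt_const.mul ((hls x hx).log (hl x).ne')).exp
    · simp only [hlh c hc x]
  have hfam : Family univ F := by
    refine ⟨isOpen_univ, subset_univ _, ?_, fun t _ => ?_, fun t _ x hx => ?_⟩
    · rintro ⟨t, x⟩ ⟨-, hx⟩
      apply ContDiffAt.contDiffWithinAt
      have e1 : ContDiffAt ℝ ∞ (fun p : ℝ × E => lam p.2) (t, x) :=
        ContDiffAt.comp (g := lam) (t, x) (hls x hx) contDiffAt_snd
      have e2 : ContDiffAt ℝ ∞ (fun p : ℝ × E => H p.2) (t, x) :=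
        ContDiffAt.comp (g := H) (t, x) (h.reg x hx).1 contDiffAt_snd
      exact ((contDiffAt_fst.mul (e1.log (hl x).ne')).exp).smul e2
    · obtain ⟨G, hG⟩ := hcone t
      exact hG.homog
    · obtain ⟨G, hG⟩ := hcone t
      exact (hG.reg x hx).2
  have hiso := coneIso_of_family hfam
  have hF0 : F 0 = H := by ext x; simp [hF]
  rw [hF0] at hiso
  have hF1 : ∀ x, F 1 x = lam x • H x := by
    intro x
    simp only [hF, one_mul, Real.exp_log (hl x)]
  obtain ⟨G, hG⟩ := hcone 1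
  have hfix : ∀ x, H x = x → F 1 x = x := by
    intro x hx
    rw [hF1, hl1 x hx, hx, one_smul]
  refine ⟨F 1, G, hG, hiso, fun x => ?_, fun y hy => hfix y (hid y hy)⟩
  by_cases hx : 0 < @inner ℝ E _ d x
  · rw [hF1, real_inner_smul_right]
    simp only [hlam]
    rw [if_pos hx]
    have := (hpos x hx).ne'
    field_simp
  · rw [hfix x (hid x ((not_lt.1 hx).trans (norm_nonneg _)))]

/-- Every homogeneous homeomorphism is connected, up to a linear map, to a level preserving one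
supported in the cone around a given direction. -/
theorem exists_level_form {H K : E → E} (h : ConeMap H K) {d : E} (hd : ‖d‖ = 1) :
    ∃ (L : E ≃L[ℝ] E) (A B : E → E), ConeMap A B ∧ ConeIso H (fun x => L (A x)) ∧
      (∀ x, @inner ℝ E _ d (A x) = @inner ℝ E _ d x) ∧
      ∀ y, @inner ℝ E _ d y ≤ ‖y - (@inner ℝ E _ d y) • d‖ → A y = y := by
  have hq : ‖-d‖ = 1 := by rw [norm_neg, hd]
  obtain ⟨L, H1, K1, c, hc0, hc1, h1, i1, p1⟩ := linearize h hq
  obtain ⟨H2, K2, h2, i2, p2⟩ := push h1 hq hc0 hc1 p1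
  rw [neg_neg] at p2
  obtain ⟨H3, K3, h3, i3, p3⟩ := shrink h2 hd (c := (1 - c) / 4) (by linarith) (by linarith) p2
  obtain ⟨A, B, h4, i4, p4, p5⟩ := level h3 hd p3
  refine ⟨L, A, B, h4, ?_, p4, p5⟩
  have hL : ∀ {G G' : E → E}, ConeMap G G' → PosHom (fun x => L (G x)) := by
    intro G G' hG c hc x
    simp only
    rw [hG.homog c hc, map_smul]
  exact ((i1.trans (i2.comp_left L) (hL h1) (hL h2)).trans (i3.comp_left L) (hL h2)
    (hL h3)).trans (i4.comp_left L) (hL h3) (hL h4)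

end Vale.Agent.P073.SMV
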