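import Vale.Agent.P073.SMV.Tube

/-!
# Existence of thin profiles
-/

namespace Vale.Agent.P073.SMV

open Set Filter Topology Metric
open scoped ContDiff NNReal

variable {E : Type*} [NormedAddCommGroup E] [InnerProductSpace ℝ E] [FiniteDimensional ℝ E]

theorem exists_profile : ∃ M : ℝ, 0 < M ∧ ∀ (v d : E) (R : ℝ) (Ω : Set E) (m : E → ℝ),
    IsOpen Ω → ‖d‖ = 1 → 0 < R → (∀ t ∈ Ico 0 R, v + t • d ∈ Ω) → v + R • d ∉ Ω →
    ContinuousOn m Ω → (∀ x ∈ Ω, 0 < m x) →
    ∃ (ρ : ℝ → ℝ) (t0 : ℝ), Profile R t0 M ρ ∧ ∀ t ∈ Ioo 0 R, ρ t ≤ m (v + t • d) := by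
  obtain ⟨N, hN, hNb⟩ := exists_bound_deriv_smoothTransition
  refine ⟨2 + 4 * N, by positivity, ?_⟩
  intro v d R Ω m hΩ hd hR hseg hend hm hmpos
  have hv : v ∈ Ω := by simpa using hseg 0 ⟨le_rfl, hR⟩
  have hline : Continuous fun t : ℝ => v + t • d :=
    continuous_const.add (continuous_id.smul continuous_const)
  -- choice of `t0`
  obtain ⟨t0, ht0, ht0R, ht0m⟩ : ∃ t0 : ℝ, 0 < t0 ∧ t0 < R ∧
      ∀ t, 0 ≤ t → t ≤ t0 → t ≤ m (v + t • d) := by
    have h1 : ContinuousAt (fun t : ℝ => m (v + t • d)) 0 := by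
      have h2 : ContinuousAt m (v + (0 : ℝ) • d) := by
        rw [zero_smul, add_zero]; exact hm.continuousAt (hΩ.mem_nhds hv)
      exact ContinuousAt.comp (f := fun t : ℝ => v + t • d) (g := m) h2 hline.continuousAt
    have h3 : ∀ᶠ t : ℝ in 𝓝 0, t < m (v + t • d) := by
      have := continuousAt_id.eventually_lt h1 (by
        simp only [id_eq, zero_smul, add_zero]; exact hmpos v hv)
      exact this
    obtain ⟨δ, hδ, hb⟩ := Metric.eventually_nhds_iff_ball.1 h3
    refine ⟨min (δ / 2) (R / 2), by positivity, ?_, fun t ht ht' => ?_⟩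
    · exact lt_of_le_of_lt (min_le_right _ _) (by linarith)
    · apply le_of_lt
      apply hb
      rw [mem_ball, dist_zero_right, Real.norm_of_nonneg ht]
      have := ht'.trans (min_le_left _ _)
      linarith
  obtain ⟨θ, hθs, hθ, hθ0⟩ := exists_small_smooth hΩ (w := fun x => min (m x) (min t0 1))
    (hm.inf continuousOn_const) (fun x hx => lt_min (hmpos x hx) (lt_min ht0 one_pos))
  set χ : ℝ → ℝ := fun t => Real.smoothTransition (2 - 2 * t / t0) with hχ
  have hχs : ContDiff ℝ ∞ χ :=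
    Real.smoothTransition.contDiff.comp (contDiff_const.sub
      ((contDiff_const.mul contDiff_id).div_const _))
  have hχ0 : ∀ t, 0 ≤ χ t := fun t => Real.smoothTransition.nonneg _
  have hχ1 : ∀ t, χ t ≤ 1 := fun t => Real.smoothTransition.le_one _
  have hχone : ∀ t, t ≤ t0 / 2 → χ t = 1 := by
    intro t ht
    apply Real.smoothTransition.one_of_one_le
    have : 2 * t / t0 ≤ 1 := by rw [div_le_one ht0]; linarith
    linarith
  have hχzero : ∀ t, t0 ≤ t → χ t = 0 := by
    intro t ht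
    apply Real.smoothTransition.zero_of_nonpos
    have : 2 ≤ 2 * t / t0 := by rw [le_div_iff₀ ht0]; linarith
    linarith
  have hχd : ∀ t, HasDerivAt χ (deriv Real.smoothTransition (2 - 2 * t / t0) * (-(2 / t0))) t := by
    intro t
    have h1 : HasDerivAt (fun t : ℝ => 2 - 2 * t / t0) (-(2 / t0)) t := by
      have := (((hasDerivAt_id t).const_mul (2 : ℝ)).div_const t0).const_sub 2
      simpa using this
    exact (((Real.smoothTransition.contDiff (n := 1)).differentiable
      (by simp) _).hasDerivAt).comp t h1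
  have hχdb : ∀ t, |deriv χ t| ≤ 2 * N / t0 := by
    intro t
    rw [(hχd t).deriv, abs_mul, abs_neg, abs_of_pos (by positivity : 0 < 2 / t0)]
    calc _ ≤ N * (2 / t0) := by gcongr; exact hNb _
      _ = _ := by ring
  have hχd0 : ∀ t, t0 < t → deriv χ t = 0 := by
    intro t ht
    have : χ =ᶠ[𝓝 t] fun _ => 0 := by
      filter_upwards [lt_mem_nhds ht] with s hs
      exact hχzero s hs.le
    rw [this.deriv_eq, deriv_const]
  set ρ0 : ℝ → ℝ := fun t => χ t * t + (1 - χ t) * θ (v + t • d) with hρ0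
  have hlineS : ContDiff ℝ ∞ fun t : ℝ => v + t • d :=
    contDiff_const.add (contDiff_id.smul contDiff_const)
  have hρ0s : ContDiff ℝ ∞ ρ0 :=
    (hχs.mul contDiff_id).add ((contDiff_const.sub hχs).mul (hθs.comp hlineS))
  classical
  set ρ : ℝ → ℝ := (Ioo 0 R).piecewise ρ0 (fun _ => 0) with hρ
  have hρin : ∀ t ∈ Ioo 0 R, ρ t = ρ0 t := fun t ht => piecewise_eq_of_mem _ _ _ ht
  have hρout : ∀ t, t ∉ Ioo 0 R → ρ t = 0 := fun t ht => piecewise_eq_of_notMem _ _ _ ht
  have hρev : ∀ t ∈ Ioo 0 R, ρ =ᶠ[𝓝 t] ρ0 := by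
    intro t ht
    filter_upwards [isOpen_Ioo.mem_nhds ht] with s hs
    exact hρin s hs
  have hθt : ∀ t ∈ Ioo 0 R, 0 < θ (v + t • d) ∧ θ (v + t • d) ≤ m (v + t • d) ∧
      θ (v + t • d) ≤ t0 ∧ ‖fderiv ℝ θ (v + t • d)‖ ≤ 1 := by
    intro t ht
    obtain ⟨h1, h2, h3⟩ := hθ _ (hseg t ⟨ht.1.le, ht.2⟩)
    exact ⟨h1, h2.trans (min_le_left _ _), h2.trans ((min_le_right _ _).trans (min_le_left _ _)),
      h3.trans ((min_le_right _ _).trans (min_le_right _ _))⟩
  refine ⟨ρ, t0 / 2, ⟨by positivity, by linarith, ?_, hρout, ?_, ?_, ?_, ?_⟩, ?_⟩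
  · intro t ht
    rw [hρin t ht]
    obtain ⟨h1, -, -, -⟩ := hθt t ht
    simp only [hρ0]
    have h2 := hχ0 t
    have h3 := hχ1 t
    rcases eq_or_lt_of_le h2 with h4 | h4
    · rw [← h4]; linarith
    · have : 0 < χ t * t := mul_pos h4 ht.1
      have : 0 ≤ (1 - χ t) * θ (v + t • d) := mul_nonneg (by linarith) h1.le
      linarith
  · apply Continuous.piecewise _ hρ0s.continuous continuous_const
    intro a ha
    rw [frontier_Ioo hR] at ha
    rcases ha with rfl | ha
    · simp [hρ0, hχone 0 (by positivity)]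
    · rw [mem_singleton_iff] at ha
      subst ha
      simp only [hρ0]
      rw [hχzero _ ht0R.le, hθ0 _ hend]
      simp
  · intro t ht
    exact hρ0s.contDiffAt.congr_of_eventuallyEq (hρev t ht)
  · intro t ht
    rw [(hρev t ht).deriv_eq]
    obtain ⟨h1, -, h3, h4⟩ := hθt t ht
    have f1 : HasDerivAt (fun s : ℝ => θ (v + s • d)) (fderiv ℝ θ (v + t • d) d) t := by
      have e1 : HasFDerivAt θ (fderiv ℝ θ (v + t • d)) (v + t • d) :=
        (hθs.differentiable (by simp) _).hasFDerivAt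
      have e2 : HasDerivAt (fun s : ℝ => v + s • d) d t := by
        simpa using ((hasDerivAt_id t).smul_const d).const_add v
      exact e1.comp_hasDerivAt t e2
    have f2 : HasDerivAt χ (deriv χ t) t := (hχs.differentiable (by simp) t).hasDerivAt
    have f3 : HasDerivAt ρ0 ((deriv χ t * t + χ t * 1) +
        ((0 - deriv χ t) * θ (v + t • d) + (1 - χ t) * fderiv ℝ θ (v + t • d) d)) t :=
      (f2.mul (hasDerivAt_id t)).add (((hasDerivAt_const t (1 : ℝ)).sub f2).mul f1)
    rw [f3.deriv]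
    have g1 : |fderiv ℝ θ (v + t • d) d| ≤ 1 := by
      have := ContinuousLinearMap.le_opNorm (fderiv ℝ θ (v + t • d)) d
      rw [hd, mul_one] at this
      exact this.trans h4
    have g2 : |deriv χ t * t| ≤ 2 * N := by
      rcases le_or_gt t t0 with ht' | ht'
      · rw [abs_mul, abs_of_pos ht.1]
        calc |deriv χ t| * t ≤ 2 * N / t0 * t0 := by
              gcongr
              · exact ht.1.le
              · exact hχdb t
          _ = 2 * N := by field_simp
      · rw [hχd0 t ht', zero_mul, abs_zero]; positivity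
    have g3 : |(0 - deriv χ t) * θ (v + t • d)| ≤ 2 * N := by
      rw [zero_sub, neg_mul, abs_neg, abs_mul, abs_of_pos h1]
      calc |deriv χ t| * θ (v + t • d) ≤ 2 * N / t0 * t0 := by
            gcongr
            exact hχdb t
        _ = 2 * N := by field_simp
    have g4 : |χ t * 1| ≤ 1 := by
      rw [mul_one, abs_of_nonneg (hχ0 t)]; exact hχ1 t
    have g5 : |(1 - χ t) * fderiv ℝ θ (v + t • d) d| ≤ 1 := by
      rw [abs_mul]
      have : |1 - χ t| ≤ 1 := abs_le.2 ⟨by linarith [hχ1 t], by linarith [hχ0 t]⟩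
      calc |1 - χ t| * |fderiv ℝ θ (v + t • d) d| ≤ 1 * 1 := by gcongr
        _ = 1 := by norm_num
    calc _ ≤ (|deriv χ t * t| + |χ t * 1|) + (|(0 - deriv χ t) * θ (v + t • d)| +
          |(1 - χ t) * fderiv ℝ θ (v + t • d) d|) :=
          (abs_add_le _ _).trans (add_le_add (abs_add_le _ _) (abs_add_le _ _))
      _ ≤ (2 * N + 1) + (2 * N + 1) := by gcongr
      _ = 2 + 4 * N := by ring
  · intro t h0 ht
    rcases eq_or_lt_of_le h0 with h1 | h1
    · rw [← h1]
      exact hρout 0 (fun h => lt_irrefl _ h.1)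
    · rw [hρin t ⟨h1, by linarith⟩]
      simp only [hρ0]
      rw [hχone t ht]
      ring
  · intro t ht
    rw [hρin t ht]
    obtain ⟨h1, h2, -, -⟩ := hθt t ht
    simp only [hρ0]
    rcases le_or_gt t t0 with ht' | ht'
    · have h5 := ht0m t ht.1.le ht'
      have h6 : χ t * t ≤ χ t * m (v + t • d) := by gcongr; exact hχ0 t
      have h7 : (1 - χ t) * θ (v + t • d) ≤ (1 - χ t) * m (v + t • d) := by
        have : 0 ≤ 1 - χ t := by linarith [hχ1 t]
        gcongr
      calc _ ≤ χ t * m (v + t • d) + (1 - χ t) * m (v + t • d) := add_le_add h6 h7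
        _ = _ := by ring
    · rw [hχzero t ht'.le]
      simpa using h2

end Vale.Agent.P073.SMV
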