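import Vale.Agent.P073.SMV.Spec

/-!
# P073, block SMV (helper489): disjoint segments from given points to the boundary
-/

namespace Vale.Agent.P073.SMV

open Set Filter Topology Metric MeasureTheory
open scoped ContDiff ENNReal

namespace Seg

/-! ### Lines -/

/-- the line through `x` with direction `d` -/
def Ln (x d : R3) : Set R3 := {y | ∃ t : ℝ, y = x + t • d}

theorem Ln_eq (x d : R3) : Ln x d = (fun y => y - x) ⁻¹' (Submodule.span ℝ {d} : Set R3) := by
  ext y
  simp only [Ln, mem_ofPred_eq, mem_preimage, SetLike.mem_coe, Submodule.mem_span_singleton]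
  constructor
  · rintro ⟨t, rfl⟩
    exact ⟨t, by simp⟩
  · rintro ⟨t, ht⟩
    exact ⟨t, by rw [ht]; simp⟩

theorem isClosed_Ln (x d : R3) : IsClosed (Ln x d) := by
  rw [Ln_eq]
  exact (Submodule.closed_of_finiteDimensional (Submodule.span ℝ {d})).preimage (by fun_prop)

theorem volume_Ln (x d : R3) : volume (Ln x d) = 0 := by
  rw [Ln_eq]
  have h1 : volume ((Submodule.span ℝ {d} : Submodule ℝ R3) : Set R3) = 0 := by
    refine Measure.addHaar_submodule _ _ ?_
    intro h
    have h2 : Module.finrank ℝ (Submodule.span ℝ {d} : Submodule ℝ R3) ≤ 1 :=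
      (finrank_span_le_card (R := ℝ) ({d} : Set R3)).trans (by simp)
    rw [h, finrank_top, finrank_euclideanSpace, Fintype.card_fin] at h2
    omega
  have h2 : (fun y : R3 => y - x) = fun y => y + (-x) := by
    funext y
    rw [sub_eq_add_neg]
  rw [h2, measure_preimage_add_right, h1]

theorem Ln_eq_of_two {x d p q : R3} (hp : p ∈ Ln x d) (hq : q ∈ Ln x d) (hpq : p ≠ q) :
    Ln x d = Ln p (q - p) := by
  obtain ⟨s, rfl⟩ := hp
  obtain ⟨t, rfl⟩ := hq
  have hst : t - s ≠ 0 := by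
    intro h
    rw [sub_eq_zero] at h
    exact hpq (by rw [h])
  ext y
  constructor
  · rintro ⟨u, rfl⟩
    refine ⟨(u - s) / (t - s), ?_⟩
    have : x + t • d - (x + s • d) = (t - s) • d := by module
    rw [this, smul_smul, div_mul_cancel₀ _ hst]
    module
  · rintro ⟨u, rfl⟩
    refine ⟨s + u * (t - s), ?_⟩
    module

/-- the type of lines -/
abbrev LN : Type := {ℓ : Set R3 // ∃ x d, ℓ = Ln x d}

theorem LN.subsingleton_inter {ℓ ℓ' : LN} (h : ℓ ≠ ℓ') : (ℓ.1 ∩ ℓ'.1).Subsingleton := by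
  obtain ⟨ℓ, x, d, rfl⟩ := ℓ
  obtain ⟨ℓ', x', d', rfl⟩ := ℓ'
  rintro p ⟨hp, hp'⟩ q ⟨hq, hq'⟩
  by_contra hpq
  refine h (Subtype.ext ?_)
  change Ln x d = Ln x' d'
  rw [Ln_eq_of_two hp hq hpq, ← Ln_eq_of_two hp' hq' hpq]

theorem countable_bad {Ω K : Set R3} {μ : Measure R3} (hμ : AdmMeas Ω μ) (hK : IsCompact K)
    (hKΩ : K ⊆ Ω) : {ℓ : LN | 0 < μ (ℓ.1 ∩ K)}.Countable := by
  have : IsFiniteMeasure (μ.restrict K) := ⟨by
    rw [Measure.restrict_apply_univ]; exact hμ.fin K hKΩ hK⟩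
  have hm : ∀ ℓ : LN, MeasurableSet ℓ.1 := by
    rintro ⟨ℓ, x, d, rfl⟩
    exact (isClosed_Ln x d).measurableSet
  have h1 := Measure.countable_meas_pos_of_disjoint_iUnion₀ (μ := μ.restrict K)
    (As := fun ℓ : LN => ℓ.1) (fun ℓ => (hm ℓ).nullMeasurableSet) (by
      intro ℓ ℓ' hne
      change (μ.restrict K) (ℓ.1 ∩ ℓ'.1) = 0
      rw [Measure.restrict_apply ((hm ℓ).inter (hm ℓ'))]
      rcases (LN.subsingleton_inter hne).eq_empty_or_singleton with h | ⟨a, h⟩
      · rw [h, empty_inter, measure_empty]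
      · rw [h]
        by_cases ha : a ∈ K
        · exact measure_mono_null inter_subset_left (hμ.noAtoms a (hKΩ ha))
        · have : {a} ∩ K = ∅ := by
            rw [eq_empty_iff_forall_notMem]
            rintro y ⟨rfl, hy⟩
            exact ha hy
          rw [this, measure_empty])
  refine h1.mono ?_
  intro ℓ hℓ
  simp only [mem_ofPred_eq] at hℓ ⊢
  rwa [Measure.restrict_apply (hm ℓ)]

/-! ### Nearest points -/

section nearest

variable {Ω : Set R3} (np : R3 → R3) (hnp : ∀ x, np x ∈ Ωᶜ ∧ infDist x Ωᶜ = dist x (np x))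

/-- direction to the nearest point -/
noncomputable def dir (Ω : Set R3) (np : R3 → R3) (x : R3) : R3 :=
  (infDist x Ωᶜ)⁻¹ • (np x - x)

theorem add_dir {x : R3} (h0 : 0 < infDist x Ωᶜ) : x + infDist x Ωᶜ • dir Ω np x = np x := by
  rw [dir, smul_smul, mul_inv_cancel₀ h0.ne', one_smul]
  abel

include hnp in
theorem norm_dir {x : R3} (h0 : 0 < infDist x Ωᶜ) : ‖dir Ω np x‖ = 1 := by
  rw [dir, norm_smul, norm_inv, Real.norm_of_nonneg h0.le, ← dist_eq_norm, dist_comm,
    ← (hnp x).2, inv_mul_cancel₀ h0.ne']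

include hnp in
theorem infDist_add {x : R3} (h0 : 0 < infDist x Ωᶜ) {t : ℝ} (ht : t ∈ Ico 0 (infDist x Ωᶜ)) :
    infDist (x + t • dir Ω np x) Ωᶜ = infDist x Ωᶜ - t := by
  have hd := norm_dir np hnp h0
  apply le_antisymm
  · refine (infDist_le_dist_of_mem (hnp x).1).trans (le_of_eq ?_)
    rw [← add_dir np h0, dist_eq_norm]
    have : x + t • dir Ω np x - (x + infDist x Ωᶜ • dir Ω np x) =
        -((infDist x Ωᶜ - t) • dir Ω np x) := by module
    rw [this, norm_neg, norm_smul, hd, mul_one, Real.norm_of_nonneg (by linarith [ht.2])]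
  · have h1 : infDist x Ωᶜ ≤ infDist (x + t • dir Ω np x) Ωᶜ + dist x (x + t • dir Ω np x) :=
      infDist_le_infDist_add_dist
    have h2 : dist x (x + t • dir Ω np x) = t := by
      rw [dist_eq_norm, sub_add_cancel_left, norm_neg, norm_smul, hd, mul_one,
        Real.norm_of_nonneg ht.1]
    linarith

include hnp in
theorem unique_np {x : R3} (h0 : 0 < infDist x Ωᶜ) {t : ℝ} (ht : t ∈ Ioo 0 (infDist x Ωᶜ))
    {w : R3} (hw : w ∈ Ωᶜ) (hwd : dist (x + t • dir Ω np x) w = infDist x Ωᶜ - t) :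
    w = np x := by
  have hd := norm_dir np hnp h0
  have h2 : dist x (x + t • dir Ω np x) = t := by
    rw [dist_eq_norm, sub_add_cancel_left, norm_neg, norm_smul, hd, mul_one,
      Real.norm_of_nonneg ht.1.le]
  have h3 : infDist x Ωᶜ ≤ dist x w := infDist_le_dist_of_mem hw
  have h4 : dist x w ≤ dist x (x + t • dir Ω np x) + dist (x + t • dir Ω np x) w :=
    dist_triangle _ _ _
  have h5 : dist x (x + t • dir Ω np x) + dist (x + t • dir Ω np x) w = dist x w := by
    apply le_antisymm _ h4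
    rw [h2, hwd]
    linarith
  rw [dist_add_dist_eq_iff] at h5
  obtain ⟨l, ⟨hl0, hl1⟩, hl⟩ := h5
  rw [AffineMap.lineMap_apply, vsub_eq_sub, vadd_eq_add, add_comm] at hl
  have h6 : l • (w - x) = t • dir Ω np x := add_left_cancel hl
  have h7 : dist x w = infDist x Ωᶜ := by
    apply le_antisymm _ h3
    rw [h2, hwd] at h4
    linarith
  have h8 : l * infDist x Ωᶜ = t := by
    have := congrArg norm h6
    rw [norm_smul, norm_smul, hd, mul_one, ← dist_eq_norm, dist_comm, h7,
      Real.norm_of_nonneg hl0, Real.norm_of_nonneg ht.1.le] at this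
    exact this
  have hl' : l ≠ 0 := by
    rintro rfl
    rw [zero_mul] at h8
    exact ht.1.ne h8
  have h9 : w - x = infDist x Ωᶜ • dir Ω np x := by
    have := congrArg (fun y => l⁻¹ • y) h6
    simp only [smul_smul] at this
    rw [inv_mul_cancel₀ hl', one_smul, ← h8, ← mul_assoc, inv_mul_cancel₀ hl', one_mul] at this
    exact this
  rw [← add_dir np h0, ← h9]
  abel

include hnp in
theorem mem_Ln {x x' : R3} (h0 : 0 < infDist x Ωᶜ) (h0' : 0 < infDist x' Ωᶜ) {s t : ℝ}
    (hs : s ∈ Ico 0 (infDist x Ωᶜ)) (ht : t ∈ Ico 0 (infDist x' Ωᶜ))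
    (he : x + s • dir Ω np x = x' + t • dir Ω np x') : x' ∈ Ln x (dir Ω np x) := by
  rcases eq_or_lt_of_le ht.1 with ht0 | ht0
  · refine ⟨s, ?_⟩
    rw [he, ← ht0, zero_smul, add_zero]
  · have e1 := infDist_add np hnp h0 hs
    have e2 := infDist_add np hnp h0' ht
    rw [he, e2] at e1
    have e3 : dist (x' + t • dir Ω np x') (np x) = infDist x' Ωᶜ - t := by
      rw [e1, ← he, ← add_dir np h0, dist_eq_norm]
      have : x + s • dir Ω np x - (x + infDist x Ωᶜ • dir Ω np x) =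
          -((infDist x Ωᶜ - s) • dir Ω np x) := by module
      rw [this, norm_neg, norm_smul, norm_dir np hnp h0, mul_one,
        Real.norm_of_nonneg (by linarith [hs.2])]
    have e4 := unique_np np hnp h0' ⟨ht0, ht.2⟩ (hnp x).1 e3
    have e5 : (infDist x Ωᶜ - s) • dir Ω np x = (infDist x Ωᶜ - s) • dir Ω np x' := by
      have f1 := add_dir np h0
      have f2 := add_dir np h0'
      rw [e4] at f1
      have f3 : x + infDist x Ωᶜ • dir Ω np x - (x + s • dir Ω np x) =
          x' + infDist x' Ωᶜ • dir Ω np x' - (x' + t • dir Ω np x') := by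
        rw [f1, f2, he]
      have f4 : x + infDist x Ωᶜ • dir Ω np x - (x + s • dir Ω np x) =
          (infDist x Ωᶜ - s) • dir Ω np x := by module
      have f5 : x' + infDist x' Ωᶜ • dir Ω np x' - (x' + t • dir Ω np x') =
          (infDist x' Ωᶜ - t) • dir Ω np x' := by module
      rw [f4, f5, e1] at f3
      exact f3
    have e6 : dir Ω np x = dir Ω np x' := by
      have hne : infDist x Ωᶜ - s ≠ 0 := by linarith [hs.2] |> fun h : 0 < infDist x Ωᶜ - s => h.ne'
      exact smul_right_injective R3 hne e5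
    refine ⟨s - t, ?_⟩
    rw [← e6] at he
    have : x' = x + s • dir Ω np x - t • dir Ω np x := by rw [he]; abel
    rw [this]
    module

end nearest

/-! ### Sequences -/

section seq

variable {α : Type*}

/-- the list of the first choices -/
def pref (ch : ℕ → List α → α) : ℕ → List α
  | 0 => []
  | n + 1 => ch n (pref ch n) :: pref ch n

theorem mem_pref (ch : ℕ → List α → α) {m n : ℕ} (h : m < n) : ch m (pref ch m) ∈ pref ch n := by
  induction n with
  | zero => omega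
  | succ n ih =>
    rcases Nat.lt_succ_iff_lt_or_eq.1 h with h | rfl
    · exact List.mem_cons_of_mem _ (ih h)
    · exact List.mem_cons_self

theorem exists_seq {P : ℕ → α → Prop} {r : α → α → Prop}
    (h : ∀ n, ∀ l : List α, ∃ y, P n y ∧ ∀ x ∈ l, r x y) :
    ∃ f : ℕ → α, (∀ n, P n (f n)) ∧ ∀ m n, m < n → r (f m) (f n) := by
  choose ch h1 h2 using h
  exact ⟨fun n => ch n (pref ch n), fun n => h1 n _, fun m n hmn => h2 n _ _ (mem_pref ch hmn)⟩

end seq

end Seg

open Seg in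
/-- **(Seg)** -/
theorem specSeg : SpecSeg := by
  classical
  intro Ω μ hΩ hb hμ ι hι v r hv hr hball hloc
  obtain ⟨e, he⟩ := Countable.exists_injective_nat ι
  have hne : (Ωᶜ).Nonempty := by
    by_contra hc
    rw [not_nonempty_iff_eq_empty, compl_empty_iff] at hc
    rw [hc] at hb
    exact NormedSpace.unbounded_univ ℝ R3 hb
  have hpos : ∀ x, x ∈ Ω ↔ 0 < infDist x Ωᶜ := by
    intro x
    rw [← hΩ.isClosed_compl.notMem_iff_infDist_pos hne, notMem_compl_iff]
  choose np hnp using fun x => hΩ.isClosed_compl.exists_infDist_eq_dist hne x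
  -- compact exhaustion
  set K : ℕ → Set R3 := fun n => {x | 1 ≤ n * infDist x Ωᶜ} with hK
  have hKc : ∀ n, IsClosed (K n) := fun n =>
    isClosed_le continuous_const (continuous_const.mul (continuous_infDist_pt _))
  have hKs : ∀ n, K n ⊆ Ω := by
    intro n x hx
    rw [hpos]
    by_contra hc
    have h1 : infDist x Ωᶜ = 0 := le_antisymm (not_lt.1 hc) infDist_nonneg
    have hx' : 1 ≤ (n:ℝ) * infDist x Ωᶜ := hx
    rw [h1, mul_zero] at hx'
    linarith
  have hKK : ∀ n, IsCompact (K n) := fun n =>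
    isCompact_of_isClosed_isBounded (hKc n) (hb.subset (hKs n))
  have hKu : Ω ⊆ ⋃ n, K n := by
    intro x hx
    have h0 := (hpos x).1 hx
    refine mem_iUnion.2 ⟨⌈(infDist x Ωᶜ)⁻¹⌉₊, ?_⟩
    have h1 : (infDist x Ωᶜ)⁻¹ ≤ (⌈(infDist x Ωᶜ)⁻¹⌉₊ : ℝ) := Nat.le_ceil _
    have h2 := mul_le_mul_of_nonneg_right h1 h0.le
    rw [inv_mul_cancel₀ h0.ne'] at h2
    exact h2
  -- the bad lines
  set bad : Set LN := ⋃ n, {ℓ : LN | 0 < μ (ℓ.1 ∩ K n)} with hbad
  have hbadc : bad.Countable := countable_iUnion fun n => countable_bad hμ (hKK n) (hKs n)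
  have hbad0 : volume (⋃ ℓ ∈ bad, ℓ.1) = 0 := by
    refine (measure_biUnion_null_iff hbadc).2 ?_
    rintro ⟨ℓ, x, d, rfl⟩ _
    exact volume_Ln x d
  -- choice of the points
  obtain ⟨f, hf1, hf2⟩ := exists_seq (α := R3)
    (P := fun n y => (∀ i, e i = n → ‖y - v i‖ < r i) ∧ ∀ ℓ ∈ bad, y ∉ ℓ.1)
    (r := fun x y => y ∉ Ln x (dir Ω np x)) (by
      intro n l
      have h1 : volume ((⋃ ℓ ∈ bad, ℓ.1) ∪ ⋃ x ∈ {x | x ∈ l}, Ln x (dir Ω np x)) = 0 := by
        refine measure_union_null hbad0 ?_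
        refine (measure_biUnion_null_iff (List.finite_toSet l).countable).2 ?_
        intro x _
        exact volume_Ln _ _
      obtain ⟨U, hU, hU0, hUi⟩ : ∃ U : Set R3, IsOpen U ∧ U.Nonempty ∧
          ∀ y ∈ U, ∀ i, e i = n → ‖y - v i‖ < r i := by
        by_cases hex : ∃ i, e i = n
        · obtain ⟨i, hi⟩ := hex
          refine ⟨ball (v i) (r i), isOpen_ball, ⟨v i, mem_ball_self (hr i)⟩, ?_⟩
          intro y hy j hj
          have : j = i := he (hj.trans hi.symm)
          subst this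
          rwa [mem_ball, dist_eq_norm] at hy
        · exact ⟨univ, isOpen_univ, ⟨0, mem_univ _⟩, fun y _ i hi => absurd ⟨i, hi⟩ hex⟩
      have h2 : 0 < volume (U \ ((⋃ ℓ ∈ bad, ℓ.1) ∪ ⋃ x ∈ {x | x ∈ l}, Ln x (dir Ω np x))) := by
        rw [measure_sdiff_null h1]
        exact hU.measure_pos volume hU0
      obtain ⟨y, hyU, hy⟩ := nonempty_of_measure_ne_zero h2.ne'
      refine ⟨y, ⟨hUi y hyU, fun ℓ hℓ hyl => hy (Or.inl (mem_biUnion hℓ hyl))⟩, ?_⟩
      intro x hx hyx
      exact hy (Or.inr (mem_biUnion (show x ∈ {x | x ∈ l} from hx) hyx)))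
  set x : ι → R3 := fun i => f (e i) with hx
  have hxv : ∀ i, ‖x i - v i‖ < r i := fun i => (hf1 (e i)).1 i rfl
  have hxΩ : ∀ i, x i ∈ Ω := fun i => hball i (by
    rw [mem_closedBall, dist_eq_norm]
    linarith [hxv i, hr i])
  have hR : ∀ i, 0 < infDist (x i) Ωᶜ := fun i => (hpos _).1 (hxΩ i)
  have hin : ∀ i, ∀ t ∈ Ico 0 (infDist (x i) Ωᶜ), x i + t • dir Ω np (x i) ∈ Ω := by
    intro i t ht
    rw [hpos, infDist_add np hnp (hR i) ht]
    linarith [ht.2]
  refine ⟨x, fun i => dir Ω np (x i), fun i => infDist (x i) Ωᶜ, hxv, ?_, ?_, ?_, ?_⟩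
  · intro i
    refine ⟨hR i, norm_dir np hnp (hR i), hin i, ?_⟩
    rw [add_dir np (hR i)]
    exact (hnp _).1
  · intro i j hij s hs t ht hst
    rcases lt_or_gt_of_ne (fun h => hij (he h) : e i ≠ e j) with h | h
    · exact hf2 _ _ h (mem_Ln np hnp (hR i) (hR j) hs ht hst)
    · exact hf2 _ _ h (mem_Ln np hnp (hR j) (hR i) ht hs hst.symm)
  · intro C hC hCc
    rcases C.eq_empty_or_nonempty with hCe | hCe
    · refine (Set.finite_empty).subset ?_
      rintro i ⟨t, -, ht⟩
      rw [hCe] at ht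
      exact ht
    obtain ⟨c, hcC, hc⟩ := hCc.exists_isMinOn hCe
      (continuous_infDist_pt (Ωᶜ)).continuousOn
    set δ := infDist c Ωᶜ with hδ
    have hδ0 : 0 < δ := (hpos c).1 (hC hcC)
    set C' : Set R3 := {z | δ / 2 ≤ infDist z Ωᶜ} with hC'
    have hC's : C' ⊆ Ω := by
      intro z hz
      rw [hpos]
      exact lt_of_lt_of_le (half_pos hδ0) hz
    have hC'c : IsCompact C' := isCompact_of_isClosed_isBounded
      (isClosed_le continuous_const (continuous_infDist_pt _)) (hb.subset hC's)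
    refine (hloc C' hC's hC'c).subset ?_
    rintro i ⟨t, ht, hti⟩
    have h1 : δ ≤ infDist (x i) Ωᶜ - t := by
      rw [← infDist_add np hnp (hR i) ht]
      exact hc hti
    have h2 : infDist (x i) Ωᶜ ≤ infDist (v i) Ωᶜ + dist (x i) (v i) :=
      infDist_le_infDist_add_dist
    have h3 : 2 * r i ≤ infDist (v i) Ωᶜ := by
      rw [le_infDist hne]
      intro y hy
      by_contra hcon
      refine hy (hball i ?_)
      rw [mem_closedBall, dist_comm]
      exact (not_le.1 hcon).le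
    have h4 := hxv i
    rw [← dist_eq_norm] at h4
    change δ / 2 ≤ infDist (v i) Ωᶜ
    linarith [ht.1]
  · intro i
    have h1 : ∀ n, μ (Ln (x i) (dir Ω np (x i)) ∩ K n) = 0 := by
      intro n
      by_contra hc
      have h2 : (⟨Ln (x i) (dir Ω np (x i)), _, _, rfl⟩ : LN) ∈ bad :=
        mem_iUnion.2 ⟨n, pos_iff_ne_zero.2 hc⟩
      exact (hf1 (e i)).2 _ h2 ⟨0, by simp [hx]⟩
    refine measure_mono_null ?_ (measure_iUnion_null h1)
    rintro _ ⟨t, ht, rfl⟩
    obtain ⟨n, hn⟩ := mem_iUnion.1 (hKu (hin i t ht))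
    exact mem_iUnion.2 ⟨n, ⟨t, rfl⟩, hn⟩

end Vale.Agent.P073.SMV
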