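import Vale.Agent.P073.SMV.Loc
import Vale.Agent.P073.SMV.PathA

/-!
# Moving the vertices of a map of class one to prescribed nearby positions
-/

namespace Vale.Agent.P073.SMV

open Set Filter Topology Metric MeasureTheory
open scoped ContDiff ENNReal NNReal

section general

variable {E : Type*} [NormedAddCommGroup E] [NormedSpace ℝ E]

/-- `x ↦ x - φ (ρ⁻¹ (x - v)) c`. -/
noncomputable def shiftMap (φ : E → ℝ) (v c : E) (ρ : ℝ) (x : E) : E :=
  x - φ (ρ⁻¹ • (x - v)) • c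

variable {φ : E → ℝ} {N : ℝ} {v c : E} {ρ : ℝ}

/-- The hypotheses on the bump. -/
structure BumpData (φ : E → ℝ) (N : ℝ) : Prop where
  one_le : 1 ≤ N
  smooth : ContDiff ℝ ∞ φ
  nonneg : ∀ x, 0 ≤ φ x
  le_one : ∀ x, φ x ≤ 1
  one : ∀ x, ‖x‖ ≤ 1 / 2 → φ x = 1
  zero : ∀ x, 1 ≤ ‖x‖ → φ x = 0
  deriv_le : ∀ x, ‖fderiv ℝ φ x‖ ≤ N

theorem shiftMap_of_le (hφ : BumpData φ N) (hρ : 0 < ρ) {x : E} (hx : ρ ≤ ‖x - v‖) :
    shiftMap φ v c ρ x = x := by
  unfold shiftMap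
  rw [hφ.zero, zero_smul, sub_zero]
  rw [norm_smul, norm_inv, Real.norm_of_nonneg hρ.le, inv_mul_eq_div, le_div_iff₀ hρ, one_mul]
  exact hx

theorem shiftMap_near (hφ : BumpData φ N) (hρ : 0 < ρ) (hc : ‖c‖ ≤ ρ / 4) {z : E}
    (hz : ‖z‖ ≤ ρ / 4) : shiftMap φ v c ρ (v + c + z) = v + z := by
  unfold shiftMap
  rw [hφ.one, one_smul]
  · abel
  · rw [norm_smul, norm_inv, Real.norm_of_nonneg hρ.le, inv_mul_eq_div, div_le_iff₀ hρ]
    have : v + c + z - v = c + z := by abel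
    rw [this]
    refine (norm_add_le _ _).trans ?_
    linarith

theorem norm_shiftMap_sub_le (hφ : BumpData φ N) (x : E) :
    ‖shiftMap φ v c ρ x - x‖ ≤ ‖c‖ := by
  unfold shiftMap
  rw [sub_sub_cancel_left, norm_neg, norm_smul, Real.norm_of_nonneg (hφ.nonneg _)]
  exact mul_le_of_le_one_left (norm_nonneg _) (hφ.le_one _)

theorem contDiff_shiftMap (hφ : BumpData φ N) : ContDiff ℝ ∞ (shiftMap φ v c ρ) := by
  unfold shiftMap
  exact contDiff_id.sub ((hφ.smooth.comp (contDiff_const_smul _ |>.comp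
    (contDiff_id.sub contDiff_const))).smul contDiff_const)

/-- The perturbation is Lipschitz with constant one quarter. -/
theorem shift_pert (hφ : BumpData φ N) (hρ : 0 < ρ) (hc : ‖c‖ ≤ ρ / (4 * N)) (x : E) :
    DifferentiableAt ℝ (fun x => φ (ρ⁻¹ • (x - v)) • c) x ∧
      ‖fderiv ℝ (fun x => φ (ρ⁻¹ • (x - v)) • c) x‖ ≤ 1 / 4 := by
  have hN : 0 < N := lt_of_lt_of_le one_pos hφ.one_le
  have h1 : HasFDerivAt (fun x : E => ρ⁻¹ • (x - v)) (ρ⁻¹ • ContinuousLinearMap.id ℝ E) x :=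
    ((hasFDerivAt_id x).sub_const v).const_smul ρ⁻¹
  have h2 : HasFDerivAt φ (fderiv ℝ φ (ρ⁻¹ • (x - v))) (ρ⁻¹ • (x - v)) :=
    (hφ.smooth.differentiable (by simp) _).hasFDerivAt
  have h3 := (h2.comp x h1).smul_const c
  have h4 : HasFDerivAt (fun x => φ (ρ⁻¹ • (x - v)) • c) _ x := h3
  refine ⟨h4.differentiableAt, ?_⟩
  rw [h4.fderiv]
  refine ContinuousLinearMap.opNorm_le_bound _ (by norm_num) fun w => ?_
  simp only [ContinuousLinearMap.smulRight_apply, ContinuousLinearMap.comp_apply, smul_apply,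
    ContinuousLinearMap.id_apply]
  rw [norm_smul]
  have h5 : ‖fderiv ℝ φ (ρ⁻¹ • (x - v)) (ρ⁻¹ • w)‖ ≤ N * (ρ⁻¹ * ‖w‖) := by
    refine (ContinuousLinearMap.le_opNorm _ _).trans ?_
    rw [norm_smul, norm_inv, Real.norm_of_nonneg hρ.le]
    gcongr
    exact hφ.deriv_le _
  calc _ ≤ N * (ρ⁻¹ * ‖w‖) * (ρ / (4 * N)) := by gcongr
    _ = 1 / 4 * ‖w‖ := by field_simp

theorem fderiv_shiftMap (hφ : BumpData φ N) (hρ : 0 < ρ) (hc : ‖c‖ ≤ ρ / (4 * N)) (x w : E) :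
    ‖fderiv ℝ (shiftMap φ v c ρ) x w - w‖ ≤ 1 / 4 * ‖w‖ := by
  obtain ⟨h1, h2⟩ := shift_pert (v := v) hφ hρ hc x
  have h3 : HasFDerivAt (shiftMap φ v c ρ)
      (ContinuousLinearMap.id ℝ E - fderiv ℝ (fun x => φ (ρ⁻¹ • (x - v)) • c) x) x :=
    (hasFDerivAt_id x).sub h1.hasFDerivAt
  rw [h3.fderiv]
  simp only [sub_apply, ContinuousLinearMap.id_apply]
  rw [sub_sub_cancel_left, norm_neg]
  exact (ContinuousLinearMap.le_opNorm _ _).trans (by gcongr)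

theorem regAt_shiftMap (hφ : BumpData φ N) (hρ : 0 < ρ) (hc : ‖c‖ ≤ ρ / (4 * N)) (x : E) :
    RegAt (shiftMap φ v c ρ) x := by
  refine ⟨(contDiff_shiftMap hφ).contDiffAt, ?_⟩
  rw [injective_iff_map_eq_zero]
  intro w hw
  have := fderiv_shiftMap (v := v) hφ hρ hc x w
  rw [hw, zero_sub, norm_neg] at this
  have h0 : ‖w‖ = 0 := by nlinarith [norm_nonneg w]
  exact norm_eq_zero.1 h0

theorem norm_fderiv_shiftMap_le (hφ : BumpData φ N) (hρ : 0 < ρ) (hc : ‖c‖ ≤ ρ / (4 * N)) (x : E) :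
    ‖fderiv ℝ (shiftMap φ v c ρ) x‖ ≤ 2 := by
  refine ContinuousLinearMap.opNorm_le_bound _ (by norm_num) fun w => ?_
  have h1 := fderiv_shiftMap (v := v) hφ hρ hc x w
  have h2 : fderiv ℝ (shiftMap φ v c ρ) x w = (fderiv ℝ (shiftMap φ v c ρ) x w - w) + w := by abel
  rw [h2]
  refine (norm_add_le _ _).trans ?_
  nlinarith [norm_nonneg w]

theorem injective_shiftMap (hφ : BumpData φ N) (hρ : 0 < ρ) (hc : ‖c‖ ≤ ρ / (4 * N)) :
    Function.Injective (shiftMap φ v c ρ) := by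
  have hL : LipschitzWith (1 / 4) (fun x => φ (ρ⁻¹ • (x - v)) • c) := by
    apply lipschitzWith_of_nnnorm_fderiv_le (𝕜 := ℝ)
    · intro x; exact (shift_pert (v := v) hφ hρ hc x).1
    · intro x
      have := (shift_pert (v := v) hφ hρ hc x).2
      rw [← NNReal.coe_le_coe, coe_nnnorm]
      push_cast
      exact this
  intro x y hxy
  unfold shiftMap at hxy
  have h1 : x - y = φ (ρ⁻¹ • (x - v)) • c - φ (ρ⁻¹ • (y - v)) • c := by
    rw [sub_eq_sub_iff_sub_eq_sub] at hxy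
    exact hxy
  have h2 := hL.dist_le_mul x y
  rw [dist_eq_norm, dist_eq_norm, ← h1] at h2
  push_cast at h2
  have h3 : ‖x - y‖ = 0 := by nlinarith [norm_nonneg (x - y)]
  exact sub_eq_zero.1 (norm_eq_zero.1 h3)

end general

end Vale.Agent.P073.SMV
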