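import Vale.Agent.P073.SMV.Vtx

/-!
# The shift step
-/

namespace Vale.Agent.P073.SMV

open Set Filter Topology Metric MeasureTheory
open scoped ContDiff ENNReal NNReal

/-- Closeness of two maps on `Ω`. -/
structure Close (Ω : Set R3) (μ : Measure R3) (p : ℝ) (ε : R3 → ℝ) (η : ℝ≥0∞)
    (g h : R3 → R3) : Prop where
  dist : ∀ x ∈ Ω, ‖g x - h x‖ ≤ ε x
  energy : ∫⁻ x in Ω, ENNReal.ofReal (‖fderiv ℝ g x - fderiv ℝ h x‖ ^ p) ∂μ ≤ η

theorem HomeoOn.comp {E : Type*} [NormedAddCommGroup E] {Ω Λ Ξ : Set E} {f f' g g' : E → E}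
    (hg : HomeoOn Λ Ξ g g') (hf : HomeoOn Ω Λ f f') :
    HomeoOn Ω Ξ (fun x => g (f x)) (fun y => f' (g' y)) := by
  refine ⟨fun x hx => hg.maps (hf.maps hx), fun y hy => hf.maps' (hg.maps' hy), fun x hx => ?_,
    fun y hy => ?_, hg.cont.comp hf.cont hf.maps, hf.cont'.comp hg.cont' hg.maps'⟩
  · rw [hg.left _ (hf.maps hx), hf.left x hx]
  · rw [hf.right _ (hg.maps' hy), hg.right y hy]

theorem homeoOn_id {E : Type*} [NormedAddCommGroup E] (Ω : Set E) :
    HomeoOn Ω Ω (fun x => x) (fun x => x) :=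
  ⟨mapsTo_id Ω, mapsTo_id Ω, fun _ _ => rfl, fun _ _ => rfl, continuousOn_id, continuousOn_id⟩

/-- The measure of small balls around a point tends to zero. -/
theorem AdmMeas.tendsto_ball {Ω : Set R3} {μ : Measure R3} (hμ : AdmMeas Ω μ) (hΩ : IsOpen Ω)
    {v : R3} (hv : v ∈ Ω) : Tendsto (fun ρ => μ (closedBall v ρ)) (𝓝[>] 0) (𝓝 0) := by
  obtain ⟨r, hr, hb⟩ := Metric.nhds_basis_closedBall.mem_iff.1 (hΩ.mem_nhds hv)
  have h1 : μ (⋂ ρ > 0, closedBall v ρ) = 0 := by
    have : (⋂ ρ > (0 : ℝ), closedBall v ρ) = {v} := by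
      ext x
      simp only [mem_iInter, mem_closedBall, mem_singleton_iff]
      constructor
      · intro h
        by_contra hne
        have hd : 0 < dist x v := dist_pos.2 hne
        have := h (dist x v / 2) (by positivity)
        linarith
      · rintro rfl ρ hρ
        rw [dist_self]; exact le_of_lt hρ
    rw [this]
    exact hμ.noAtoms v hv
  rw [← h1]
  apply tendsto_measure_biInter_gt
  · intro ρ hρ
    exact isClosed_closedBall.nullMeasurableSet
  · intro i j _ hij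
    exact closedBall_subset_closedBall hij
  · exact ⟨r, hr, (hμ.fin _ hb (isCompact_closedBall _ _)).ne⟩

/-- A locally finite subset of an open set is countable. -/
theorem countable_of_locfin {Ω S : Set R3} (hΩ : IsOpen Ω) (hsub : S ⊆ Ω)
    (hfin : ∀ K ⊆ Ω, IsCompact K → (S ∩ K).Finite) : S.Countable := by
  have hd : ∀ x ∈ S, ∃ U ∈ 𝓝 x, (S ∩ U).Finite := by
    intro x hx
    obtain ⟨r, hr, hb⟩ := Metric.nhds_basis_closedBall.mem_iff.1 (hΩ.mem_nhds (hsub hx))
    exact ⟨closedBall x r, closedBall_mem_nhds x hr, hfin _ hb (isCompact_closedBall _ _)⟩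
  choose! U hU hUf using hd
  obtain ⟨t, htS, htc, htU⟩ := TopologicalSpace.countable_cover_nhdsWithin
    (f := fun x => U x) (s := S) (fun x hx => mem_nhdsWithin_of_mem_nhds (hU x hx))
  have : S ⊆ ⋃ x ∈ t, S ∩ U x := by
    intro y hy
    obtain ⟨x, hx, hyx⟩ := mem_iUnion₂.1 (htU hy)
    exact mem_iUnion₂.2 ⟨x, hx, hy, hyx⟩
  exact (htc.biUnion fun x hx => (hUf x (htS hx)).countable).mono this


/-- A ball free of vertices. -/
theorem exists_free_ball {Ω S : Set R3} (hΩ : IsOpen Ω) (hne : Ω.Nonempty) (hsub : S ⊆ Ω)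
    (hfin : ∀ K ⊆ Ω, IsCompact K → (S ∩ K).Finite) :
    ∃ (x0 : R3) (r0 : ℝ), 0 < r0 ∧ ball x0 (2 * r0) ⊆ Ω ∧ ∀ w ∈ S, 2 * r0 ≤ ‖w - x0‖ := by
  have hcount := countable_of_locfin hΩ hsub hfin
  have hdense : Dense Sᶜ := hcount.dense_compl ℝ
  obtain ⟨x0, hx0Ω, hx0S⟩ := hdense.inter_open_nonempty Ω hΩ hne
  obtain ⟨r, hr, hb⟩ := Metric.nhds_basis_closedBall.mem_iff.1 (hΩ.mem_nhds hx0Ω)
  have hf := hfin _ hb (isCompact_closedBall _ _)
  have hn : x0 ∉ S ∩ closedBall x0 r := fun h => hx0S h.1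
  obtain ⟨δ, hδ, hbδ⟩ := Metric.isOpen_iff.1 hf.isClosed.isOpen_compl x0 hn
  refine ⟨x0, min r δ / 2, by positivity, ?_, fun w hw => ?_⟩
  · refine Subset.trans ?_ hb
    intro y hy
    rw [mem_ball] at hy
    rw [mem_closedBall]
    have : min r δ ≤ r := min_le_left _ _
    linarith
  · by_contra hcon
    push Not at hcon
    have h1 : min r δ ≤ r := min_le_left _ _
    have h2 : min r δ ≤ δ := min_le_right _ _
    have h3 : w ∈ ball x0 δ := by rw [mem_ball, dist_eq_norm]; linarith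
    apply hbδ h3
    refine ⟨hw, ?_⟩
    rw [mem_closedBall, dist_eq_norm]
    linarith

theorem shift_step {Ω Λ S : Set R3} {h k : R3 → R3} (hΩ : IsOpen Ω) (hΩc : IsConnected Ω)
    (hΩb : Bornology.IsBounded Ω) (hΛ : IsOpen Λ) (hc : ClassOne Ω Λ S h k)
    {μ : Measure R3} (hμ : AdmMeas Ω μ) {p : ℝ} (hp : 0 < p) {ε : R3 → ℝ}
    (hε : ContinuousOn ε Ω) (hεpos : ∀ x ∈ Ω, 0 < ε x) {η : ℝ≥0∞} (hη : η ≠ 0) :
    ∃ r : S → ℝ, (∀ v, 0 < r v) ∧ (∀ v : S, closedBall (v : R3) (2 * r v) ⊆ Ω) ∧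
      ∀ x : S → R3, (∀ v : S, ‖x v - v‖ < r v) →
        ∃ h0 k0 : R3 → R3, ClassOne Ω Λ (range x) h0 k0 ∧ Close Ω μ p ε η h0 h := by
  have hcompl : (Ωᶜ).Nonempty := by
    by_contra hcon
    rw [not_nonempty_iff_eq_empty, compl_empty_iff] at hcon
    rw [hcon] at hΩb
    exact NormedSpace.unbounded_univ ℝ R3 hΩb
  obtain ⟨φ, N, hN, hφs, hφ01, hφ1, hφ0, hφd⟩ := exists_bump (E := R3)
  have hφ : BumpData φ N := ⟨hN, hφs, fun x => (hφ01 x).1, fun x => (hφ01 x).2, hφ1, hφ0, hφd⟩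
  have hN0 : 0 < N := lt_of_lt_of_le one_pos hN
  have hScount : S.Countable := countable_of_locfin hΩ hc.sub hc.fin
  have : Countable S := hScount.to_subtype
  obtain ⟨w, hw0, hwsum⟩ := ENNReal.exists_pos_sum_of_countable' hη S
  have hdata : ∀ v : S, ∃ (H K : R3 → R3) (r C : ℝ), VtxData Ω S h v H K r C := fun v =>
    hc.exists_vtx hΩ hΛ v.2
  choose H K r1 C hD using hdata
  obtain ⟨x0, r0, hr0, hb0, hS0⟩ := exists_free_ball hΩ hΩc.nonempty hc.sub hc.fin
  obtain ⟨η0, hη0, hfib⟩ := (homeoOn_id Ω).exists_fiber hΩ hΩ hr0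
    ((ball_subset_ball (by linarith)).trans hb0)
  -- choice of the radii
  have hρ : ∀ v : S, ∃ ρ : ℝ, 0 < ρ ∧ ρ ≤ infDist (v : R3) Ωᶜ / 8 ∧ 2 * ρ < r1 v ∧ ρ ≤ 1 ∧
      ρ ≤ r0 ∧ ρ < η0 ∧ μ (closedBall (v : R3) ρ) * ENNReal.ofReal ((3 * C v) ^ p) ≤ w v ∧
      ∀ y ∈ closedBall (v : R3) ρ, ∀ y' ∈ closedBall (v : R3) (2 * ρ), ‖h y' - h y‖ ≤ ε y := by
    intro v
    have hvΩ : (v : R3) ∈ Ω := hc.sub v.2
    have hid : 0 < infDist (v : R3) Ωᶜ := infDist_compl_pos hΩ hcompl hvΩ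
    have small : ∀ a : ℝ, 0 < a → ∀ᶠ ρ : ℝ in 𝓝[>] 0, ρ < a := fun a ha =>
      (gt_mem_nhds ha).filter_mono nhdsWithin_le_nhds
    have e1 := small (infDist (v : R3) Ωᶜ / 8) (by positivity)
    have e2 := small (r1 v / 2) (by have := (hD v).pos; positivity)
    have e3 := small 1 one_pos
    have e4 := small r0 hr0
    have e5 := small η0 hη0
    have e6 : ∀ᶠ ρ : ℝ in 𝓝[>] 0,
        μ (closedBall (v : R3) ρ) * ENNReal.ofReal ((3 * C v) ^ p) < w v := by
      have := ENNReal.Tendsto.mul_const (b := ENNReal.ofReal ((3 * C v) ^ p))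
        (hμ.tendsto_ball hΩ hvΩ) (Or.inr ENNReal.ofReal_ne_top)
      rw [zero_mul] at this
      exact this.eventually (gt_mem_nhds (hw0 v))
    have e7 : ∀ᶠ ρ : ℝ in 𝓝[>] 0, ∀ y ∈ closedBall (v : R3) ρ,
        ∀ y' ∈ closedBall (v : R3) (2 * ρ), ‖h y' - h y‖ ≤ ε y := by
      have hεv := hεpos v hvΩ
      have c1 : ∀ᶠ y in 𝓝 (v : R3), ε v / 2 < ε y :=
        (hε.continuousAt (hΩ.mem_nhds hvΩ)).eventually (lt_mem_nhds (by linarith))
      have c2 : ∀ᶠ y in 𝓝 (v : R3), h y ∈ ball (h v) (ε v / 4) :=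
        (hc.cont.continuousAt (hΩ.mem_nhds hvΩ)).eventually (ball_mem_nhds _ (by positivity))
      obtain ⟨δ, hδ, hb⟩ := Metric.eventually_nhds_iff_ball.1 (c1.and c2)
      filter_upwards [small (δ / 2) (by positivity)] with ρ hρ y hy y' hy'
      rw [mem_closedBall] at hy hy'
      obtain ⟨a1, a2⟩ := hb y (by rw [mem_ball]; linarith [dist_nonneg.trans hy])
      obtain ⟨-, a3⟩ := hb y' (by rw [mem_ball]; linarith)
      rw [mem_ball, dist_eq_norm] at a2 a3
      calc ‖h y' - h y‖ = ‖(h y' - h v) - (h y - h v)‖ := by congr 1; abel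
        _ ≤ ‖h y' - h v‖ + ‖h y - h v‖ := norm_sub_le _ _
        _ ≤ ε y := by linarith
    have e8 : ∀ᶠ ρ : ℝ in 𝓝[>] 0, 0 < ρ := self_mem_nhdsWithin
    obtain ⟨ρ, ⟨⟨⟨⟨⟨⟨f1, f2⟩, f3⟩, f4⟩, f5⟩, f6⟩, f7⟩, f8⟩ :=
      (((((((e1.and e2).and e3).and e4).and e5).and e6).and e7).and e8).exists
    exact ⟨ρ, f8, f1.le, by linarith, f3.le, f4.le, f5, f6.le, f7⟩
  choose ρ hρ0 hρ1 hρ2 hρ3 hρ4 hρ5 hρ6 hρ7 using hρ
  refine ⟨fun v => ρ v / (4 * N), fun v => by have := hρ0 v; positivity, fun v => ?_, ?_⟩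
  · refine (closedBall_subset_closedBall ?_).trans (hD v).sub
    have h1 : ρ v / (4 * N) ≤ ρ v := by
      rw [div_le_iff₀ (by positivity)]
      nlinarith [hρ0 v]
    linarith [hρ2 v]
  intro x hx
  set c : S → R3 := fun v => x v - v with hcdef
  have hcN : ∀ v, ‖c v‖ ≤ ρ v / (4 * N) := fun v => (hx v).le
  have hc4 : ∀ v, ‖c v‖ ≤ ρ v / 4 := by
    intro v
    refine (hcN v).trans ?_
    apply div_le_div_of_nonneg_left (hρ0 v).le (by norm_num)
    linarith
  have hxc : ∀ v : S, x v = v + c v := fun v => by simp [hcdef]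
  set T : S → R3 → R3 := fun v => shiftMap φ v (c v) (ρ v) with hT
  -- the closed balls
  have hdisj : ∀ i j : S, i ≠ j → ∀ y ∈ Ω, y ∈ closedBall (i : R3) (ρ i) →
      y ∉ closedBall (j : R3) (ρ j) := by
    intro i j hij y _ hyi hyj
    rw [mem_closedBall] at hyi hyj
    have hne : (j : R3) ≠ i := fun h => hij (Subtype.ext h.symm)
    have h1 := (hD i).iso j j.2 hne
    have h2 := (hD j).iso i i.2 hne.symm
    have h3 : ‖(j : R3) - i‖ ≤ ρ i + ρ j := by
      rw [← dist_eq_norm]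
      calc dist (j : R3) i ≤ dist (j : R3) y + dist y i := dist_triangle _ _ _
        _ ≤ ρ i + ρ j := by rw [dist_comm (j : R3) y]; linarith
    have h4 : ‖(i : R3) - j‖ ≤ ρ i + ρ j := by rw [norm_sub_rev]; exact h3
    linarith [hρ2 i, hρ2 j]
  have hlocfin := locfin_thick (ι := S) hΩ hcompl (Z := fun v => {(v : R3)})
    (C := fun v => closedBall (v : R3) (ρ v)) (by
      intro K hK hKc
      have h1 := hc.fin K hK hKc
      have h2 : {i : S | (({(i : R3)} : Set R3) ∩ K).Nonempty} ⊆ Subtype.val ⁻¹' (S ∩ K) := by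
        rintro i ⟨z, hz, hzK⟩
        rw [mem_singleton_iff] at hz
        subst hz
        exact ⟨i.2, hzK⟩
      exact (h1.preimage Subtype.val_injective.injOn).subset h2)
    (by
      intro i y hy _
      refine ⟨i, rfl, ?_⟩
      rw [mem_closedBall] at hy
      have := hρ1 i
      have := hρ0 i
      linarith)
  obtain ⟨τ, hτ1, hτ2⟩ := exists_glue hΩ (C := fun v : S => closedBall (v : R3) (ρ v))
    (fun i => isClosed_closedBall) hdisj hlocfin T (fun y => y) (by
      intro i y _ hy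
      rw [mem_closedBall, not_le, dist_eq_norm] at hy
      exact shiftMap_of_le hφ (hρ0 i) hy.le)
  have hτ1' : ∀ y ∈ Ω, ∀ i : S, y ∈ closedBall (i : R3) (ρ i) → τ y = T i y := fun y hy i hi =>
    (hτ1 y hy i hi).eq_of_nhds
  have hτ2' : ∀ y ∈ Ω, (∀ i : S, y ∉ closedBall (i : R3) (ρ i)) → τ y = y := fun y hy hi =>
    (hτ2 y hy hi).eq_of_nhds
  have hTd : ∀ (i : S) y, ‖T i y - y‖ ≤ ‖c i‖ := fun i y => norm_shiftMap_sub_le hφ y
  have hτreg : ∀ y ∈ Ω, RegAt τ y := by
    intro y hy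
    by_cases hex : ∃ i : S, y ∈ closedBall (i : R3) (ρ i)
    · obtain ⟨i, hi⟩ := hex
      exact (regAt_shiftMap hφ (hρ0 i) (hcN i) y).congr (hτ1 y hy i hi)
    · push Not at hex
      exact (RegAt.id y).congr (hτ2 y hy hex)
  have hxball : ∀ v : S, x v ∈ closedBall (v : R3) (ρ v) := by
    intro v
    rw [mem_closedBall, dist_eq_norm]
    have := hc4 v
    have := hρ0 v
    exact (hx v).le.trans ((hcN v |> fun _ => by
      have h1 : ρ v / (4 * N) ≤ ρ v := by
        rw [div_le_iff₀ (by positivity)]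
        nlinarith
      exact h1))
  have hballΩ : ∀ v : S, closedBall (v : R3) (2 * ρ v) ⊆ Ω := fun v =>
    (closedBall_subset_closedBall (hρ2 v).le).trans (hD v).sub
  have hballΩ' : ∀ v : S, closedBall (v : R3) (ρ v) ⊆ Ω := fun v =>
    (closedBall_subset_closedBall (by have := hρ0 v; linarith)).trans (hballΩ v)
  have hT2 : ∀ (v : S) y, y ∈ closedBall (v : R3) (ρ v) → ‖T v y - v‖ < 2 * ρ v := by
    intro v y hy
    rw [mem_closedBall, dist_eq_norm] at hy
    have h1 : T v y - v = (T v y - y) + (y - v) := by abel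
    rw [h1]
    refine lt_of_le_of_lt (norm_add_le _ _) ?_
    have := hTd v y
    have := hc4 v
    have := hρ0 v
    linarith
  have hfine : FineClose Ω Ω τ (fun y => y) := by
    refine ⟨fun y => ‖τ y - y‖, fun y hy => ?_⟩
    change ‖τ y - y‖ ≤ 1 ∧ closedBall y (2 * ‖τ y - y‖) ⊆ Ω ∧ dist (τ y) y ≤ ‖τ y - y‖
    by_cases hex : ∃ i : S, y ∈ closedBall (i : R3) (ρ i)
    · obtain ⟨i, hi⟩ := hex
      rw [hτ1' y hy i hi, dist_eq_norm]
      have h1 := hTd i y
      have h2 := hc4 i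
      have h3 := hρ3 i
      have h4 := hρ0 i
      refine ⟨by linarith, ?_, le_rfl⟩
      intro z hz
      apply hballΩ i
      rw [mem_closedBall] at hz hi ⊢
      have := dist_triangle z y (i : R3)
      linarith
    · push Not at hex
      rw [hτ2' y hy hex]
      simp [hy]
  have hτfib : ∀ y ∈ Ω, τ y = τ x0 → y = x0 := by
    apply hfib τ
    · intro y hy
      apply hτ2' y (hb0 (ball_subset_ball (by linarith) hy))
      intro i hi
      rw [mem_closedBall, dist_eq_norm] at hi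
      rw [mem_ball, dist_eq_norm] at hy
      have h1 := hS0 i i.2
      have h2 := hρ4 i
      have h3 : (i : R3) - x0 = (y - x0) - (y - i) := by abel
      have h4 := norm_sub_le (y - x0) (y - i)
      rw [← h3] at h4
      linarith
    · intro y hy
      by_cases hex : ∃ i : S, y ∈ closedBall (i : R3) (ρ i)
      · obtain ⟨i, hi⟩ := hex
        rw [hτ1' y hy i hi]
        have h1 := hTd i y
        have h2 := hc4 i
        have h3 := hρ5 i
        have h4 := hρ0 i
        linarith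
      · push Not at hex
        rw [hτ2' y hy hex, sub_self, norm_zero]
        exact hη0
  obtain ⟨τ', hττ'⟩ := DiffeoOn.of_fineClose hΩ hΩ hΩc.isPreconnected (homeoOn_id Ω) hfine hτreg
    (hb0 (mem_ball_self (by linarith))) hτfib
  have hhomeo : HomeoOn Ω Λ (fun y => h (τ y)) (fun y => τ' (k y)) :=
    hc.toHomeoOn.comp hττ'.toHomeoOn
  have hTinj : ∀ v : S, ∀ y, T v y = v → y = x v := by
    intro v y hy
    have h1 : T v (v + c v + 0) = v + 0 :=
      shiftMap_near hφ (hρ0 v) (hc4 v) (by rw [norm_zero]; have := hρ0 v; positivity)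
    rw [add_zero, add_zero, ← hxc] at h1
    exact injective_shiftMap hφ (hρ0 v) (hcN v) (hy.trans h1.symm)
  refine ⟨fun y => h (τ y), fun y => τ' (k y), ⟨hhomeo, ?_, ?_, ?_, ?_⟩, ⟨?_, ?_⟩⟩
  · rintro _ ⟨v, rfl⟩
    exact hballΩ' v (hxball v)
  · -- local finiteness of the new vertices
    intro K' hK' hK'c
    have hcov : ∀ z ∈ K', ∃ U ∈ 𝓝 z, {i : S | (closedBall (i : R3) (ρ i) ∩ U).Nonempty}.Finite :=
      fun z hz => hlocfin z (hK' hz)
    choose! U hU hUf using hcov
    obtain ⟨t, htU⟩ := hK'c.elim_nhds_subcover' (fun z _ => U z) (fun z hz => hU z hz)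
    have hfinI : (⋃ z ∈ t, {i : S | (closedBall (i : R3) (ρ i) ∩ U z).Nonempty}).Finite :=
      t.finite_toSet.biUnion fun z _ => hUf z z.2
    refine (hfinI.image x).subset ?_
    rintro _ ⟨⟨v, rfl⟩, hvK⟩
    obtain ⟨z, hz, hvz⟩ := mem_iUnion₂.1 (htU hvK)
    exact ⟨v, mem_iUnion₂.2 ⟨z, hz, ⟨x v, hxball v, hvz⟩⟩, rfl⟩
  · intro y hy hyx
    have hτS : τ y ∉ S := by
      intro hS'
      by_cases hex : ∃ i : S, y ∈ closedBall (i : R3) (ρ i)
      · obtain ⟨v, hv⟩ := hex
        rw [hτ1' y hy v hv] at hS'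
        have h1 := hT2 v y hv
        have h2 : T v y = v := by
          by_contra hne
          have := (hD v).iso _ hS' hne
          linarith [hρ2 v]
        exact hyx ⟨v, (hTinj v y h2).symm⟩
      · push Not at hex
        rw [hτ2' y hy hex] at hS'
        exact hex ⟨y, hS'⟩ (mem_closedBall_self (hρ0 _).le)
    exact RegAt.comp (g := h) (h := τ) (hc.reg _ (hττ'.maps hy) hτS) (hτreg y hy)
  · rintro _ ⟨v, rfl⟩
    have hxΩ : x v ∈ Ω := hballΩ' v (hxball v)
    obtain ⟨r2, hr2, hb2⟩ := Metric.eventually_nhds_iff_ball.1 (hτ1 (x v) hxΩ v (hxball v))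
    have hρv := hρ0 v
    have hr1 := (hD v).pos
    have key : ∀ z, ‖z‖ ≤ min (r2 / 2) (min (ρ v / 4) (r1 v)) →
        h (τ (x v + z)) = h v + H v z := by
      intro z hz
      have z1 : ‖z‖ ≤ r2 / 2 := hz.trans (min_le_left _ _)
      have z2 : ‖z‖ ≤ ρ v / 4 := hz.trans ((min_le_right _ _).trans (min_le_left _ _))
      have z3 : ‖z‖ ≤ r1 v := hz.trans ((min_le_right _ _).trans (min_le_right _ _))
      rw [hb2 (x v + z) (by rw [mem_ball, dist_eq_norm, add_sub_cancel_left]; linarith), hxc v]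
      have := shiftMap_near (v := (v : R3)) hφ hρv (hc4 v) z2
      simp only [hT]
      rw [this]
      exact (hD v).eq z z3
    refine ⟨H v, min (r2 / 2) (min (ρ v / 4) (r1 v)), by positivity, (hD v).cone.homog,
      (hD v).cone.reg, fun z hz => ?_⟩
    have h0 := key 0 (by rw [norm_zero]; positivity)
    rw [add_zero, (hD v).cone.homog.zero, add_zero] at h0
    rw [key z hz, h0]
  · intro y hy
    by_cases hex : ∃ i : S, y ∈ closedBall (i : R3) (ρ i)
    · obtain ⟨v, hv⟩ := hex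
      rw [hτ1' y hy v hv]
      apply hρ7 v y hv
      rw [mem_closedBall, dist_eq_norm]
      exact (hT2 v y hv).le
    · push Not at hex
      rw [hτ2' y hy hex, sub_self, norm_zero]
      exact (hεpos y hy).le
  · refine (lintegral_glue_le (T := fun v y => h (T v y)) (C := fun v : S =>
      closedBall (v : R3) (ρ v)) (fun y hy i hi => ?_) (fun y hy hno => ?_) hp μ hΩ.measurableSet
      (fun i => isClosed_closedBall.measurableSet)).trans ?_
    · exact (hτ1 y hy i hi).fun_comp h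
    · exact (hτ2 y hy hno).fun_comp h
    · refine le_trans (ENNReal.tsum_le_tsum fun v => ?_) hwsum.le
      have hnull : μ {(v : R3), x v} = 0 := by
        have h1 := hμ.noAtoms v (hc.sub v.2)
        have h2 := hμ.noAtoms (x v) (hballΩ' v (hxball v))
        have : ({(v : R3), x v} : Set R3) = {(v : R3)} ∪ {x v} := rfl
        rw [this]
        exact measure_union_null h1 h2
      have hmeas : MeasurableSet (Ω ∩ closedBall (v : R3) (ρ v)) :=
        hΩ.measurableSet.inter isClosed_closedBall.measurableSet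
      have hae : ∀ᵐ y ∂μ, y ∈ Ω ∩ closedBall (v : R3) (ρ v) →
          ENNReal.ofReal (‖fderiv ℝ (fun y => h (T v y)) y - fderiv ℝ h y‖ ^ p) ≤
          ENNReal.ofReal ((3 * C v) ^ p) := by
        filter_upwards [compl_mem_ae_iff.2 hnull] with y hyn hyA
        simp only [mem_compl_iff, mem_insert_iff, mem_singleton_iff, not_or] at hyn
        apply ENNReal.ofReal_le_ofReal
        apply Real.rpow_le_rpow (norm_nonneg _) _ hp.le
        have hyb := hyA.2
        have hyb' : ‖y - v‖ ≤ ρ v := by rwa [mem_closedBall, dist_eq_norm] at hyb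
        have hρv := hρ0 v
        have b1 : ‖fderiv ℝ h y‖ ≤ C v := by
          have := (hD v).bound (y - v) (by linarith [hρ2 v]) (sub_ne_zero.2 hyn.1)
          rwa [add_sub_cancel] at this
        have hTv : T v y ≠ v := fun h => hyn.2 (hTinj v y h)
        have b2 : ‖fderiv ℝ h (T v y)‖ ≤ C v := by
          have := (hD v).bound (T v y - v) (by linarith [hρ2 v, hT2 v y hyb])
            (sub_ne_zero.2 hTv)
          rwa [add_sub_cancel] at this
        have hTΩ : T v y ∈ Ω := by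
          apply hballΩ v
          rw [mem_closedBall, dist_eq_norm]
          exact (hT2 v y hyb).le
        have hTS : T v y ∉ S := by
          intro hS'
          have := (hD v).iso _ hS' hTv
          linarith [hρ2 v, hT2 v y hyb]
        have b3 : fderiv ℝ (fun y => h (T v y)) y =
            (fderiv ℝ h (T v y)).comp (fderiv ℝ (T v) y) :=
          fderiv_comp y ((hc.reg _ hTΩ hTS).1.differentiableAt (by simp))
            ((contDiff_shiftMap hφ).differentiable (by simp) y)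
        rw [b3]
        refine (norm_sub_le _ _).trans ?_
        have b4 : ‖(fderiv ℝ h (T v y)).comp (fderiv ℝ (T v) y)‖ ≤ C v * 2 := by
          refine (ContinuousLinearMap.opNorm_comp_le _ _).trans ?_
          gcongr
          · exact (hD v).posC.le
          · exact norm_fderiv_shiftMap_le hφ (hρ0 v) (hcN v) y
        linarith
      calc ∫⁻ y in Ω ∩ closedBall (v : R3) (ρ v),
            ENNReal.ofReal (‖fderiv ℝ (fun y => h (T v y)) y - fderiv ℝ h y‖ ^ p) ∂μ
          ≤ ∫⁻ y in Ω ∩ closedBall (v : R3) (ρ v), ENNReal.ofReal ((3 * C v) ^ p) ∂μ := by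
            apply lintegral_mono_ae
            rw [ae_restrict_iff' hmeas]
            exact hae
        _ = ENNReal.ofReal ((3 * C v) ^ p) * μ (Ω ∩ closedBall (v : R3) (ρ v)) := by
            rw [setLIntegral_const]
        _ ≤ ENNReal.ofReal ((3 * C v) ^ p) * μ (closedBall (v : R3) (ρ v)) := by
            gcongr
            exact inter_subset_right
        _ ≤ w v := by rw [mul_comm]; exact hρ6 v

end Vale.Agent.P073.SMV
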