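import Mathlib

/-!
# Small smooth positive functions

On an open subset `Ω` of a finite dimensional space and for a positive continuous function `c` on
`Ω` there is a smooth function on the whole space, positive exactly on `Ω`, which is at most `c` on
`Ω` together with its derivative.
-/

namespace Vale.Agent.P073.SMV

open Set Filter Topology Metric Function
open scoped ContDiff NNReal

variable {E : Type*} [NormedAddCommGroup E] [NormedSpace ℝ E] [FiniteDimensional ℝ E]

theorem exists_small_smooth {s : Set E} (hs : IsOpen s) {w : E → ℝ} (hw : ContinuousOn w s)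
    (hpos : ∀ x ∈ s, 0 < w x) :
    ∃ θ : E → ℝ, ContDiff ℝ ∞ θ ∧
      (∀ x ∈ s, 0 < θ x ∧ θ x ≤ w x ∧ ‖fderiv ℝ θ x‖ ≤ w x) ∧ ∀ x ∉ s, θ x = 0 := by
  rcases eq_empty_or_nonempty s with (rfl | h's)
  · exact ⟨fun _ => 0, contDiff_const, by simp, by simp⟩
  let ι := { f : E → ℝ // tsupport f ⊆ s ∧ HasCompactSupport f ∧ ContDiff ℝ ∞ f ∧
    range f ⊆ Icc 0 1 }
  obtain ⟨T, T_count, hT⟩ : ∃ T : Set ι, T.Countable ∧ ⋃ f ∈ T, support (f : E → ℝ) = s := by
    have : ⋃ f : ι, (f : E → ℝ).support = s := by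
      refine Subset.antisymm (iUnion_subset fun f => (subset_tsupport _).trans f.2.1) ?_
      intro x hx
      rcases exists_contDiff_tsupport_subset (n := ⊤) (hs.mem_nhds hx) with ⟨f, hf⟩
      let g : ι := ⟨f, hf.1, hf.2.1, hf.2.2.1, hf.2.2.2.1⟩
      have : x ∈ support (g : E → ℝ) := by
        simp only [g, hf.2.2.2.2, mem_support, Ne, one_ne_zero, not_false_iff]
      exact mem_iUnion_of_mem _ this
    simp_rw [← this]
    apply TopologicalSpace.isOpen_iUnion_countable
    rintro ⟨f, hf⟩
    exact hf.2.2.1.continuous.isOpen_support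
  obtain ⟨g0, hg⟩ : ∃ g0 : ℕ → ι, T = range g0 := by
    apply Countable.exists_eq_range T_count
    rcases eq_empty_or_nonempty T with (rfl | hT)
    · simp only [← hT, mem_empty_iff_false, iUnion_of_empty, iUnion_empty, Set.not_nonempty_empty]
        at h's
    · exact hT
  let g : ℕ → E → ℝ := fun n => (g0 n).1
  have g_ts : ∀ n, tsupport (g n) ⊆ s := fun n => (g0 n).2.1
  have g_s : ∀ n, support (g n) ⊆ s := fun n => (subset_tsupport _).trans (g_ts n)
  have s_g : ∀ x ∈ s, ∃ n, x ∈ support (g n) := fun x hx ↦ by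
    rw [← hT] at hx
    obtain ⟨i, iT, hi⟩ : ∃ i ∈ T, x ∈ support (i : E → ℝ) := by
      simpa only [mem_iUnion, exists_prop] using! hx
    rw [hg] at iT
    obtain ⟨n, hn⟩ := iT
    exact ⟨n, by simpa only [g, hn] using hi⟩
  have g_smooth : ∀ n, ContDiff ℝ ∞ (g n) := fun n => (g0 n).2.2.2.1
  have g_comp_supp : ∀ n, HasCompactSupport (g n) := fun n => (g0 n).2.2.1
  have g_nonneg : ∀ n x, 0 ≤ g n x := fun n x => ((g0 n).2.2.2.2 (mem_range_self x)).1
  have hm : ∀ n, ∃ m : ℝ, 0 < m ∧ ∀ x ∈ tsupport (g n), m ≤ w x := fun n =>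
    IsCompact.exists_forall_le' (g_comp_supp n) (hw.mono (g_ts n)) (fun x hx => hpos x (g_ts n hx))
  choose m hm0 hm using hm
  obtain ⟨δ, δpos, c, δc, c_lt⟩ :
      ∃ δ : ℕ → ℝ≥0, (∀ i : ℕ, 0 < δ i) ∧ ∃ c : NNReal, HasSum δ c ∧ c < 1 :=
    NNReal.exists_pos_sum_of_countable one_ne_zero ℕ
  have δ1 : ∀ n, (δ n : ℝ) ≤ 1 := by
    intro n
    have := le_hasSum δc n (fun _ _ => zero_le)
    exact_mod_cast this.trans c_lt.le
  have key : ∀ n : ℕ, ∃ r : ℝ, 0 < r ∧ ∀ i ≤ n + 1, ∀ x,
      ‖iteratedFDeriv ℝ i (r • g n) x‖ ≤ δ n ∧ ‖iteratedFDeriv ℝ i (r • g n) x‖ ≤ δ n * m n := by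
    intro n
    have : ∀ i, ∃ R, ∀ x, ‖iteratedFDeriv ℝ i (fun x => g n x) x‖ ≤ R := by
      intro i
      have : BddAbove (range fun x => ‖iteratedFDeriv ℝ i (fun x : E => g n x) x‖) := by
        apply ((g_smooth n).continuous_iteratedFDeriv
          (mod_cast le_top)).norm.bddAbove_range_of_hasCompactSupport
        apply HasCompactSupport.comp_left _ norm_zero
        apply (g_comp_supp n).iteratedFDeriv
      rcases this with ⟨R, hR⟩
      exact ⟨R, fun x => hR (mem_range_self _)⟩
    choose R hR using this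
    let M := max (((Finset.range (n + 2)).image R).max' (by simp)) 1
    have δnpos : 0 < δ n := δpos n
    have IR : ∀ i ≤ n + 1, R i ≤ M := by
      intro i hi
      refine le_trans ?_ (le_max_left _ _)
      apply Finset.le_max'
      apply Finset.mem_image_of_mem
      simp only [Finset.mem_range]
      lia
    have hM1 : 1 ≤ M := le_max_right _ _
    have hmm : 0 < min (m n) 1 := lt_min (hm0 n) one_pos
    have hkey : ∀ i ≤ n + 1, ∀ x,
        ‖iteratedFDeriv ℝ i ((M⁻¹ * δ n * min (m n) 1) • g n) x‖ ≤ δ n * min (m n) 1 := by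
      intro i hi x
      calc
      ‖iteratedFDeriv ℝ i ((M⁻¹ * δ n * min (m n) 1) • g n) x‖
          = ‖(M⁻¹ * δ n * min (m n) 1) • iteratedFDeriv ℝ i (g n) x‖ := by
        rw [iteratedFDeriv_const_smul_apply]
        exact (g_smooth n).contDiffAt.of_le (mod_cast le_top)
      _ = M⁻¹ * δ n * min (m n) 1 * ‖iteratedFDeriv ℝ i (g n) x‖ := by
        rw [norm_smul _ (iteratedFDeriv ℝ i (g n) x), Real.norm_of_nonneg]; positivity
      _ ≤ M⁻¹ * δ n * min (m n) 1 * M := by gcongr; exact (hR i x).trans (IR i hi)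
      _ = δ n * min (m n) 1 := by field_simp
    refine ⟨M⁻¹ * δ n * min (m n) 1, by positivity, fun i hi x => ⟨?_, ?_⟩⟩
    · refine (hkey i hi x).trans ?_
      exact mul_le_of_le_one_right (NNReal.coe_nonneg _) (min_le_right _ _)
    · refine (hkey i hi x).trans ?_
      gcongr
      exact min_le_left _ _
  choose r rpos hr using key
  have S : ∀ x, Summable fun n => (r n • g n) x := fun x ↦ by
    refine .of_nnnorm_bounded δc.summable fun n => ?_
    rw [← NNReal.coe_le_coe, coe_nnnorm]
    simpa only [norm_iteratedFDeriv_zero] using! (hr n 0 (by lia) x).1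
  have hsm : ContDiff ℝ ∞ fun x => ∑' n, (r n • g n) x := by
    refine
      contDiff_tsum_of_eventually (fun k => (g_smooth k).const_smul (r k))
        (fun k _ => (NNReal.hasSum_coe.2 δc).summable) ?_
    intro i _
    simp only [Nat.cofinite_eq_atTop, Filter.eventually_atTop]
    exact ⟨i, fun n hn x => (hr _ _ (by lia) _).1⟩
  have A : HasSum (fun n => (δ n : ℝ)) c := NNReal.hasSum_coe.2 δc
  have c1 : (c : ℝ) ≤ 1 := by exact_mod_cast c_lt.le
  refine ⟨fun x => ∑' n, (r n • g n) x, hsm, ?_, ?_⟩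
  · intro x hx
    have hwx := hpos x hx
    have b0 : ∀ n, (r n • g n) x ≤ δ n * w x := by
      intro n
      by_cases hxs : x ∈ tsupport (g n)
      · have h1 := (hr n 0 (by lia) x).2
        rw [norm_iteratedFDeriv_zero] at h1
        refine (le_abs_self _).trans (h1.trans ?_)
        gcongr
        exact hm n x hxs
      · have : g n x = 0 := image_eq_zero_of_notMem_tsupport hxs
        simp only [Pi.smul_apply, this, smul_zero]
        positivity
    have b1 : ∀ n, ‖fderiv ℝ (r n • g n) x‖ ≤ δ n * w x := by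
      intro n
      by_cases hxs : x ∈ tsupport (g n)
      · have h1 := (hr n 1 (by lia) x).2
        rw [norm_iteratedFDeriv_one] at h1
        refine h1.trans ?_
        gcongr
        exact hm n x hxs
      · have : x ∉ tsupport (r n • g n) := fun h =>
          hxs (tsupport_smul_subset_right (fun _ => r n) (g n) h)
        have : fderiv ℝ (r n • g n) x = 0 := by
          by_contra hcon
          exact this (support_fderiv_subset ℝ hcon)
        rw [this, norm_zero]
        positivity
    refine ⟨?_, ?_, ?_⟩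
    · obtain ⟨n, hn⟩ : ∃ n, x ∈ support (g n) := s_g x hx
      have I : 0 < r n * g n x := mul_pos (rpos n) (lt_of_le_of_ne (g_nonneg n x) (Ne.symm hn))
      exact ((S x).tsum_pos (fun i => mul_nonneg (rpos i).le (g_nonneg i x)) n I)
    · calc ∑' n, (r n • g n) x ≤ ∑' n, (δ n : ℝ) * w x :=
            (S x).tsum_le_tsum b0 (A.summable.mul_right _)
        _ = c * w x := by rw [tsum_mul_right, A.tsum_eq]
        _ ≤ w x := mul_le_of_le_one_left hwx.le c1
    · have hfd : fderiv ℝ (fun x => ∑' n, (r n • g n) x) x = ∑' n, fderiv ℝ (r n • g n) x := by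
        have := fderiv_tsum (𝕜 := ℝ) (u := fun n => (δ n : ℝ)) (f := fun n => r n • g n)
          A.summable (fun n => ((g_smooth n).const_smul (r n)).differentiable (by simp))
          (fun n x => ?_) (x₀ := x) (S x)
        · exact congrFun this x
        · have := (hr n 1 (by lia) x).1
          rwa [norm_iteratedFDeriv_one] at this
      rw [hfd]
      have hsum : Summable fun n => (δ n : ℝ) * w x := A.summable.mul_right _
      calc ‖∑' n, fderiv ℝ (r n • g n) x‖ ≤ ∑' n, (δ n : ℝ) * w x :=
            tsum_of_norm_bounded hsum.hasSum b1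
        _ = c * w x := by rw [tsum_mul_right, A.tsum_eq]
        _ ≤ w x := mul_le_of_le_one_left hwx.le c1
  · intro x hx
    have : ∀ n, g n x = 0 := by
      intro n
      by_contra hcon
      exact hx (g_s n hcon)
    simp [this]

end Vale.Agent.P073.SMV
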