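import Vale.Agent.P073.SMV.PathB
import Vale.Agent.P073.SMV.Theta

/-!
# Tube maps
-/

namespace Vale.Agent.P073.SMV

open Set Filter Topology Metric
open scoped ContDiff NNReal

variable {E : Type*} [NormedAddCommGroup E] [InnerProductSpace ℝ E]

/-- A level preserving homogeneous homeomorphism supported in the cone of opening one around `d`. -/
structure LevelMap (d : E) (A B : E → E) : Prop where
  unit : ‖d‖ = 1
  cone : ConeMap A B
  lev : ∀ x, @inner ℝ E _ d (A x) = @inner ℝ E _ d x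
  id_of : ∀ y, @inner ℝ E _ d y ≤ ‖y - (@inner ℝ E _ d y) • d‖ → A y = y

/-- A profile function. -/
structure Profile (R t0 M : ℝ) (ρ : ℝ → ℝ) : Prop where
  t0_pos : 0 < t0
  t0_lt : t0 < R
  pos : ∀ t ∈ Ioo 0 R, 0 < ρ t
  zero : ∀ t, t ∉ Ioo 0 R → ρ t = 0
  cont : Continuous ρ
  smooth : ∀ t ∈ Ioo 0 R, ContDiffAt ℝ ∞ ρ t
  deriv_le : ∀ t ∈ Ioo 0 R, |deriv ρ t| ≤ M
  lin : ∀ t, 0 ≤ t → t ≤ t0 → ρ t = t

/-- The tube map. -/
noncomputable def tubeMap (d : E) (B : E → E) (ρ : ℝ → ℝ) (x : E) : E :=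
  if 0 < ρ (@inner ℝ E _ d x) then
    (@inner ℝ E _ d x) • d + ρ (@inner ℝ E _ d x) •
      (B (d + (ρ (@inner ℝ E _ d x))⁻¹ • (x - (@inner ℝ E _ d x) • d)) - d)
  else x

section basic

variable {d : E} {A B : E → E} {ρ : ℝ → ℝ} {R t0 M : ℝ}

theorem inner_self_unit (hd : ‖d‖ = 1) : @inner ℝ E _ d d = 1 := by
  rw [real_inner_self_eq_norm_sq, hd]; norm_num

theorem inner_perp (hd : ‖d‖ = 1) (x : E) :
    @inner ℝ E _ d (x - (@inner ℝ E _ d x) • d) = 0 := by
  rw [inner_sub_right, real_inner_smul_right, inner_self_unit hd]; ring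

theorem LevelMap.symm [FiniteDimensional ℝ E] (h : LevelMap d A B) : LevelMap d B A := by
  refine ⟨h.unit, h.cone.symm, fun x => ?_, fun y hy => ?_⟩
  · have := h.lev (B x)
    rw [h.cone.right] at this
    exact this.symm
  · have := h.id_of y hy
    calc B y = B (A y) := by rw [this]
      _ = y := h.cone.left y

/-- `B` on the level one. -/
theorem LevelMap.id_level_one (h : LevelMap d A B) {w : E} (hw : @inner ℝ E _ d w = 0)
    (hw1 : 1 ≤ ‖w‖) : A (d + w) = d + w := by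
  have h1 : @inner ℝ E _ d (d + w) = 1 := by
    rw [inner_add_right, hw, inner_self_unit h.unit, add_zero]
  apply h.id_of
  rw [h1, one_smul, add_sub_cancel_left]
  exact hw1

theorem tubeMap_of_pos {x : E} (hx : 0 < ρ (@inner ℝ E _ d x)) :
    tubeMap d B ρ x = (@inner ℝ E _ d x) • d + ρ (@inner ℝ E _ d x) •
      (B (d + (ρ (@inner ℝ E _ d x))⁻¹ • (x - (@inner ℝ E _ d x) • d)) - d) := if_pos hx

theorem tubeMap_of_not_pos {x : E} (hx : ¬ 0 < ρ (@inner ℝ E _ d x)) :
    tubeMap d B ρ x = x := if_neg hx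

theorem tubeMap_of_le (h : LevelMap d A B) {x : E}
    (hx : ρ (@inner ℝ E _ d x) ≤ ‖x - (@inner ℝ E _ d x) • d‖) : tubeMap d A ρ x = x := by
  by_cases hp : 0 < ρ (@inner ℝ E _ d x)
  · rw [tubeMap_of_pos hp, h.id_level_one]
    · rw [add_sub_cancel_left, smul_smul, mul_inv_cancel₀ hp.ne', one_smul]
      abel
    · rw [real_inner_smul_right, inner_perp h.unit, mul_zero]
    · rw [norm_smul, norm_inv, Real.norm_of_nonneg hp.le, inv_mul_eq_div, le_div_iff₀ hp, one_mul]
      exact hx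
  · exact tubeMap_of_not_pos hp

theorem inner_tubeMap (h : LevelMap d A B) (x : E) :
    @inner ℝ E _ d (tubeMap d A ρ x) = @inner ℝ E _ d x := by
  by_cases hp : 0 < ρ (@inner ℝ E _ d x)
  · rw [tubeMap_of_pos hp, inner_add_right, real_inner_smul_right, inner_self_unit h.unit,
      real_inner_smul_right, inner_sub_right, h.lev, inner_add_right, real_inner_smul_right,
      inner_perp h.unit, inner_self_unit h.unit]
    ring
  · rw [tubeMap_of_not_pos hp]

theorem tubeMap_tubeMap (h : LevelMap d A B) (x : E) :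
    tubeMap d B ρ (tubeMap d A ρ x) = x := by
  by_cases hp : 0 < ρ (@inner ℝ E _ d x)
  · have hi := inner_tubeMap (ρ := ρ) h x
    rw [tubeMap_of_pos (x := tubeMap d A ρ x) (by rw [hi]; exact hp), hi, tubeMap_of_pos hp]
    set t := @inner ℝ E _ d x
    have h1 : d + (ρ t)⁻¹ • (t • d + ρ t • (A (d + (ρ t)⁻¹ • (x - t • d)) - d) - t • d) =
        A (d + (ρ t)⁻¹ • (x - t • d)) := by
      rw [add_sub_cancel_left, smul_smul, inv_mul_cancel₀ hp.ne', one_smul]
      abel
    rw [h1, h.cone.left, add_sub_cancel_left, smul_smul, mul_inv_cancel₀ hp.ne', one_smul]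
    abel
  · rw [tubeMap_of_not_pos (x := x) hp, tubeMap_of_not_pos hp]

/-- Near the vertex the tube map is the homogeneous map. -/
theorem tubeMap_eq_cone (h : LevelMap d A B) (hρ : Profile R t0 M ρ) {x : E} (hx : ‖x‖ ≤ t0) :
    tubeMap d A ρ x = A x := by
  have hit : |@inner ℝ E _ d x| ≤ t0 := by
    have := abs_real_inner_le_norm d x
    rw [h.unit, one_mul] at this
    exact this.trans hx
  by_cases hp : 0 < @inner ℝ E _ d x
  · have h1 : ρ (@inner ℝ E _ d x) = @inner ℝ E _ d x :=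
      hρ.lin _ hp.le ((le_abs_self _).trans hit)
    rw [tubeMap_of_pos (by rw [h1]; exact hp), h1]
    set t := @inner ℝ E _ d x
    have h2 : t • (A (d + t⁻¹ • (x - t • d)) - d) = A x - t • d := by
      rw [smul_sub, ← h.cone.homog t hp, smul_add, smul_smul, mul_inv_cancel₀ hp.ne', one_smul]
      congr 2
      abel
    rw [h2]
    abel
  · have h1 : ρ (@inner ℝ E _ d x) = 0 := hρ.zero _ (fun hm => hp hm.1)
    rw [tubeMap_of_not_pos (by rw [h1]; exact lt_irrefl _)]
    exact (h.id_of x ((not_lt.1 hp).trans (norm_nonneg _))).symm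

/-- The displacement is at most a constant times the width. -/
theorem norm_tubeMap_sub_le (h : LevelMap d A B) {C : ℝ} (hC0 : 0 ≤ C)
    (hC : ∀ x, ‖A x‖ ≤ C * ‖x‖) (x : E) :
    ‖tubeMap d A ρ x - x‖ ≤ (2 * C + 2) * max (ρ (@inner ℝ E _ d x)) 0 := by
  by_cases hp : 0 < ρ (@inner ℝ E _ d x)
  · by_cases hx : ρ (@inner ℝ E _ d x) ≤ ‖x - (@inner ℝ E _ d x) • d‖
    · rw [tubeMap_of_le h hx, sub_self, norm_zero]
      positivity
    · push Not at hx
      rw [tubeMap_of_pos hp, max_eq_left hp.le]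
      set t := @inner ℝ E _ d x
      set y := x - t • d with hy
      clear_value y
      have h1 : t • d + ρ t • (A (d + (ρ t)⁻¹ • y) - d) - x =
          ρ t • (A (d + (ρ t)⁻¹ • y) - (d + (ρ t)⁻¹ • y)) := by
        rw [smul_sub, smul_sub, smul_add, smul_smul, mul_inv_cancel₀ hp.ne', one_smul, hy]
        abel
      rw [h1, norm_smul, Real.norm_of_nonneg hp.le, mul_comm]
      have h2 : ‖d + (ρ t)⁻¹ • y‖ ≤ 2 := by
        refine (norm_add_le _ _).trans ?_
        rw [h.unit, norm_smul, norm_inv, Real.norm_of_nonneg hp.le, inv_mul_eq_div]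
        have : ‖y‖ / ρ t ≤ 1 := by rw [div_le_one hp]; exact hx.le
        linarith
      have h3 : ‖A (d + (ρ t)⁻¹ • y) - (d + (ρ t)⁻¹ • y)‖ ≤ 2 * C + 2 := by
        refine (norm_sub_le _ _).trans ?_
        have := hC (d + (ρ t)⁻¹ • y)
        nlinarith
      gcongr
  · rw [tubeMap_of_not_pos hp, sub_self, norm_zero]
    positivity

theorem contDiffAt_tubeMap (h : LevelMap d A B) (hρ : Profile R t0 M ρ) {x : E}
    (hx : @inner ℝ E _ d x ∈ Ioo 0 R) : ContDiffAt ℝ ∞ (tubeMap d A ρ) x := by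
  have hp : 0 < ρ (@inner ℝ E _ d x) := hρ.pos _ hx
  have hin : Continuous fun z : E => @inner ℝ E _ d z := continuous_const.inner continuous_id
  have e0 : ContDiffAt ℝ ∞ (fun z : E => @inner ℝ E _ d z) x :=
    contDiffAt_const.inner ℝ contDiffAt_id
  have e1 : ContDiffAt ℝ ∞ (fun z : E => ρ (@inner ℝ E _ d z)) x :=
    ContDiffAt.comp (g := ρ) x (hρ.smooth _ hx) e0
  have e2 : ContDiffAt ℝ ∞
      (fun z : E => d + (ρ (@inner ℝ E _ d z))⁻¹ • (z - (@inner ℝ E _ d z) • d)) x :=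
    contDiffAt_const.add ((e1.inv hp.ne').smul (contDiffAt_id.sub (e0.smul contDiffAt_const)))
  have hne : d + (ρ (@inner ℝ E _ d x))⁻¹ • (x - (@inner ℝ E _ d x) • d) ≠ 0 := by
    intro h0
    have := congrArg (fun z => @inner ℝ E _ d z) h0
    simp only [inner_add_right, real_inner_smul_right, inner_perp h.unit, inner_self_unit h.unit,
      inner_zero_right] at this
    norm_num at this
  have e3 : ContDiffAt ℝ ∞ (fun z : E => A (d + (ρ (@inner ℝ E _ d z))⁻¹ •
      (z - (@inner ℝ E _ d z) • d))) x :=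
    ContDiffAt.comp (g := A) x (h.cone.reg _ hne).1 e2
  have e4 := (e0.smul (contDiffAt_const (c := d))).add (e1.smul (e3.sub (contDiffAt_const (c := d))))
  refine e4.congr_of_eventuallyEq ?_
  filter_upwards [(isOpen_lt continuous_const (hρ.cont.comp hin)).mem_nhds hp] with z hz
  exact tubeMap_of_pos hz

theorem regAt_tubeMap [FiniteDimensional ℝ E] (h : LevelMap d A B) (hρ : Profile R t0 M ρ) {x : E}
    (hx : @inner ℝ E _ d x ∈ Ioo 0 R) : RegAt (tubeMap d A ρ) x := by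
  apply regAt_of_left (contDiffAt_tubeMap h hρ hx) (k := tubeMap d B ρ)
  · apply (contDiffAt_tubeMap h.symm hρ _).differentiableAt (by simp)
    rw [inner_tubeMap h]
    exact hx
  · exact Eventually.of_forall (tubeMap_tubeMap h)

/-- Away from the axis and outside of the levels of the tube the tube map is the identity. -/
theorem tubeMap_eventually_id (h : LevelMap d A B) (hρ : Profile R t0 M ρ) {x : E}
    (hx : ρ (@inner ℝ E _ d x) < ‖x - (@inner ℝ E _ d x) • d‖) :
    tubeMap d A ρ =ᶠ[𝓝 x] fun z => z := by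
  have hin : Continuous fun z : E => @inner ℝ E _ d z := continuous_const.inner continuous_id
  have hc2 : Continuous fun z : E => ‖z - (@inner ℝ E _ d z) • d‖ :=
    (continuous_id.sub (hin.smul continuous_const)).norm
  filter_upwards [(isOpen_lt (hρ.cont.comp hin) hc2).mem_nhds hx] with z hz
  exact tubeMap_of_le h (le_of_lt hz)

/-- Bound of the derivative. -/
theorem norm_fderiv_tubeMap_le (h : LevelMap d A B) (hρ : Profile R t0 M ρ)
    {C : ℝ} (hC0 : 0 ≤ C) (hC : ∀ x, ‖A x‖ ≤ C * ‖x‖) (hC' : ∀ x, x ≠ 0 → ‖fderiv ℝ A x‖ ≤ C)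
    {x : E} (hx : @inner ℝ E _ d x ∈ Ioo 0 R) :
    ‖fderiv ℝ (tubeMap d A ρ) x‖ ≤ 1 + M * (2 * C + 1) + C * (1 + M) := by
  have hM : 0 ≤ M := (abs_nonneg _).trans (hρ.deriv_le _ hx)
  have hp : 0 < ρ (@inner ℝ E _ d x) := hρ.pos _ hx
  by_cases hxy : ρ (@inner ℝ E _ d x) < ‖x - (@inner ℝ E _ d x) • d‖
  · rw [(tubeMap_eventually_id h hρ hxy).fderiv_eq, fderiv_fun_id]
    refine ContinuousLinearMap.norm_id_le.trans ?_
    nlinarith [mul_nonneg hC0 hM]
  push Not at hxy
  have hin : Continuous fun z : E => @inner ℝ E _ d z := continuous_const.inner continuous_id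
  set t := @inner ℝ E _ d x with ht
  set y := x - t • d with hy
  have f0 : HasFDerivAt (fun z : E => @inner ℝ E _ d z) (innerSL ℝ d) x := (innerSL ℝ d).hasFDerivAt
  have fρ : HasDerivAt ρ (deriv ρ t) t := ((hρ.smooth _ hx).differentiableAt (by simp)).hasDerivAt
  have f1 : HasFDerivAt (fun z : E => ρ (@inner ℝ E _ d z)) (deriv ρ t • innerSL ℝ d) x :=
    fρ.comp_hasFDerivAt x f0
  have f1' : HasFDerivAt (fun z : E => (ρ (@inner ℝ E _ d z))⁻¹)
      (-((ρ t) ^ 2)⁻¹ • (deriv ρ t • innerSL ℝ d)) x :=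
    (hasDerivAt_inv hp.ne').comp_hasFDerivAt x f1
  have f2 : HasFDerivAt (fun z : E => z - (@inner ℝ E _ d z) • d)
      (ContinuousLinearMap.id ℝ E - (innerSL ℝ d).smulRight d) x := by
    have := (hasFDerivAt_id x).sub (f0.smul_const d)
    exact this
  have f3 := (f1'.smul f2).const_add d
  have hne : d + (ρ t)⁻¹ • y ≠ 0 := by
    intro h0
    have := congrArg (fun z => @inner ℝ E _ d z) h0
    simp only [inner_add_right, real_inner_smul_right, hy, inner_perp h.unit,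
      inner_self_unit h.unit, inner_zero_right, ht] at this
    norm_num at this
  have fA : HasFDerivAt A (fderiv ℝ A (d + (ρ t)⁻¹ • y)) (d + (ρ t)⁻¹ • y) :=
    ((h.cone.reg _ hne).1.differentiableAt (by simp)).hasFDerivAt
  have f4 := fA.comp x f3
  have f5 := (f0.smul_const d).add (f1.smul (f4.sub_const d))
  have f6 : HasFDerivAt (tubeMap d A ρ) _ x := f5.congr_of_eventuallyEq (by
    filter_upwards [(isOpen_lt continuous_const (hρ.cont.comp hin)).mem_nhds hp] with z hz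
    exact tubeMap_of_pos hz)
  rw [f6.fderiv]
  refine ContinuousLinearMap.opNorm_le_bound _ (by positivity) fun w => ?_
  simp only [add_apply, smul_apply, ContinuousLinearMap.smulRight_apply,
    ContinuousLinearMap.comp_apply, sub_apply, ContinuousLinearMap.id_apply,
    innerSL_apply_apply, Function.comp_apply, smul_eq_mul, ← ht, ← hy]
  set a := @inner ℝ E _ d w with ha
  have ha' : |a| ≤ ‖w‖ := by
    have := abs_real_inner_le_norm d w
    rwa [h.unit, one_mul] at this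
  have hyρ : ‖(ρ t)⁻¹ • y‖ ≤ 1 := by
    rw [norm_smul, norm_inv, Real.norm_of_nonneg hp.le, inv_mul_eq_div, div_le_one hp]
    exact hxy
  have hz2 : ‖d + (ρ t)⁻¹ • y‖ ≤ 2 := by
    refine (norm_add_le _ _).trans ?_
    rw [h.unit]; linarith
  have hAz : ‖A (d + (ρ t)⁻¹ • y) - d‖ ≤ 2 * C + 1 := by
    refine (norm_sub_le _ _).trans ?_
    rw [h.unit]
    have := hC (d + (ρ t)⁻¹ • y)
    nlinarith
  have hρ' := hρ.deriv_le t hx
  have hperp : ‖w - a • d‖ ≤ ‖w‖ := by
    have h1 : ‖w - a • d‖ ^ 2 ≤ ‖w‖ ^ 2 := by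
      rw [norm_sub_sq_real, real_inner_smul_right, norm_smul, h.unit, real_inner_comm, ← ha,
        Real.norm_eq_abs, mul_one, sq_abs]
      nlinarith [sq_nonneg a]
    exact le_of_sq_le_sq h1 (norm_nonneg _) 
  have hlin : ρ t • fderiv ℝ A (d + (ρ t)⁻¹ • y)
      ((ρ t)⁻¹ • (w - a • d) + (-((ρ t) ^ 2)⁻¹ * (deriv ρ t * a)) • y) =
      fderiv ℝ A (d + (ρ t)⁻¹ • y) ((w - a • d) - (deriv ρ t * a) • ((ρ t)⁻¹ • y)) := by
    rw [← map_smul]
    congr 1
    rw [smul_add, smul_smul, smul_smul, smul_smul, mul_inv_cancel₀ hp.ne', one_smul,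
      sub_eq_add_neg (w - a • d), ← neg_smul]
    congr 2
    field_simp
  rw [hlin]
  have b1 : ‖a • d‖ ≤ ‖w‖ := by rw [norm_smul, h.unit, mul_one, Real.norm_eq_abs]; exact ha'
  have b2 : ‖fderiv ℝ A (d + (ρ t)⁻¹ • y) ((w - a • d) - (deriv ρ t * a) • ((ρ t)⁻¹ • y))‖ ≤
      C * (1 + M) * ‖w‖ := by
    refine (ContinuousLinearMap.le_opNorm _ _).trans ?_
    have : ‖(w - a • d) - (deriv ρ t * a) • ((ρ t)⁻¹ • y)‖ ≤ (1 + M) * ‖w‖ := by
      refine (norm_sub_le _ _).trans ?_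
      rw [norm_smul, Real.norm_eq_abs, abs_mul]
      have : |deriv ρ t| * |a| * ‖(ρ t)⁻¹ • y‖ ≤ M * ‖w‖ * 1 := by gcongr
      linarith
    calc _ ≤ C * ((1 + M) * ‖w‖) := by
          gcongr
          exact hC' _ hne
      _ = _ := by ring
  have b3 : ‖(deriv ρ t * a) • (A (d + (ρ t)⁻¹ • y) - d)‖ ≤ M * (2 * C + 1) * ‖w‖ := by
    rw [norm_smul, Real.norm_eq_abs, abs_mul]
    calc |deriv ρ t| * |a| * ‖A (d + (ρ t)⁻¹ • y) - d‖ ≤ M * ‖w‖ * (2 * C + 1) := by gcongr
      _ = _ := by ring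
  refine (norm_add_le _ _).trans ?_
  have b4 := norm_add_le (fderiv ℝ A (d + (ρ t)⁻¹ • y)
    ((w - a • d) - (deriv ρ t * a) • ((ρ t)⁻¹ • y))) ((deriv ρ t * a) • (A (d + (ρ t)⁻¹ • y) - d))
  calc _ ≤ ‖w‖ + (C * (1 + M) * ‖w‖ + M * (2 * C + 1) * ‖w‖) := by
        refine add_le_add b1 (b4.trans (add_le_add b2 b3))
    _ = _ := by ring

end basic

end Vale.Agent.P073.SMV
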