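import Vale.Agent.P073.SMV.ShiftStep
import Vale.Agent.P073.SMV.Cap
import Vale.Agent.P073.SMV.Seg

/-!
# Preparations for the vertex step: segments, small neighbourhoods, local bounds
-/

namespace Vale.Agent.P073.SMV

open Set Filter Topology Metric MeasureTheory
open scoped ContDiff ENNReal NNReal

/-- Disjoint segments from the vertices to the boundary. -/
structure SegData (Ω : Set R3) {ι : Type} (x d : ι → R3) (R : ι → ℝ) : Prop where
  pos : ∀ i, 0 < R i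
  unit : ∀ i, ‖d i‖ = 1
  mem : ∀ i, ∀ t ∈ Ico 0 (R i), x i + t • d i ∈ Ω
  out : ∀ i, x i + R i • d i ∉ Ω
  disj : ∀ i j, i ≠ j → ∀ s ∈ Ico 0 (R i), ∀ t ∈ Ico 0 (R j), x i + s • d i ≠ x j + t • d j
  fin : ∀ K ⊆ Ω, IsCompact K → {i | ∃ t ∈ Ico 0 (R i), x i + t • d i ∈ K}.Finite

/-- The segment. -/
def sg (x d : R3) (R : ℝ) : Set R3 := (fun t : ℝ => x + t • d) '' Ico 0 R

variable {Ω : Set R3} {ι : Type} {x d : ι → R3} {R : ι → ℝ}

theorem SegData.isOpen_sdiff (hs : SegData Ω x d R) (hΩ : IsOpen Ω) (J : Set ι) :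
    IsOpen (Ω \ ⋃ j ∈ J, sg (x j) (d j) (R j)) := by
  rw [isOpen_iff_mem_nhds]
  rintro z ⟨hz, hzJ⟩
  obtain ⟨r, hr, hb⟩ := Metric.nhds_basis_closedBall.mem_iff.1 (hΩ.mem_nhds hz)
  have hfin := hs.fin _ hb (isCompact_closedBall z r)
  set F := {i | ∃ t ∈ Ico 0 (R i), x i + t • d i ∈ closedBall z r} with hF
  -- the closed segments
  set Z : ι → Set R3 := fun j => (fun t : ℝ => x j + t • d j) '' Icc 0 (R j) with hZ
  have hZc : ∀ j, IsClosed (Z j) := fun j =>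
    (isCompact_Icc.image (continuous_const.add (continuous_id.smul continuous_const))).isClosed
  have hzZ : ∀ j ∈ J, z ∉ Z j := by
    rintro j hj ⟨t, ht, hzt⟩
    rcases eq_or_lt_of_le ht.2 with h1 | h1
    · apply hs.out j
      rw [← h1]
      simp only at hzt
      rw [hzt]; exact hz
    · exact hzJ (mem_iUnion₂.2 ⟨j, hj, t, ⟨ht.1, h1⟩, hzt⟩)
  have hev : ∀ᶠ y in 𝓝 z, ∀ j ∈ F, j ∈ J → y ∉ Z j := by
    rw [hfin.eventually_all]
    intro j _
    by_cases hj : j ∈ J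
    · filter_upwards [(hZc j).isOpen_compl.mem_nhds (hzZ j hj)] with y hy _
      exact hy
    · exact Eventually.of_forall fun y h => absurd h hj
  filter_upwards [hev, closedBall_mem_nhds z hr] with y hy hyr
  refine ⟨hb hyr, ?_⟩
  intro hyJ
  obtain ⟨j, hj, t, ht, hyt⟩ := mem_iUnion₂.1 hyJ
  have hjF : j ∈ F := ⟨t, ht, by simp only at hyt; rw [hyt]; exact hyr⟩
  exact hy j hjF hj ⟨t, ⟨ht.1, ht.2.le⟩, hyt⟩

/-- Small open neighbourhoods of null sets. -/
theorem exists_open_small (hΩ : IsOpen Ω) {ν : Measure R3}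
    (hν : ∀ K ⊆ Ω, IsCompact K → ν K < ⊤) {A : Set R3} (hA : A ⊆ Ω) (hνA : ν A = 0)
    {w : ℝ≥0∞} (hw : w ≠ 0) : ∃ U, IsOpen U ∧ A ⊆ U ∧ U ⊆ Ω ∧ ν U < w := by
  have : LocallyCompactSpace Ω := hΩ.locallyCompactSpace
  set ν' : Measure Ω := ν.comap Subtype.val with hν'
  have hemb : MeasurableEmbedding (Subtype.val : Ω → R3) := MeasurableEmbedding.subtype_coe
    hΩ.measurableSet
  have : IsLocallyFiniteMeasure ν' := by
    refine ⟨fun z => ?_⟩
    obtain ⟨r, hr, hb⟩ := Metric.nhds_basis_closedBall.mem_iff.1 (hΩ.mem_nhds z.2)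
    refine ⟨Subtype.val ⁻¹' closedBall (z : R3) r,
      continuous_subtype_val.continuousAt.preimage_mem_nhds (closedBall_mem_nhds _ hr), ?_⟩
    rw [hν', hemb.comap_apply]
    refine lt_of_le_of_lt (measure_mono (image_preimage_subset _ _)) ?_
    exact hν _ hb (isCompact_closedBall _ _)
  have h1 : ν' (Subtype.val ⁻¹' A) < w := by
    rw [hν', hemb.comap_apply]
    refine lt_of_le_of_lt (measure_mono (image_preimage_subset _ _)) ?_
    rw [hνA]
    exact pos_iff_ne_zero.2 hw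
  obtain ⟨U, hUA, hUo, hUw⟩ := (Subtype.val ⁻¹' A : Set Ω).exists_isOpen_lt_of_lt w h1
  refine ⟨Subtype.val '' U, hΩ.isOpenMap_subtype_val U hUo, ?_, ?_, ?_⟩
  · intro a ha
    exact ⟨⟨a, hA ha⟩, hUA ha, rfl⟩
  · rintro _ ⟨a, -, rfl⟩
    exact a.2
  · rwa [hν', hemb.comap_apply] at hUw

/-- Local bounds of the derivative of a map of class one. -/
theorem ClassOne.locally_bounded {Λ S : Set R3} {h k : R3 → R3} (hΩ : IsOpen Ω) (hΛ : IsOpen Λ)
    (hc : ClassOne Ω Λ S h k) : ∀ z ∈ Ω, ∃ C, ∀ᶠ y in 𝓝[Ω] z, ‖fderiv ℝ h y‖ ≤ C := by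
  intro z hz
  by_cases hzS : z ∈ S
  · obtain ⟨H, K, r, C, hD⟩ := hc.exists_vtx hΩ hΛ hzS
    refine ⟨max C ‖fderiv ℝ h z‖, ?_⟩
    apply eventually_nhdsWithin_of_eventually_nhds
    filter_upwards [ball_mem_nhds z hD.pos] with y hy
    by_cases hyz : y = z
    · rw [hyz]; exact le_max_right _ _
    · rw [mem_ball, dist_eq_norm] at hy
      have := hD.bound (y - z) hy (sub_ne_zero.2 hyz)
      rw [add_sub_cancel] at this
      exact this.trans (le_max_left _ _)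
  · have h1 : ContinuousAt (fun y => ‖fderiv ℝ h y‖) z :=
      ((hc.reg z hz hzS).1.fderiv_right (m := ∞) (by simp)).continuousAt.norm
    refine ⟨‖fderiv ℝ h z‖ + 1, ?_⟩
    apply eventually_nhdsWithin_of_eventually_nhds
    filter_upwards [h1.eventually (gt_mem_nhds (lt_add_one _))] with y hy
    exact hy.le

end Vale.Agent.P073.SMV
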